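import Vale.Agent.P021.Det.Defs

open Polynomial Filter Topology

namespace Vale.Agent.P021.Det

theorem AU_ev_mul (F G : ℝ[X]) (s : ℂ) : ev (F * G) s = ev F s * ev G s := by
  simp [ev]

theorem AU_ev_pow (F : ℝ[X]) (n : ℕ) (s : ℂ) : ev (F ^ n) s = ev F s ^ n := by
  simp [ev]

theorem AU_ev_X (s : ℂ) : ev X s = tau s := by
  simp [ev]

theorem AU_Wp (a b n : ℕ) : Wp (a * n) (b * n) = Wp a b ^ n := by
  unfold Wp
  rw [mul_pow, ← pow_mul, ← pow_mul]

/-- the estimate for one row polynomial -/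
def AU_Good (S T : Set ℂ) (w : ℝ) (a0 b0 m0 : ℕ) (C1 : ℝ) (n i : ℕ) (P : ℝ[X]) (l : ℝ) : Prop :=
  P.Monic ∧ P.natDegree = i ∧
  (∀ s ∈ S, ‖ev P s‖ ^ 2 * ‖ev (Wp (a0 * n) (b0 * n)) s‖ ≤
    C1 * Real.exp l * ‖tau s‖ ^ (m0 * n)) ∧
  (∀ s ∈ T, ‖ev P s‖ ^ 2 * ‖ev (Wp (a0 * n) (b0 * n)) s‖ ≤
    C1 * Real.exp (l + w * n) * ‖tau s‖ ^ (m0 * n))

/-- pointwise estimate behind `AU_Good` -/
theorem AU_point (a0 b0 m0 n r e R : ℕ) (hr : r ≤ n) (he : e ≤ R) (B x y : ℝ) (hB : 1 ≤ B)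
    (F G : ℝ[X]) (s : ℂ) (hs : ‖tau s‖ ≤ B)
    (hF : ‖ev F s‖ ^ 2 * ‖ev (Wp a0 b0) s‖ ≤ Real.exp x * ‖tau s‖ ^ m0)
    (hG : ‖ev G s‖ ^ 2 * ‖ev (Wp a0 b0) s‖ ≤ Real.exp y * ‖tau s‖ ^ m0) :
    ‖ev (X ^ e * F ^ (n - r) * G ^ r) s‖ ^ 2 * ‖ev (Wp (a0 * n) (b0 * n)) s‖ ≤
      B ^ (2 * R) * Real.exp (x * ((n - r : ℕ) : ℝ) + y * (r : ℝ)) * ‖tau s‖ ^ (m0 * n) := by
  have e1 : ‖ev (X ^ e * F ^ (n - r) * G ^ r) s‖ ^ 2 * ‖ev (Wp (a0 * n) (b0 * n)) s‖ =
      (‖tau s‖ ^ (2 * e)) * (‖ev F s‖ ^ 2 * ‖ev (Wp a0 b0) s‖) ^ (n - r) *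
        (‖ev G s‖ ^ 2 * ‖ev (Wp a0 b0) s‖) ^ r := by
    rw [AU_Wp, AU_ev_pow, AU_ev_mul, AU_ev_mul, AU_ev_pow, AU_ev_pow, AU_ev_pow, AU_ev_X]
    simp only [norm_mul, norm_pow]
    have h3 : ‖ev (Wp a0 b0) s‖ ^ n =
        ‖ev (Wp a0 b0) s‖ ^ (n - r) * ‖ev (Wp a0 b0) s‖ ^ r := by
      rw [← pow_add, Nat.sub_add_cancel hr]
    rw [h3]
    ring
  rw [e1]
  have h1 : (‖ev F s‖ ^ 2 * ‖ev (Wp a0 b0) s‖) ^ (n - r) ≤
      (Real.exp x * ‖tau s‖ ^ m0) ^ (n - r) :=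
    pow_le_pow_left₀ (by positivity) hF _
  have h2 : (‖ev G s‖ ^ 2 * ‖ev (Wp a0 b0) s‖) ^ r ≤ (Real.exp y * ‖tau s‖ ^ m0) ^ r :=
    pow_le_pow_left₀ (by positivity) hG _
  have h3 : ‖tau s‖ ^ (2 * e) ≤ B ^ (2 * R) := by
    calc ‖tau s‖ ^ (2 * e) ≤ B ^ (2 * e) := pow_le_pow_left₀ (norm_nonneg _) hs _
      _ ≤ B ^ (2 * R) := pow_le_pow_right₀ hB (by omega)
  have e2 : Real.exp (x * ((n - r : ℕ) : ℝ) + y * (r : ℝ)) =
      Real.exp x ^ (n - r) * Real.exp y ^ r := by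
    rw [Real.exp_add, ← Real.exp_nat_mul, ← Real.exp_nat_mul, mul_comm x, mul_comm y]
  have e3 : ‖tau s‖ ^ (m0 * n) = (‖tau s‖ ^ m0) ^ (n - r) * (‖tau s‖ ^ m0) ^ r := by
    rw [← pow_add, Nat.sub_add_cancel hr, pow_mul]
  calc ‖tau s‖ ^ (2 * e) * (‖ev F s‖ ^ 2 * ‖ev (Wp a0 b0) s‖) ^ (n - r) *
        (‖ev G s‖ ^ 2 * ‖ev (Wp a0 b0) s‖) ^ r
      ≤ B ^ (2 * R) * (Real.exp x * ‖tau s‖ ^ m0) ^ (n - r) *
        (Real.exp y * ‖tau s‖ ^ m0) ^ r := by gcongr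
    _ = _ := by
        rw [e2, e3, mul_pow, mul_pow]
        ring

theorem AU_block {S T : Set ℂ} {w : ℝ} (a0 b0 m0 n r e R : ℕ) (hr : r ≤ n) (he : e ≤ R)
    (B x y : ℝ) (hB : 1 ≤ B) (hBS : ∀ s ∈ S, ‖tau s‖ ≤ B) (hBT : ∀ s ∈ T, ‖tau s‖ ≤ B)
    (F G : ℝ[X]) (hFm : F.Monic) (hGm : G.Monic)
    (hFS : ∀ s ∈ S, ‖ev F s‖ ^ 2 * ‖ev (Wp a0 b0) s‖ ≤ Real.exp x * ‖tau s‖ ^ m0)
    (hFT : ∀ s ∈ T, ‖ev F s‖ ^ 2 * ‖ev (Wp a0 b0) s‖ ≤ Real.exp (x + w) * ‖tau s‖ ^ m0)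
    (hGS : ∀ s ∈ S, ‖ev G s‖ ^ 2 * ‖ev (Wp a0 b0) s‖ ≤ Real.exp y * ‖tau s‖ ^ m0)
    (hGT : ∀ s ∈ T, ‖ev G s‖ ^ 2 * ‖ev (Wp a0 b0) s‖ ≤ Real.exp (y + w) * ‖tau s‖ ^ m0) :
    AU_Good S T w a0 b0 m0 (B ^ (2 * R)) n (e + F.natDegree * (n - r) + G.natDegree * r)
      (X ^ e * F ^ (n - r) * G ^ r) (x * ((n - r : ℕ) : ℝ) + y * (r : ℝ)) := by
  refine ⟨((monic_X_pow e).mul (hFm.pow _)).mul (hGm.pow _), ?_, ?_, ?_⟩
  · rw [Monic.natDegree_mul ((monic_X_pow e).mul (hFm.pow _)) (hGm.pow _),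
      Monic.natDegree_mul (monic_X_pow e) (hFm.pow _), natDegree_X_pow, hFm.natDegree_pow,
      hGm.natDegree_pow]
    ring
  · intro s hs
    exact AU_point a0 b0 m0 n r e R hr he B x y hB F G s (hBS s hs) (hFS s hs) (hGS s hs)
  · intro s hs
    have h := AU_point a0 b0 m0 n r e R hr he B (x + w) (y + w) hB F G s (hBT s hs)
      (hFT s hs) (hGT s hs)
    have e1 : (x + w) * ((n - r : ℕ) : ℝ) + (y + w) * (r : ℝ) =
        x * ((n - r : ℕ) : ℝ) + y * (r : ℝ) + w * n := by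
      have : ((n - r : ℕ) : ℝ) = n - r := by rw [Nat.cast_sub hr]
      rw [this]
      ring
    rwa [e1] at h

theorem AU_sum_div (D n : ℕ) (hD : 0 < D) (f : ℕ → ℝ) :
    ∑ i ∈ Finset.range (D * n), f (i / D) = D * ∑ r ∈ Finset.range n, f r := by
  induction n with
  | zero => simp
  | succ n ih =>
    rw [mul_add, mul_one, Finset.sum_range_add, ih, Finset.sum_range_succ, mul_add]
    congr 1
    rw [Finset.sum_congr rfl (g := fun _ => f n), Finset.sum_const, Finset.card_range,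
      nsmul_eq_mul]
    intro t ht
    have ht' := Finset.mem_range.1 ht
    congr 1
    rw [Nat.mul_add_div hD, Nat.div_eq_of_lt ht', add_zero]

theorem AU_sum_lin (n : ℕ) (x y : ℝ) :
    ∑ r ∈ Finset.range n, (x * ((n - r : ℕ) : ℝ) + y * (r : ℝ)) =
      x * (n * (n + 1) / 2) + y * (n * (n - 1) / 2) := by
  have h1 : ∀ n : ℕ, ∑ r ∈ Finset.range n, (r : ℝ) = n * (n - 1) / 2 := by
    intro n
    induction n with
    | zero => simp
    | succ n ih => rw [Finset.sum_range_succ, ih]; push_cast; ring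
  have h2 : ∑ r ∈ Finset.range n, ((n - r : ℕ) : ℝ) = n * (n + 1) / 2 := by
    have : ∑ r ∈ Finset.range n, ((n - r : ℕ) : ℝ) = ∑ r ∈ Finset.range n, ((n : ℝ) - r) := by
      apply Finset.sum_congr rfl
      intro r hr
      rw [Nat.cast_sub (Finset.mem_range.1 hr).le]
    rw [this, Finset.sum_sub_distrib, h1, Finset.sum_const, Finset.card_range, nsmul_eq_mul]
    ring
  rw [Finset.sum_add_distrib, ← Finset.mul_sum, ← Finset.mul_sum, h1, h2]

/-- existence of all row polynomials, by blocks -/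
theorem AU_blocks {K0 a0 b0 m0 N : ℕ} {w : ℝ} {S T : Set ℂ}
    (C : Cert K0 a0 b0 m0 N w S T) (B : ℝ) (hB : 1 ≤ B)
    (hBS : ∀ s ∈ S, ‖tau s‖ ≤ B) (hBT : ∀ s ∈ T, ‖tau s‖ ≤ B) (n R : ℕ) (hR : K0 ≤ R)
    (J : ℕ) (hJ : J ≤ N) :
    ∃ (P : ℕ → ℝ[X]) (l : ℕ → ℝ),
      (∀ i < C.d J * n, AU_Good S T w a0 b0 m0 (B ^ (2 * R)) n i (P i) (l i)) ∧
      ∑ i ∈ Finset.range (C.d J * n), l i = ∑ j ∈ Finset.range J,
        ((C.d (j + 1) : ℝ) - C.d j) *
          (C.L j * (n * (n + 1) / 2) + C.L (j + 1) * (n * (n - 1) / 2)) := by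
  induction J with
  | zero =>
    refine ⟨fun _ => 0, fun _ => 0, ?_, ?_⟩
    · intro i hi
      rw [C.d_zero, zero_mul] at hi
      omega
    · rw [C.d_zero]
      simp
  | succ J ih =>
    obtain ⟨P, l, hP, hl⟩ := ih (by omega)
    have hlt : C.d J < C.d (J + 1) := C.d_lt J (by omega)
    set D : ℕ := C.d (J + 1) - C.d J with hDdef
    have hD : 0 < D := by omega
    have hDK : D ≤ K0 := by
      have hmono : ∀ k, J + 1 + k ≤ N → C.d (J + 1) ≤ C.d (J + 1 + k) := by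
        intro k
        induction k with
        | zero => intro _; exact le_rfl
        | succ k ihk =>
          intro hk
          have := C.d_lt (J + 1 + k) (by omega)
          have h2 := ihk (by omega)
          rw [show J + 1 + (k + 1) = J + 1 + k + 1 by ring]
          omega
      have := hmono (N - (J + 1)) (by omega)
      rw [show J + 1 + (N - (J + 1)) = N by omega, C.d_last] at this
      omega
    have hsplit : C.d (J + 1) * n = C.d J * n + D * n := by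
      rw [← add_mul]
      congr 1
      omega
    refine ⟨fun i => if i < C.d J * n then P i else
        X ^ ((i - C.d J * n) % D) * C.F J ^ (n - (i - C.d J * n) / D) *
          C.F (J + 1) ^ ((i - C.d J * n) / D),
      fun i => if i < C.d J * n then l i else
        C.L J * ((n - (i - C.d J * n) / D : ℕ) : ℝ) +
          C.L (J + 1) * (((i - C.d J * n) / D : ℕ) : ℝ), ?_, ?_⟩
    · intro i hi
      by_cases h : i < C.d J * n
      · simp only [h, if_true]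
        exact hP i h
      · simp only [h, if_false]
        have hi2 : i - C.d J * n < D * n := by omega
        have hr : (i - C.d J * n) / D < n := Nat.div_lt_of_lt_mul hi2
        have he : (i - C.d J * n) % D < D := Nat.mod_lt _ hD
        have hb := AU_block (S := S) (T := T) (w := w) a0 b0 m0 n ((i - C.d J * n) / D)
          ((i - C.d J * n) % D) R hr.le (by omega) B (C.L J) (C.L (J + 1)) hB hBS hBT
          (C.F J) (C.F (J + 1)) (C.monic J (by omega)) (C.monic (J + 1) hJ)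
          (C.path J (by omega)) (C.circ J (by omega)) (C.path (J + 1) hJ) (C.circ (J + 1) hJ)
        have e1 : (i - C.d J * n) % D + (C.F J).natDegree * (n - (i - C.d J * n) / D) +
            (C.F (J + 1)).natDegree * ((i - C.d J * n) / D) = i := by
          rw [C.deg J (by omega), C.deg (J + 1) hJ]
          have h3 : C.d (J + 1) = C.d J + D := by omega
          rw [h3]
          have h4 := Nat.mod_add_div (i - C.d J * n) D
          have h5 : C.d J * (n - (i - C.d J * n) / D) + C.d J * ((i - C.d J * n) / D) =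
              C.d J * n := by
            rw [← mul_add, Nat.sub_add_cancel hr.le]
          rw [add_mul]
          omega
        rw [e1] at hb
        exact hb
    · rw [hsplit, Finset.sum_range_add, Finset.sum_range_succ, ← hl]
      congr 1
      · apply Finset.sum_congr rfl
        intro i hi
        rw [if_pos (Finset.mem_range.1 hi)]
      · have h6 : ∀ t ∈ Finset.range (D * n),
            (if C.d J * n + t < C.d J * n then l (C.d J * n + t) else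
              C.L J * ((n - (C.d J * n + t - C.d J * n) / D : ℕ) : ℝ) +
              C.L (J + 1) * (((C.d J * n + t - C.d J * n) / D : ℕ) : ℝ)) =
            (fun r : ℕ => C.L J * ((n - r : ℕ) : ℝ) + C.L (J + 1) * (r : ℝ)) (t / D) := by
          intro t _
          rw [if_neg (by omega), Nat.add_sub_cancel_left]
        rw [Finset.sum_congr rfl h6, AU_sum_div D n hD
          (fun r : ℕ => C.L J * ((n - r : ℕ) : ℝ) + C.L (J + 1) * (r : ℝ)), AU_sum_lin]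
        congr 1
        rw [hDdef, Nat.cast_sub hlt.le]

/-- all row polynomials -/
theorem AU_rows {K0 a0 b0 m0 N : ℕ} {w : ℝ} {S T : Set ℂ}
    (C : Cert K0 a0 b0 m0 N w S T) (B : ℝ) (hB : 1 ≤ B)
    (hBS : ∀ s ∈ S, ‖tau s‖ ≤ B) (hBT : ∀ s ∈ T, ‖tau s‖ ≤ B) (n κ : ℕ) (hκ : κ ≤ 2) :
    ∃ (P : ℕ → ℝ[X]) (l : ℕ → ℝ),
      (∀ i < K0 * n + κ, AU_Good S T w a0 b0 m0 (B ^ (2 * (K0 + 2))) n i (P i) (l i)) ∧
      ∑ i ∈ Finset.range (K0 * n + κ), l i = ∑ j ∈ Finset.range N,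
        ((C.d (j + 1) : ℝ) - C.d j) *
          (C.L j * (n * (n + 1) / 2) + C.L (j + 1) * (n * (n - 1) / 2)) +
        κ * (C.L N * n) := by
  obtain ⟨P, l, hP, hl⟩ := AU_blocks C B hB hBS hBT n (K0 + 2) (by omega) N le_rfl
  rw [C.d_last] at hP hl
  refine ⟨fun i => if i < K0 * n then P i else X ^ (i - K0 * n) * C.F N ^ (n - 0) * C.F N ^ 0,
    fun i => if i < K0 * n then l i else C.L N * ((n - 0 : ℕ) : ℝ) + C.L N * ((0 : ℕ) : ℝ),
    ?_, ?_⟩
  · intro i hi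
    by_cases h : i < K0 * n
    · simp only [h, if_true]
      exact hP i h
    · simp only [h, if_false]
      have hb := AU_block (S := S) (T := T) (w := w) a0 b0 m0 n 0 (i - K0 * n) (K0 + 2)
        (Nat.zero_le _) (by omega) B (C.L N) (C.L N) hB hBS hBT
        (C.F N) (C.F N) (C.monic N le_rfl) (C.monic N le_rfl)
        (C.path N le_rfl) (C.circ N le_rfl) (C.path N le_rfl) (C.circ N le_rfl)
      have e1 : (i - K0 * n) + (C.F N).natDegree * (n - 0) + (C.F N).natDegree * 0 = i := by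
        rw [C.deg N le_rfl, C.d_last, mul_zero, add_zero, Nat.sub_zero]
        omega
      rw [e1] at hb
      exact hb
  · rw [Finset.sum_range_add, ← hl]
    congr 1
    · apply Finset.sum_congr rfl
      intro i hi
      rw [if_pos (Finset.mem_range.1 hi)]
    · rw [Finset.sum_congr rfl (g := fun _ => C.L N * n), Finset.sum_const, Finset.card_range,
        nsmul_eq_mul]
      intro t _
      rw [if_neg (by omega), Nat.sub_zero]
      simp

end Vale.Agent.P021.Det
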