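import Vale.Agent.P021.Det.Defs

open Polynomial

namespace Vale.Agent.P021.Det

theorem DetLem_expand (K : ℕ) {p : ℝ[X]} (hp : p.natDegree < K) :
    p = ∑ k : Fin K, p.coeff k • (X : ℝ[X]) ^ (k : ℕ) := by
  conv_lhs => rw [p.as_sum_range' K hp]
  rw [Finset.sum_range]
  refine Finset.sum_congr rfl fun k _ => ?_
  rw [smul_X_eq_monomial]

theorem det_HM_monic (x : ℝ) (a b m K : ℕ) (P : ℕ → ℝ[X]) (hP : ∀ i < K, (P i).Monic)
    (hd : ∀ i < K, (P i).natDegree = i) :
    (HM x a b m K).det =
      (Matrix.of fun i j : Fin K => Lam x m (P i * P j * Wp a b)).det := by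
  set U : Matrix (Fin K) (Fin K) ℝ := Matrix.of fun i k => (P i).coeff k with hU
  have hdet : U.det = 1 := by
    rw [Matrix.det_of_isLowerTriangular]
    · refine Finset.prod_eq_one fun i _ => ?_
      have h1 := hP i i.2
      rw [Monic, leadingCoeff, hd i i.2] at h1
      exact h1
    · intro i j hij
      have hij' : (i : ℕ) < j := hij
      rw [hU, Matrix.of_apply]
      apply coeff_eq_zero_of_natDegree_lt
      rw [hd i i.2]
      exact hij'
  have hmat : (Matrix.of fun i j : Fin K => Lam x m (P i * P j * Wp a b)) =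
      U * HM x a b m K * U.transpose := by
    ext i j
    rw [Matrix.of_apply, Matrix.mul_apply]
    simp only [Matrix.mul_apply, Matrix.transpose_apply, HM, Matrix.of_apply, hU]
    have hi := DetLem_expand K (by rw [hd i i.2]; exact i.2 : (P i).natDegree < K)
    have hj := DetLem_expand K (by rw [hd j j.2]; exact j.2 : (P j).natDegree < K)
    conv_lhs => rw [hi, hj]
    rw [Finset.sum_mul_sum, Finset.sum_mul, map_sum]
    simp only [Finset.sum_mul, map_sum]
    rw [Finset.sum_comm]
    refine Finset.sum_congr rfl fun l _ => Finset.sum_congr rfl fun k _ => ?_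
    rw [smul_mul_smul_comm, ← pow_add, smul_mul_assoc, map_smul, smul_eq_mul]
    ring
  rw [hmat, Matrix.det_mul, Matrix.det_mul, Matrix.det_transpose, hdet, one_mul, mul_one]

theorem abs_det_le_of_entries {K : ℕ} (A : Matrix (Fin K) (Fin K) ℝ) (u : ℕ → ℝ)
    (hu : ∀ i < K, 0 ≤ u i) (h : ∀ i j, |A i j| ≤ u i * u j) :
    |A.det| ≤ (K.factorial : ℝ) * ∏ i ∈ Finset.range K, u i ^ 2 := by
  have _ := hu
  rw [Matrix.det_apply]
  refine (Finset.abs_sum_le_sum_abs _ _).trans ?_
  have h1 : ∀ s : Equiv.Perm (Fin K), |Equiv.Perm.sign s • ∏ i, A (s i) i| ≤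
      ∏ i ∈ Finset.range K, u i ^ 2 := fun s => by
    have h2 : |Equiv.Perm.sign s • ∏ i, A (s i) i| = ∏ i, |A (s i) i| := by
      rw [← Finset.abs_prod]
      rcases Int.units_eq_one_or (Equiv.Perm.sign s) with h | h
      · rw [h, one_smul]
      · rw [h, Units.neg_smul, one_smul, abs_neg]
    rw [h2]
    calc ∏ i, |A (s i) i| ≤ ∏ i : Fin K, u (s i) * u i :=
          Finset.prod_le_prod (fun i _ => abs_nonneg _) fun i _ => h _ _
      _ = (∏ i : Fin K, u (s i)) * ∏ i : Fin K, u i := Finset.prod_mul_distrib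
      _ = (∏ i : Fin K, u i) * ∏ i : Fin K, u i := by
          rw [Equiv.prod_comp s fun i : Fin K => u i]
      _ = ∏ i ∈ Finset.range K, u i ^ 2 := by
          rw [← Finset.prod_mul_distrib, ← Fin.prod_univ_eq_prod_range (fun i => u i ^ 2) K]
          exact Finset.prod_congr rfl fun i _ => (sq _).symm
  refine (Finset.sum_le_sum fun s _ => h1 s).trans (le_of_eq ?_)
  rw [Finset.sum_const, Finset.card_univ, Fintype.card_perm, Fintype.card_fin, nsmul_eq_mul]

end Vale.Agent.P021.Det
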