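import Vale.Agent.P021.Det.Defs

/-! P021, determinant method: the functional at `π` as an integral along a polygon. -/

open Polynomial Filter Topology

namespace Vale.Agent.P021.Det

/-- the strip `|Re s| < 5` -/
def Path_strip : Set ℂ := {s : ℂ | |s.re| < 5}

theorem Path_strip_convex : Convex ℝ Path_strip := by
  have : Path_strip = Complex.reCLM ⁻¹' (Set.Ioo (-5 : ℝ) 5) := by
    ext s; simp [Path_strip, abs_lt]
  rw [this]
  exact (convex_Ioo _ _).linear_preimage Complex.reCLM.toLinearMap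

theorem Path_mem_seg {u v : ℂ} (hu : |u.re| < 5) (hv : |v.re| < 5) {t : ℝ} (h0 : 0 ≤ t)
    (h1 : t ≤ 1) : |(u + (t : ℂ) * (v - u)).re| < 5 := by
  have h := Path_strip_convex.add_smul_sub_mem (show u ∈ Path_strip from hu)
    (show v ∈ Path_strip from hv) (t := t) ⟨h0, h1⟩
  simpa [Path_strip] using h

theorem Path_seg_mem (u v : ℂ) {t : ℝ} (h0 : 0 ≤ t) (h1 : t ≤ 1) :
    u + (t : ℂ) * (v - u) ∈ segment ℝ u v := by
  rw [segment_eq_image']
  exact ⟨t, ⟨h0, h1⟩, by simp⟩

theorem Path_seg_mem' {u v s : ℂ} (hu : |u.re| < 5) (hv : |v.re| < 5) (hs : s ∈ segment ℝ u v) :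
    |s.re| < 5 :=
  Path_strip_convex.segment_subset (show u ∈ Path_strip from hu) (show v ∈ Path_strip from hv) hs

theorem Path_tau_ne {s : ℂ} (hs : |s.re| < 5) : tau s ≠ 0 := by
  intro h
  have h1 : (s - 5) * (s + 5) = 0 := by unfold tau at h; linear_combination h
  rcases mul_eq_zero.1 h1 with h2 | h2
  · have : s = 5 := by linear_combination h2
    rw [this] at hs; norm_num at hs
  · have : s = -5 := by linear_combination h2
    rw [this] at hs; norm_num at hs

/-- the fundamental theorem of calculus on a segment of the strip -/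
theorem Path_segI_prim {f G : ℂ → ℂ} (hG : ∀ s : ℂ, |s.re| < 5 → HasDerivAt G (f s) s)
    (hf : ∀ s : ℂ, |s.re| < 5 → ContinuousAt f s) {u v : ℂ} (hu : |u.re| < 5) (hv : |v.re| < 5) :
    segI f u v = G v - G u := by
  have hγ : ∀ t : ℝ, HasDerivAt (fun t : ℝ => u + (t : ℂ) * (v - u)) (v - u) t := by
    intro t
    have h1 : HasDerivAt (fun t : ℝ => (t : ℂ)) 1 t := Complex.ofRealCLM.hasDerivAt
    simpa using (h1.mul_const (v - u)).const_add u
  have hder : ∀ t ∈ Set.uIcc (0 : ℝ) 1, HasDerivAt (fun t : ℝ => G (u + (t : ℂ) * (v - u)))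
      (f (u + (t : ℂ) * (v - u)) * (v - u)) t := by
    intro t ht
    rw [Set.uIcc_of_le zero_le_one] at ht
    exact (hG _ (Path_mem_seg hu hv ht.1 ht.2)).comp t (hγ t)
  have hcont : ContinuousOn (fun t : ℝ => f (u + (t : ℂ) * (v - u)) * (v - u))
      (Set.uIcc (0 : ℝ) 1) := by
    intro t ht
    rw [Set.uIcc_of_le zero_le_one] at ht
    apply ContinuousAt.continuousWithinAt
    apply ContinuousAt.mul _ continuousAt_const
    exact ContinuousAt.comp (f := fun t : ℝ => u + (t : ℂ) * (v - u))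
      (hf _ (Path_mem_seg hu hv ht.1 ht.2)) (hγ t).continuousAt
  have h := intervalIntegral.integral_eq_sub_of_hasDerivAt hder hcont.intervalIntegrable
  unfold segI
  rw [intervalIntegral.integral_mul_const] at h
  rw [mul_comm, h]
  simp

theorem Path_pathI_prim {f G : ℂ → ℂ} (hG : ∀ s : ℂ, |s.re| < 5 → HasDerivAt G (f s) s)
    (hf : ∀ s : ℂ, |s.re| < 5 → ContinuousAt f s) (l : List ℂ) (hs : ∀ v ∈ l, |v.re| < 5)
    {u w : ℂ} (hh : l.head? = some u) (hl : l.getLast? = some w) : pathI f l = G w - G u := by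
  induction l generalizing u with
  | nil => simp at hh
  | cons a l ih =>
    cases l with
    | nil =>
      simp at hh hl
      subst hh; subst hl
      simp [pathI]
    | cons b l =>
      have ha : |a.re| < 5 := hs a (by simp)
      have hb : |b.re| < 5 := hs b (by simp)
      have hau : a = u := by simpa using hh
      have h1 := ih (fun v hv => hs v (List.mem_cons_of_mem _ hv)) (u := b) (by simp)
        (by simpa using hl)
      show segI f a b + pathI f (b :: l) = _
      rw [h1, Path_segI_prim hG hf ha hb, ← hau]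
      ring

theorem Path_cont_zpow (k : ℤ) {s : ℂ} (hs : |s.re| < 5) :
    ContinuousAt (fun s => tau s ^ k) s := by
  apply ContinuousAt.zpow₀
  · unfold tau; fun_prop
  · left; exact Path_tau_ne hs

theorem Path_tau_deriv (s : ℂ) : HasDerivAt tau (2 * s) s := by
  unfold tau
  simpa using (hasDerivAt_pow 2 s).sub_const 25

theorem Path_segI_add {f g : ℂ → ℂ} (hf : ∀ s : ℂ, |s.re| < 5 → ContinuousAt f s)
    (hg : ∀ s : ℂ, |s.re| < 5 → ContinuousAt g s) {u v : ℂ} (hu : |u.re| < 5) (hv : |v.re| < 5) :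
    segI (fun s => f s + g s) u v = segI f u v + segI g u v := by
  have hint : ∀ f : ℂ → ℂ, (∀ s : ℂ, |s.re| < 5 → ContinuousAt f s) →
      IntervalIntegrable (fun t : ℝ => f (u + (t : ℂ) * (v - u))) MeasureTheory.volume 0 1 := by
    intro f hf
    apply ContinuousOn.intervalIntegrable
    intro t ht
    rw [Set.uIcc_of_le zero_le_one] at ht
    apply ContinuousAt.continuousWithinAt
    exact ContinuousAt.comp (f := fun t : ℝ => u + (t : ℂ) * (v - u))
      (hf _ (Path_mem_seg hu hv ht.1 ht.2)) (by fun_prop)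
  unfold segI
  rw [intervalIntegral.integral_add (hint f hf) (hint g hg)]
  ring

theorem Path_segI_smul (c : ℂ) (f : ℂ → ℂ) (u v : ℂ) :
    segI (fun s => c * f s) u v = c * segI f u v := by
  unfold segI
  rw [intervalIntegral.integral_const_mul]
  ring

theorem Path_pathI_add {f g : ℂ → ℂ} (hf : ∀ s : ℂ, |s.re| < 5 → ContinuousAt f s)
    (hg : ∀ s : ℂ, |s.re| < 5 → ContinuousAt g s) (l : List ℂ) (hs : ∀ v ∈ l, |v.re| < 5) :
    pathI (fun s => f s + g s) l = pathI f l + pathI g l := by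
  induction l with
  | nil => simp [pathI]
  | cons a l ih =>
    cases l with
    | nil => simp [pathI]
    | cons b l =>
      show segI _ a b + pathI _ (b :: l) = (segI f a b + pathI f (b :: l)) +
        (segI g a b + pathI g (b :: l))
      rw [ih (fun v hv => hs v (List.mem_cons_of_mem _ hv)),
        Path_segI_add hf hg (hs a (by simp)) (hs b (by simp))]
      ring

theorem Path_pathI_smul (c : ℂ) (f : ℂ → ℂ) (l : List ℂ) :
    pathI (fun s => c * f s) l = c * pathI f l := by
  induction l with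
  | nil => simp [pathI]
  | cons a l ih =>
    cases l with
    | nil => simp [pathI]
    | cons b l =>
      show segI _ a b + pathI _ (b :: l) = c * (segI f a b + pathI f (b :: l))
      rw [ih, Path_segI_smul]
      ring

theorem Path_pathI_zero (l : List ℂ) : pathI (fun _ => 0) l = 0 := by
  have := Path_pathI_smul 0 (fun _ => 0) l
  simpa using this

theorem Path_pathI_sum {ι : Type} (t : Finset ι) (f : ι → ℂ → ℂ)
    (hf : ∀ i ∈ t, ∀ s : ℂ, |s.re| < 5 → ContinuousAt (f i) s) (l : List ℂ)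
    (hs : ∀ v ∈ l, |v.re| < 5) :
    pathI (fun s => ∑ i ∈ t, f i s) l = ∑ i ∈ t, pathI (f i) l := by
  classical
  induction t using Finset.induction_on with
  | empty => simpa using Path_pathI_zero l
  | insert i t hi ih =>
    have h1 : (fun s => ∑ j ∈ insert i t, f j s) = fun s => f i s + ∑ j ∈ t, f j s := by
      funext s; rw [Finset.sum_insert hi]
    rw [h1, Finset.sum_insert hi, Path_pathI_add (hf i (Finset.mem_insert_self i t)) _ l hs,
      ih (fun j hj => hf j (Finset.mem_insert_of_mem hj))]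
    intro s hs'
    exact tendsto_finsetSum t (fun j hj => hf j (Finset.mem_insert_of_mem hj) s hs')

/-- the primitive used for the recursion -/
theorem Path_rec_deriv (k : ℤ) {s : ℂ} (hs : |s.re| < 5) :
    HasDerivAt (fun s => s * tau s ^ k)
      ((2 * (k : ℂ) + 1) * tau s ^ k + 50 * (k : ℂ) * tau s ^ (k - 1)) s := by
  have h0 := Path_tau_ne hs
  have h1 : HasDerivAt (fun s => tau s ^ k) ((k : ℂ) * tau s ^ (k - 1) * (2 * s)) s :=
    (hasDerivAt_zpow k (tau s) (Or.inl h0)).comp s (Path_tau_deriv s)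
  have h2 := (hasDerivAt_id s).mul h1
  refine h2.congr_deriv ?_
  have h3 : tau s ^ k = tau s ^ (k - 1) * tau s := by
    rw [← zpow_add_one₀ h0]; congr 1; ring
  simp only [id]
  rw [h3]
  unfold tau
  ring

theorem Path_rec (l : List ℂ) (x0 : ℝ) (hh : l.head? = some (x0 : ℂ))
    (hl : l.getLast? = some (-1 + 2 * Complex.I)) (hs : ∀ v ∈ l, |v.re| < 5) (k : ℤ) :
    (2 * (k : ℝ) + 1) * (2 * (pathI (fun s => (tau s) ^ k) l).im) +
      50 * (k : ℝ) * (2 * (pathI (fun s => (tau s) ^ (k - 1)) l).im) = bd k := by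
  have h1 := Path_pathI_prim (f := fun s => (2 * (k : ℂ) + 1) * tau s ^ k +
    50 * (k : ℂ) * tau s ^ (k - 1)) (G := fun s => s * tau s ^ k)
    (fun s hs => Path_rec_deriv k hs)
    (fun s hs => ((Path_cont_zpow k hs).const_mul _).add ((Path_cont_zpow (k - 1) hs).const_mul _))
    l hs hh hl
  rw [Path_pathI_add (fun s hs => (Path_cont_zpow k hs).const_mul _)
    (fun s hs => (Path_cont_zpow (k - 1) hs).const_mul _) l hs, Path_pathI_smul,
    Path_pathI_smul] at h1
  have h2 := congrArg Complex.im h1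
  have h3 : tau (-1 + 2 * Complex.I) = -28 - 4 * Complex.I := by
    unfold tau
    have := Complex.I_sq
    linear_combination 4 * this
  have h4 : ((x0 : ℂ) * tau (x0 : ℂ) ^ k).im = 0 := by
    have : (x0 : ℂ) * tau (x0 : ℂ) ^ k = ((x0 * (x0 ^ 2 - 25) ^ k : ℝ) : ℂ) := by
      unfold tau; push_cast; rfl
    rw [this, Complex.ofReal_im]
  have h5 : ((2 * (k : ℂ) + 1) * pathI (fun s => tau s ^ k) l).im =
      (2 * (k : ℝ) + 1) * (pathI (fun s => tau s ^ k) l).im := by
    have : (2 * (k : ℂ) + 1) = ((2 * (k : ℝ) + 1 : ℝ) : ℂ) := by push_cast; rfl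
    rw [this, Complex.im_ofReal_mul]
  have h6 : ((50 * (k : ℂ)) * pathI (fun s => tau s ^ (k - 1)) l).im =
      (50 * (k : ℝ)) * (pathI (fun s => tau s ^ (k - 1)) l).im := by
    have : (50 * (k : ℂ)) = ((50 * (k : ℝ) : ℝ) : ℂ) := by push_cast; rfl
    rw [this, Complex.im_ofReal_mul]
  rw [Complex.add_im, h5, h6, Complex.sub_im, h4, h3] at h2
  unfold bd
  linarith

theorem Path_quot_mem {s : ℂ} (hs : |s.re| < 5) : (5 - s) / (5 + s) ∈ Complex.slitPlane := by
  rw [abs_lt] at hs
  have h5 : (5 + s) ≠ 0 := by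
    intro h
    have := congrArg Complex.re h
    simp at this
    linarith [hs.1]
  have hn : 0 < Complex.normSq (5 + s) := Complex.normSq_pos.2 h5
  rw [Complex.mem_slitPlane_iff]
  by_cases him : s.im = 0
  · left
    rw [Complex.div_re]
    simp only [Complex.sub_re, Complex.add_re, Complex.sub_im, Complex.add_im, him]
    have e1 : (5 : ℂ).re = 5 := rfl
    have e2 : (5 : ℂ).im = 0 := rfl
    rw [e1, e2]
    have : 0 < (5 - s.re) * (5 + s.re) / Complex.normSq (5 + s) := by
      apply div_pos _ hn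
      apply mul_pos <;> linarith [hs.1, hs.2]
    simpa using this
  · right
    rw [Complex.div_im]
    simp only [Complex.sub_re, Complex.add_re, Complex.sub_im, Complex.add_im]
    have e1 : (5 : ℂ).re = 5 := rfl
    have e2 : (5 : ℂ).im = 0 := rfl
    rw [e1, e2]
    intro h
    have h3 : (0 - s.im) * (5 + s.re) / Complex.normSq (5 + s) -
        (5 - s.re) * (0 + s.im) / Complex.normSq (5 + s) =
        (-10 * s.im) / Complex.normSq (5 + s) := by ring
    rw [h3, div_eq_zero_iff] at h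
    rcases h with h | h
    · apply him; linarith
    · exact hn.ne' h

theorem Path_log_deriv {s : ℂ} (hs : |s.re| < 5) :
    HasDerivAt (fun s => (1 / 10 : ℂ) * Complex.log ((5 - s) / (5 + s))) (tau s ^ (-1 : ℤ)) s := by
  have h5 : (5 + s) ≠ 0 := by
    intro h
    have := congrArg Complex.re h
    simp at this
    rw [abs_lt] at hs
    linarith [hs.1]
  have h5' : (5 - s) ≠ 0 := by
    intro h
    have := congrArg Complex.re h
    simp at this
    rw [abs_lt] at hs
    linarith [hs.2]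
  have h1 : HasDerivAt (fun s : ℂ => 5 - s) (-1) s := by
    simpa using (hasDerivAt_id s).const_sub 5
  have h2 : HasDerivAt (fun s : ℂ => 5 + s) 1 s := by
    simpa using (hasDerivAt_id s).const_add 5
  have h3 := (h1.div h2 h5).clog (Path_quot_mem hs)
  have h4 := h3.const_mul (1 / 10 : ℂ)
  refine h4.congr_deriv ?_
  have h6 := Path_tau_ne hs
  rw [zpow_neg_one]
  have h7 : tau s = -((5 - s) * (5 + s)) := by unfold tau; ring
  rw [h7, Pi.div_apply]
  field_simp
  ring

theorem Path_neg_one (l : List ℂ) (x0 : ℝ) (hh : l.head? = some (x0 : ℂ))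
    (hl : l.getLast? = some (-1 + 2 * Complex.I)) (hs : ∀ v ∈ l, |v.re| < 5) :
    2 * (pathI (fun s => (tau s) ^ (-1 : ℤ)) l).im = -Real.pi / 20 := by
  have h1 := Path_pathI_prim (fun s hs => Path_log_deriv hs) (fun s hs => Path_cont_zpow (-1) hs)
    l hs hh hl
  rw [h1]
  have hx0 : |x0| < 5 := by
    cases l with
    | nil => simp at hh
    | cons a l =>
      have ha : a = (x0 : ℂ) := by simpa using hh
      have := hs a (by simp)
      rw [ha] at this
      simpa using this
  rw [abs_lt] at hx0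
  have h2 : (5 - (-1 + 2 * Complex.I)) / (5 + (-1 + 2 * Complex.I)) = 1 - Complex.I := by
    have h3 : (5 + (-1 + 2 * Complex.I)) ≠ 0 := by
      intro h
      have := congrArg Complex.im h
      simp at this
    rw [div_eq_iff h3]
    linear_combination 2 * Complex.I_sq
  have h4 : (Complex.log (1 - Complex.I)).im = -(Real.pi / 4) := by
    rw [Complex.log_im]
    have h5 : (1 : ℂ) - Complex.I = ((Real.sqrt 2 : ℝ) : ℂ) *
        (Complex.cos ((-(Real.pi / 4) : ℝ) : ℂ) + Complex.sin ((-(Real.pi / 4) : ℝ) : ℂ) *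
          Complex.I) := by
      rw [← Complex.ofReal_cos, ← Complex.ofReal_sin, Real.cos_neg, Real.sin_neg,
        Real.cos_pi_div_four, Real.sin_pi_div_four]
      have h6 : Real.sqrt 2 * Real.sqrt 2 = 2 := Real.mul_self_sqrt (by norm_num)
      apply Complex.ext
      · simp; nlinarith
      · simp; nlinarith
    rw [h5, Complex.arg_mul_cos_add_sin_mul_I (Real.sqrt_pos.2 (by norm_num))]
    constructor
    · have := Real.pi_pos; linarith
    · have := Real.pi_pos; linarith
  have h7 : (Complex.log ((5 - (x0 : ℂ)) / (5 + (x0 : ℂ)))).im = 0 := by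
    have h8 : (5 - (x0 : ℂ)) / (5 + (x0 : ℂ)) = (((5 - x0) / (5 + x0) : ℝ) : ℂ) := by
      push_cast; rfl
    rw [h8, ← Complex.ofReal_log]
    · exact Complex.ofReal_im _
    · apply div_nonneg <;> linarith [hx0.1, hx0.2]
  rw [h2]
  have h9 : (1 / 10 : ℂ) = ((1 / 10 : ℝ) : ℂ) := by push_cast; rfl
  rw [Complex.sub_im, h9, Complex.im_ofReal_mul, Complex.im_ofReal_mul, h4, h7]
  ring

/-- uniqueness for the recursion -/
theorem Path_unique (f g : ℤ → ℝ)
    (hf : ∀ k : ℤ, (2 * (k : ℝ) + 1) * f k + 50 * (k : ℝ) * f (k - 1) = bd k)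
    (hg : ∀ k : ℤ, (2 * (k : ℝ) + 1) * g k + 50 * (k : ℝ) * g (k - 1) = bd k)
    (h1 : f (-1) = g (-1)) (k : ℤ) : f k = g k := by
  have hup : ∀ n : ℕ, f (n : ℤ) = g (n : ℤ) := by
    intro n
    induction n with
    | zero =>
      have h2 := hf 0
      have h3 := hg 0
      simp at h2 h3
      show f 0 = g 0
      rw [h2, h3]
    | succ n ih =>
      have h2 := hf ((n : ℤ) + 1)
      have h3 := hg ((n : ℤ) + 1)
      have e : (n : ℤ) + 1 - 1 = n := by ring
      rw [e] at h2 h3
      rw [ih] at h2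
      have h4 : (2 * (((n : ℤ) + 1 : ℤ) : ℝ) + 1) * (f ((n : ℤ) + 1) - g ((n : ℤ) + 1)) = 0 := by
        linarith
      have h5 : (2 * (((n : ℤ) + 1 : ℤ) : ℝ) + 1) ≠ 0 := by
        push_cast
        positivity
      have h6 := (mul_eq_zero.1 h4).resolve_left h5
      push_cast
      linarith
  have hdown : ∀ n : ℕ, f (-((n : ℤ) + 1)) = g (-((n : ℤ) + 1)) := by
    intro n
    induction n with
    | zero => simpa using h1
    | succ n ih =>
      have h2 := hf (-((n : ℤ) + 1))
      have h3 := hg (-((n : ℤ) + 1))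
      have e : -((n : ℤ) + 1) - 1 = -(((n + 1 : ℕ) : ℤ) + 1) := by push_cast; ring
      rw [e] at h2 h3
      rw [ih] at h2
      have h4 : (50 * ((-((n : ℤ) + 1) : ℤ) : ℝ)) *
          (f (-(((n + 1 : ℕ) : ℤ) + 1)) - g (-(((n + 1 : ℕ) : ℤ) + 1))) = 0 := by
        linarith
      have h5 : (50 * ((-((n : ℤ) + 1) : ℤ) : ℝ)) ≠ 0 := by
        push_cast
        have : (0 : ℝ) ≤ (n : ℝ) := Nat.cast_nonneg n
        intro h
        linarith
      have h6 := (mul_eq_zero.1 h4).resolve_left h5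
      linarith
  rcases le_or_gt 0 k with hk | hk
  · obtain ⟨n, rfl⟩ := Int.eq_ofNat_of_zero_le hk
    exact hup n
  · obtain ⟨n, hn⟩ : ∃ n : ℕ, k = -((n : ℤ) + 1) := ⟨k.natAbs - 1, by omega⟩
    rw [hn]
    exact hdown n

theorem Path_XX (k : ℤ) :
    segI (fun s => tau s ^ k) (-1 - 2 * Complex.I) (-1 + 2 * Complex.I) = Complex.I * XX k := by
  unfold segI XX segInt
  have h1 := intervalIntegral.smul_integral_comp_mul_add (a := (0 : ℝ)) (b := 1)
    (fun y : ℝ => ((-1 + (y : ℂ) * Complex.I) ^ 2 - 25) ^ k) (4 : ℝ) (-2)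
  have h2 : (4 : ℝ) * 0 + -2 = -2 := by norm_num
  have h3 : (4 : ℝ) * 1 + -2 = 2 := by norm_num
  rw [h2, h3] at h1
  rw [← h1]
  have h4 : ∀ t : ℝ, tau (-1 - 2 * Complex.I + (t : ℂ) * (-1 + 2 * Complex.I -
      (-1 - 2 * Complex.I))) ^ k = ((-1 + ((4 * t + -2 : ℝ) : ℂ) * Complex.I) ^ 2 - 25) ^ k := by
    intro t
    congr 1
    unfold tau
    push_cast
    ring
  simp only [h4]
  rw [Complex.real_smul]
  push_cast
  ring

theorem Path_lam_pi (k : ℤ) : lam Real.pi k =
    (segI (fun s => tau s ^ k) (-1 - 2 * Complex.I) (-1 + 2 * Complex.I)).im := by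
  rw [Path_XX, XX_eq]
  have : (aco k : ℂ) * ((Real.pi : ℂ) / 2) + (bco k : ℂ) = ((lam Real.pi k : ℝ) : ℂ) := by
    unfold lam; push_cast; rfl
  rw [this]
  simp

theorem Path_tau_e : tau (-1 + 2 * Complex.I) = -28 - 4 * Complex.I := by
  unfold tau
  linear_combination 4 * Complex.I_sq

theorem Path_tau_e' : tau (-1 - 2 * Complex.I) = -28 + 4 * Complex.I := by
  unfold tau
  linear_combination 4 * Complex.I_sq

theorem Path_conj_e : (starRingEnd ℂ) (-1 + 2 * Complex.I) = -1 - 2 * Complex.I := by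
  apply Complex.ext <;> simp

theorem Path_conj_tau_e : (starRingEnd ℂ) (-28 - 4 * Complex.I) = -28 + 4 * Complex.I := by
  apply Complex.ext <;> simp

theorem Path_rec_pi (k : ℤ) : (2 * (k : ℝ) + 1) * lam Real.pi k +
    50 * (k : ℝ) * lam Real.pi (k - 1) = bd k := by
  have hu : |(-1 - 2 * Complex.I : ℂ).re| < 5 := by simp
  have hv : |(-1 + 2 * Complex.I : ℂ).re| < 5 := by simp
  have h1 := Path_segI_prim (f := fun s => (2 * (k : ℂ) + 1) * tau s ^ k +
    50 * (k : ℂ) * tau s ^ (k - 1)) (G := fun s => s * tau s ^ k)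
    (fun s hs => Path_rec_deriv k hs)
    (fun s hs => ((Path_cont_zpow k hs).const_mul _).add ((Path_cont_zpow (k - 1) hs).const_mul _))
    hu hv
  rw [Path_segI_add (fun s hs => (Path_cont_zpow k hs).const_mul _)
    (fun s hs => (Path_cont_zpow (k - 1) hs).const_mul _) hu hv, Path_segI_smul,
    Path_segI_smul, Path_tau_e, Path_tau_e'] at h1
  have h2 := congrArg Complex.im h1
  have h5 : ((2 * (k : ℂ) + 1) * segI (fun s => tau s ^ k) (-1 - 2 * Complex.I)
      (-1 + 2 * Complex.I)).im = (2 * (k : ℝ) + 1) * lam Real.pi k := by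
    have : (2 * (k : ℂ) + 1) = ((2 * (k : ℝ) + 1 : ℝ) : ℂ) := by push_cast; rfl
    rw [this, Complex.im_ofReal_mul, ← Path_lam_pi]
  have h6 : ((50 * (k : ℂ)) * segI (fun s => tau s ^ (k - 1)) (-1 - 2 * Complex.I)
      (-1 + 2 * Complex.I)).im = (50 * (k : ℝ)) * lam Real.pi (k - 1) := by
    have : (50 * (k : ℂ)) = ((50 * (k : ℝ) : ℝ) : ℂ) := by push_cast; rfl
    rw [this, Complex.im_ofReal_mul, ← Path_lam_pi]
  have h7 : (-1 - 2 * Complex.I) * (-28 + 4 * Complex.I) ^ k =
      (starRingEnd ℂ) ((-1 + 2 * Complex.I) * (-28 - 4 * Complex.I) ^ k) := by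
    rw [map_mul, map_zpow₀, Path_conj_e, Path_conj_tau_e]
  rw [Complex.add_im, h5, h6, Complex.sub_im, h7, Complex.conj_im] at h2
  unfold bd
  linarith

theorem Path_log_e : (Complex.log ((5 - (-1 + 2 * Complex.I)) / (5 + (-1 + 2 * Complex.I)))).im
    = -(Real.pi / 4) := by
  have h2 : (5 - (-1 + 2 * Complex.I)) / (5 + (-1 + 2 * Complex.I)) = 1 - Complex.I := by
    have h3 : (5 + (-1 + 2 * Complex.I)) ≠ 0 := by
      intro h
      have := congrArg Complex.im h
      simp at this
    rw [div_eq_iff h3]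
    linear_combination 2 * Complex.I_sq
  rw [h2, Complex.log_im]
  have h5 : (1 : ℂ) - Complex.I = ((Real.sqrt 2 : ℝ) : ℂ) *
      (Complex.cos ((-(Real.pi / 4) : ℝ) : ℂ) + Complex.sin ((-(Real.pi / 4) : ℝ) : ℂ) *
        Complex.I) := by
    rw [← Complex.ofReal_cos, ← Complex.ofReal_sin, Real.cos_neg, Real.sin_neg,
      Real.cos_pi_div_four, Real.sin_pi_div_four]
    have h6 : Real.sqrt 2 * Real.sqrt 2 = 2 := Real.mul_self_sqrt (by norm_num)
    apply Complex.ext
    · simp; nlinarith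
    · simp; nlinarith
  rw [h5, Complex.arg_mul_cos_add_sin_mul_I (Real.sqrt_pos.2 (by norm_num))]
  constructor
  · have := Real.pi_pos; linarith
  · have := Real.pi_pos; linarith

theorem Path_log_e' : (Complex.log ((5 - (-1 - 2 * Complex.I)) / (5 + (-1 - 2 * Complex.I)))).im
    = Real.pi / 4 := by
  have h1 : (5 - (-1 - 2 * Complex.I)) / (5 + (-1 - 2 * Complex.I)) =
      (starRingEnd ℂ) ((5 - (-1 + 2 * Complex.I)) / (5 + (-1 + 2 * Complex.I))) := by
    have : (starRingEnd ℂ) 5 = 5 := map_ofNat _ 5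
    rw [map_div₀, map_sub, map_add (starRingEnd ℂ) 5, Path_conj_e, this]
  have h2 : ((5 - (-1 + 2 * Complex.I)) / (5 + (-1 + 2 * Complex.I))).arg ≠ Real.pi := by
    rw [← Complex.log_im, Path_log_e]
    have := Real.pi_pos
    intro h; linarith
  rw [h1, Complex.log_conj _ h2, Complex.conj_im, Path_log_e]
  ring

theorem Path_neg_one_pi : lam Real.pi (-1) = -Real.pi / 20 := by
  have hu : |(-1 - 2 * Complex.I : ℂ).re| < 5 := by simp
  have hv : |(-1 + 2 * Complex.I : ℂ).re| < 5 := by simp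
  rw [Path_lam_pi, Path_segI_prim (fun s hs => Path_log_deriv hs)
    (fun s hs => Path_cont_zpow (-1) hs) hu hv]
  have h9 : (1 / 10 : ℂ) = ((1 / 10 : ℝ) : ℂ) := by push_cast; rfl
  rw [Complex.sub_im, h9, Complex.im_ofReal_mul, Complex.im_ofReal_mul, Path_log_e, Path_log_e']
  ring

theorem lam_pi_path (l : List ℂ) (x0 : ℝ) (hh : l.head? = some (x0 : ℂ))
    (hl : l.getLast? = some (-1 + 2 * Complex.I)) (hs : ∀ v ∈ l, |v.re| < 5) (k : ℤ) :
    lam Real.pi k = 2 * (pathI (fun s => (tau s) ^ k) l).im :=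
  Path_unique (lam Real.pi) (fun k => 2 * (pathI (fun s => (tau s) ^ k) l).im) Path_rec_pi
    (fun k => Path_rec l x0 hh hl hs k)
    (by rw [Path_neg_one_pi]; exact (Path_neg_one l x0 hh hl hs).symm) k

/-- total length of the polygon -/
noncomputable def Path_len : List ℂ → ℝ
  | [] => 0
  | [_] => 0
  | u :: v :: l => ‖v - u‖ + Path_len (v :: l)

theorem Path_len_nonneg (l : List ℂ) : 0 ≤ Path_len l := by
  induction l with
  | nil => simp [Path_len]
  | cons a l ih =>
    cases l with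
    | nil => simp [Path_len]
    | cons b l =>
      show 0 ≤ ‖b - a‖ + Path_len (b :: l)
      have := norm_nonneg (b - a)
      linarith

theorem Path_norm_pathI_le (f : ℂ → ℂ) (M : ℝ) (S : Set ℂ) (l : List ℂ)
    (hS : PathIn S l) (hl : ∀ v ∈ l, |v.re| < 5)
    (hf : ∀ s ∈ S, |s.re| < 5 → ‖f s‖ ≤ M) : ‖pathI f l‖ ≤ Path_len l * M := by
  induction l with
  | nil => simp [pathI, Path_len]
  | cons a l ih =>
    cases l with
    | nil => simp [pathI, Path_len]
    | cons b l =>
      have h1 := ih hS.2 (fun v hv => hl v (List.mem_cons_of_mem _ hv))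
      have ha := hl a (by simp)
      have hb := hl b (by simp)
      show ‖segI f a b + pathI f (b :: l)‖ ≤ (‖b - a‖ + Path_len (b :: l)) * M
      have h2 : ‖segI f a b‖ ≤ ‖b - a‖ * M := by
        unfold segI
        rw [norm_mul]
        apply mul_le_mul_of_nonneg_left _ (norm_nonneg _)
        have h3 := intervalIntegral.norm_integral_le_of_norm_le_const (a := (0 : ℝ)) (b := 1)
          (f := fun t : ℝ => f (a + (t : ℂ) * (b - a))) (C := M) ?_
        · simpa using h3
        · intro t ht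
          rw [Set.uIoc_of_le zero_le_one] at ht
          exact hf _ (hS.1 (Path_seg_mem a b ht.1.le ht.2)) (Path_mem_seg ha hb ht.1.le ht.2)
      calc ‖segI f a b + pathI f (b :: l)‖ ≤ ‖segI f a b‖ + ‖pathI f (b :: l)‖ := norm_add_le _ _
        _ ≤ ‖b - a‖ * M + Path_len (b :: l) * M := add_le_add h2 h1
        _ = _ := by ring

theorem Path_Lam_pi_eq (l : List ℂ) (x0 : ℝ) (hh : l.head? = some (x0 : ℂ))
    (hl : l.getLast? = some (-1 + 2 * Complex.I)) (hs : ∀ v ∈ l, |v.re| < 5)
    (m : ℕ) (F : ℝ[X]) : Lam Real.pi m F =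
      2 * (pathI (fun s => ∑ j ∈ Finset.range (F.natDegree + 1),
        ((F.coeff j : ℝ) : ℂ) * tau s ^ ((j : ℤ) - m)) l).im := by
  rw [Lam_eq_sum Real.pi m F (Nat.lt_succ_self _), Path_pathI_sum _ _ _ l hs, Complex.im_sum,
    Finset.mul_sum]
  · apply Finset.sum_congr rfl
    intro j _
    rw [Path_pathI_smul, Complex.im_ofReal_mul, lam_pi_path l x0 hh hl hs]
    ring
  · intro j _ s hs'
    exact (Path_cont_zpow _ hs').const_mul _

theorem abs_Lam_pi_le (l : List ℂ) (x0 : ℝ) (hh : l.head? = some (x0 : ℂ))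
    (hl : l.getLast? = some (-1 + 2 * Complex.I)) (hs : ∀ v ∈ l, |v.re| < 5)
    (S : Set ℂ) (hS : PathIn S l) :
    ∃ C : ℝ, 0 < C ∧ ∀ (m : ℕ) (F : ℝ[X]) (M : ℝ),
      (∀ s ∈ S, ‖ev F s‖ ≤ M * ‖tau s‖ ^ m) → |Lam Real.pi m F| ≤ C * M := by
  refine ⟨2 * Path_len l + 1, by have := Path_len_nonneg l; linarith, ?_⟩
  intro m F M hM
  -- nonnegativity of `M`
  have hM0 : 0 ≤ M := by
    cases l with
    | nil => simp at hh
    | cons a l =>
      cases l with
      | nil =>
        exfalso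
        simp at hh hl
        rw [hh] at hl
        have := congrArg Complex.im hl
        simp at this
      | cons b l =>
        have h1 : a ∈ S := hS.1 (left_mem_segment ℝ a b)
        have h2 := hM a h1
        have h3 : 0 < ‖tau a‖ ^ m := pow_pos (norm_pos_iff.2 (Path_tau_ne (hs a (by simp)))) m
        by_contra h
        push Not at h
        have := mul_neg_of_neg_of_pos h h3
        linarith [norm_nonneg (ev F a)]
  rw [Path_Lam_pi_eq l x0 hh hl hs m F]
  have h1 := Path_norm_pathI_le (fun s => ∑ j ∈ Finset.range (F.natDegree + 1),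
        ((F.coeff j : ℝ) : ℂ) * tau s ^ ((j : ℤ) - m)) M S l hS hs ?_
  · have h2 := Complex.abs_im_le_norm (pathI (fun s => ∑ j ∈ Finset.range (F.natDegree + 1),
        ((F.coeff j : ℝ) : ℂ) * tau s ^ ((j : ℤ) - m)) l)
    rw [abs_mul, abs_two]
    nlinarith
  · intro s hsS hs5
    have h0 := Path_tau_ne hs5
    have h3 : ∑ j ∈ Finset.range (F.natDegree + 1), ((F.coeff j : ℝ) : ℂ) * tau s ^ ((j : ℤ) - m)
        = ev F s * (tau s ^ m)⁻¹ := by
      unfold ev
      rw [Polynomial.aeval_eq_sum_range, Finset.sum_mul]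
      apply Finset.sum_congr rfl
      intro j _
      rw [zpow_sub₀ h0, zpow_natCast, zpow_natCast, Complex.real_smul]
      rw [div_eq_mul_inv]
      ring
    rw [h3, norm_mul, norm_inv, norm_pow]
    rw [← div_eq_mul_inv, div_le_iff₀ (pow_pos (norm_pos_iff.2 h0) m)]
    exact hM s hsS

end Vale.Agent.P021.Det
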