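import Vale.Agent.P021.Det.ArchUpperCore
import Vale.Agent.P021.Det.DetLem
import Vale.Agent.P021.Det.Path

open Polynomial Filter Topology

namespace Vale.Agent.P021.Det

theorem AU_bounded {S : Set ℂ} (hS : Bornology.IsBounded S) :
    ∃ B : ℝ, ∀ s ∈ S, ‖tau s‖ ≤ B := by
  obtain ⟨R, hR⟩ := hS.exists_norm_le
  refine ⟨R ^ 2 + 25, fun s hs => ?_⟩
  have h1 := hR s hs
  unfold tau
  calc ‖s ^ 2 - 25‖ ≤ ‖s ^ 2‖ + ‖(25 : ℂ)‖ := norm_sub_le _ _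
    _ = ‖s‖ ^ 2 + 25 := by rw [norm_pow]; norm_num
    _ ≤ R ^ 2 + 25 := by
      have := pow_le_pow_left₀ (norm_nonneg s) h1 2
      linarith

theorem arch_upper {K0 a0 b0 m0 N : ℕ} {w : ℝ} {S T : Set ℂ}
    (C : Cert K0 a0 b0 m0 N w S T) (_hw : 0 ≤ w) (hT : BetBound T)
    (hTb : Bornology.IsBounded T)
    (l : List ℂ) (x0 : ℝ) (hh : l.head? = some (x0 : ℂ))
    (hl : l.getLast? = some (-1 + 2 * Complex.I)) (hs : ∀ v ∈ l, |v.re| < 5)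
    (hS : PathIn S l) (hSb : Bornology.IsBounded S) {ε : ℝ} (hε : 0 < ε) :
    ∀ᶠ n : ℕ in atTop, ∀ κ ≤ 2, ∀ x : ℝ, |x - Real.pi| ≤ Real.exp (-w * n) →
      |(HM x (a0 * n) (b0 * n) (m0 * n) (K0 * n + κ)).det| ≤
        Real.exp ((C.total + ε) * (n : ℝ) ^ 2) :=
  AU_core C (AU_bounded hSb) (AU_bounded hTb)
    (abs_Lam_pi_le l x0 hh hl hs S hS) hT det_HM_monic
    (fun A u => abs_det_le_of_entries A u) hε

end Vale.Agent.P021.Det
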