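import Vale.Agent.P021.Det.ArchCore

open Polynomial Filter Topology

namespace Vale.Agent.P021.Det

/-- from the squared estimates of two rows to the entry estimate -/
theorem AU_entry (P Q W : ℝ[X]) (s : ℂ) (c x y z t : ℝ) (hc : 0 ≤ c) (ht : 0 ≤ t)
    (hP : ‖ev P s‖ ^ 2 * ‖ev W s‖ ≤ c * Real.exp (x + z) * t)
    (hQ : ‖ev Q s‖ ^ 2 * ‖ev W s‖ ≤ c * Real.exp (y + z) * t) :
    ‖ev (P * Q * W) s‖ ≤ c * (Real.exp z * (Real.exp (x / 2) * Real.exp (y / 2))) * t := by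
  rw [AU_ev_mul, AU_ev_mul, norm_mul, norm_mul]
  have h0 : 0 ≤ c * (Real.exp z * (Real.exp (x / 2) * Real.exp (y / 2))) * t := by positivity
  apply le_of_sq_le_sq _ h0
  have e1 : (‖ev P s‖ * ‖ev Q s‖ * ‖ev W s‖) ^ 2 =
      (‖ev P s‖ ^ 2 * ‖ev W s‖) * (‖ev Q s‖ ^ 2 * ‖ev W s‖) := by ring
  have e2 : (c * (Real.exp z * (Real.exp (x / 2) * Real.exp (y / 2))) * t) ^ 2 =
      (c * Real.exp (x + z) * t) * (c * Real.exp (y + z) * t) := by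
    have h1 : Real.exp (x / 2) * Real.exp (x / 2) = Real.exp x := by
      rw [← Real.exp_add]; congr 1; ring
    have h2 : Real.exp (y / 2) * Real.exp (y / 2) = Real.exp y := by
      rw [← Real.exp_add]; congr 1; ring
    rw [Real.exp_add, Real.exp_add, ← h1, ← h2]
    ring
  rw [e1, e2]
  exact mul_le_mul hP hQ (by positivity) (by positivity)

/-- the entry estimate for `Lam x` -/
theorem AU_Lam (S T : Set ℂ) (w cL cB C1 C2 : ℝ) (a0 b0 m0 n : ℕ) (hC1 : 0 ≤ C1)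
    (hcB : 0 ≤ cB) (hC2 : cL * C1 + cB * C1 ≤ C2)
    (hLam : ∀ (m : ℕ) (F : ℝ[X]) (M : ℝ),
      (∀ s ∈ S, ‖ev F s‖ ≤ M * ‖tau s‖ ^ m) → |Lam Real.pi m F| ≤ cL * M)
    (hBet : ∀ (m : ℕ) (F : ℝ[X]) (M : ℝ),
      (∀ s ∈ T, ‖ev F s‖ ≤ M * ‖tau s‖ ^ m) → |Bet m F| ≤ cB * M)
    (P Q : ℝ[X]) (i j : ℕ) (li lj x : ℝ)
    (hP : AU_Good S T w a0 b0 m0 C1 n i P li) (hQ : AU_Good S T w a0 b0 m0 C1 n j Q lj)
    (hx : |x - Real.pi| ≤ Real.exp (-w * n)) :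
    |Lam x (m0 * n) (P * Q * Wp (a0 * n) (b0 * n))| ≤
      C2 * (Real.exp (li / 2) * Real.exp (lj / 2)) := by
  obtain ⟨-, -, hiS, hiT⟩ := hP
  obtain ⟨-, -, hjS, hjT⟩ := hQ
  rw [Lam_eq_add x Real.pi]
  have h1 : |Lam Real.pi (m0 * n) (P * Q * Wp (a0 * n) (b0 * n))| ≤
      cL * (C1 * (Real.exp 0 * (Real.exp (li / 2) * Real.exp (lj / 2)))) := by
    apply hLam
    intro s hs
    refine (AU_entry P Q _ s C1 li lj 0 (‖tau s‖ ^ (m0 * n)) hC1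
      (by positivity) ?_ ?_)
    · rw [add_zero]; exact hiS s hs
    · rw [add_zero]; exact hjS s hs
  have h2 : |Bet (m0 * n) (P * Q * Wp (a0 * n) (b0 * n))| ≤
      cB * (C1 * (Real.exp (w * n) * (Real.exp (li / 2) * Real.exp (lj / 2)))) := by
    apply hBet
    intro s hs
    exact AU_entry P Q _ s C1 li lj (w * n) (‖tau s‖ ^ (m0 * n)) hC1
      (by positivity) (hiT s hs) (hjT s hs)
  have h3 : |x - Real.pi| * |Bet (m0 * n) (P * Q * Wp (a0 * n) (b0 * n))| ≤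
      Real.exp (-w * n) *
      (cB * (C1 * (Real.exp (w * n) * (Real.exp (li / 2) * Real.exp (lj / 2))))) :=
    mul_le_mul hx h2 (abs_nonneg _) (Real.exp_nonneg _)
  have h4 : Real.exp (-w * n) *
      (cB * (C1 * (Real.exp (w * n) * (Real.exp (li / 2) * Real.exp (lj / 2))))) =
      cB * C1 * (Real.exp (li / 2) * Real.exp (lj / 2)) := by
    have : Real.exp (-w * n) * Real.exp (w * n) = 1 := by
      rw [← Real.exp_add]; simp
    calc _ = (Real.exp (-w * n) * Real.exp (w * n)) *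
          (cB * C1 * (Real.exp (li / 2) * Real.exp (lj / 2))) := by ring
      _ = _ := by rw [this, one_mul]
  calc |Lam Real.pi (m0 * n) (P * Q * Wp (a0 * n) (b0 * n)) +
        (x - Real.pi) * Bet (m0 * n) (P * Q * Wp (a0 * n) (b0 * n))|
      ≤ |Lam Real.pi (m0 * n) (P * Q * Wp (a0 * n) (b0 * n))| +
        |x - Real.pi| * |Bet (m0 * n) (P * Q * Wp (a0 * n) (b0 * n))| := by
          rw [← abs_mul]; exact abs_add_le _ _
    _ ≤ cL * (C1 * (Real.exp 0 * (Real.exp (li / 2) * Real.exp (lj / 2)))) +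
        cB * C1 * (Real.exp (li / 2) * Real.exp (lj / 2)) := by
          rw [← h4]; exact add_le_add h1 h3
    _ = (cL * C1 + cB * C1) * (Real.exp (li / 2) * Real.exp (lj / 2)) := by
          rw [Real.exp_zero]; ring
    _ ≤ C2 * (Real.exp (li / 2) * Real.exp (lj / 2)) :=
          mul_le_mul_of_nonneg_right hC2 (by positivity)

/-- determinant estimate from the rows -/
theorem AU_detrows (S T : Set ℂ) (w cL cB C1 C2 : ℝ) (a0 b0 m0 n : ℕ) (hC1 : 0 ≤ C1)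
    (hcB : 0 ≤ cB) (hC2 : cL * C1 + cB * C1 ≤ C2) (hC20 : 0 ≤ C2)
    (hLam : ∀ (m : ℕ) (F : ℝ[X]) (M : ℝ),
      (∀ s ∈ S, ‖ev F s‖ ≤ M * ‖tau s‖ ^ m) → |Lam Real.pi m F| ≤ cL * M)
    (hBet : ∀ (m : ℕ) (F : ℝ[X]) (M : ℝ),
      (∀ s ∈ T, ‖ev F s‖ ≤ M * ‖tau s‖ ^ m) → |Bet m F| ≤ cB * M)
    (hmonic : ∀ (x : ℝ) (a b m K : ℕ) (P : ℕ → ℝ[X]), (∀ i < K, (P i).Monic) →
      (∀ i < K, (P i).natDegree = i) → (HM x a b m K).det =
      (Matrix.of fun i j : Fin K => Lam x m (P i * P j * Wp a b)).det)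
    (hdet : ∀ {K : ℕ} (A : Matrix (Fin K) (Fin K) ℝ) (u : ℕ → ℝ), (∀ i < K, 0 ≤ u i) →
      (∀ i j, |A i j| ≤ u i * u j) →
      |A.det| ≤ (K.factorial : ℝ) * ∏ i ∈ Finset.range K, u i ^ 2)
    (K : ℕ) (P : ℕ → ℝ[X]) (l : ℕ → ℝ)
    (hP : ∀ i < K, AU_Good S T w a0 b0 m0 C1 n i (P i) (l i)) (x : ℝ)
    (hx : |x - Real.pi| ≤ Real.exp (-w * n)) :
    |(HM x (a0 * n) (b0 * n) (m0 * n) K).det| ≤
      (K.factorial : ℝ) * (C2 ^ K * Real.exp (∑ i ∈ Finset.range K, l i)) := by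
  rw [hmonic x (a0 * n) (b0 * n) (m0 * n) K P (fun i hi => (hP i hi).1)
    (fun i hi => (hP i hi).2.1)]
  have hd := hdet (Matrix.of fun i j : Fin K => Lam x (m0 * n) (P i * P j * Wp (a0 * n) (b0 * n)))
    (fun i => Real.sqrt C2 * Real.exp (l i / 2))
    (fun i _ => by positivity) (by
      intro i j
      rw [Matrix.of_apply]
      refine (AU_Lam S T w cL cB C1 C2 a0 b0 m0 n hC1 hcB hC2 hLam hBet (P i) (P j) i j
        (l i) (l j) x (hP i i.2) (hP j j.2) hx).trans (le_of_eq ?_)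
      have : Real.sqrt C2 * Real.sqrt C2 = C2 := Real.mul_self_sqrt hC20
      calc C2 * (Real.exp (l i / 2) * Real.exp (l j / 2))
          = (Real.sqrt C2 * Real.sqrt C2) *
            (Real.exp (l i / 2) * Real.exp (l j / 2)) := by rw [this]
        _ = _ := by ring)
  refine hd.trans (mul_le_mul_of_nonneg_left (le_of_eq ?_) (by positivity))
  have h6 : ∀ i ∈ Finset.range K,
      (Real.sqrt C2 * Real.exp (l i / 2)) ^ 2 = C2 * Real.exp (l i) := by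
    intro i _
    rw [mul_pow, Real.sq_sqrt hC20, ← Real.exp_nat_mul]
    congr 2
    push_cast
    ring
  rw [Finset.prod_congr rfl h6, Finset.prod_mul_distrib, Finset.prod_const, Finset.card_range,
    ← Real.exp_sum]

/-- elementary asymptotics -/
theorem AU_asym (K0 : ℕ) (C2 A1 LN tot : ℝ) (hC21 : 1 ≤ C2) {ε : ℝ} (hε : 0 < ε) :
    ∀ᶠ n : ℕ in atTop, ∀ κ ≤ 2,
      ((K0 * n + κ).factorial : ℝ) * (C2 ^ (K0 * n + κ) *
          Real.exp (tot * (n : ℝ) ^ 2 + A1 * n + κ * (LN * n))) ≤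
        Real.exp ((tot + ε) * (n : ℝ) ^ 2) := by
  obtain ⟨δ, hδ⟩ : ∃ δ : ℝ, δ = ε / (2 * ((K0 : ℝ) + 2) ^ 2) := ⟨_, rfl⟩
  have hδpos : 0 < δ := by rw [hδ]; positivity
  obtain ⟨Cd, hCδ⟩ : ∃ Cd : ℝ, Cd = |(-1 - Real.log δ)| + Real.log C2 := ⟨_, rfl⟩
  have hCδ0 : 0 ≤ Cd := by rw [hCδ]; exact add_nonneg (abs_nonneg _) (Real.log_nonneg hC21)
  obtain ⟨E, hE⟩ : ∃ E : ℝ, E = Cd * ((K0 : ℝ) + 2) + |A1| + 2 * |LN| := ⟨_, rfl⟩
  obtain ⟨n0, hn0⟩ := exists_nat_ge (2 * E / ε)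
  filter_upwards [eventually_ge_atTop (max n0 1)] with n hn κ hκ
  have hn1 : 1 ≤ n := (le_max_right _ _).trans hn
  have hn0' : (n0 : ℝ) ≤ n := by exact_mod_cast (le_max_left _ _).trans hn
  have hnpos : (1 : ℝ) ≤ n := by exact_mod_cast hn1
  have hκ' : ((κ : ℕ) : ℝ) ≤ 2 := by exact_mod_cast hκ
  have hEn : E * n ≤ ε / 2 * (n : ℝ) ^ 2 := by
    have h2 : E ≤ ε / 2 * n := by
      have := hn0.trans hn0'
      rw [div_le_iff₀ hε] at this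
      linarith
    calc E * n ≤ (ε / 2 * n) * n := mul_le_mul_of_nonneg_right h2 (by positivity)
      _ = _ := by ring
  have e3 : A1 * n ≤ |A1| * n := mul_le_mul_of_nonneg_right (le_abs_self _) (by positivity)
  have e4 : (κ : ℝ) * (LN * n) ≤ 2 * |LN| * n := by
    have h2 : LN * n ≤ |LN| * n := mul_le_mul_of_nonneg_right (le_abs_self _) (by positivity)
    calc (κ : ℝ) * (LN * n) ≤ κ * (|LN| * n) :=
          mul_le_mul_of_nonneg_left h2 (by positivity)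
      _ ≤ 2 * (|LN| * n) := mul_le_mul_of_nonneg_right hκ' (by positivity)
      _ = _ := by ring
  have e6 : Cd * (((K0 : ℝ) + 2) * n) + |A1| * n + 2 * |LN| * n = E * n := by
    rw [hE]; ring
  obtain ⟨K, hK⟩ : ∃ K : ℕ, K = K0 * n + κ := ⟨_, rfl⟩
  have hKle : (K : ℝ) ≤ ((K0 : ℝ) + 2) * n := by
    rw [hK]
    push_cast
    nlinarith
  rw [← hK]
  rcases Nat.eq_zero_or_pos K with h0 | hpos
  · rw [h0]
    simp only [Nat.factorial_zero, Nat.cast_one, pow_zero, one_mul]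
    apply Real.exp_le_exp.2
    have e7 : 0 ≤ Cd * (((K0 : ℝ) + 2) * n) := by positivity
    have e8 : 0 ≤ ε / 2 * (n : ℝ) ^ 2 := by positivity
    have e9 : (tot + ε) * (n : ℝ) ^ 2 = tot * (n : ℝ) ^ 2 + 2 * (ε / 2 * (n : ℝ) ^ 2) := by ring
    linarith
  have hKpos : (0 : ℝ) < (K : ℝ) := by exact_mod_cast hpos
  have hlogK : Real.log K ≤ δ * K + (-1 - Real.log δ) := by
    have h1 := Real.log_le_sub_one_of_pos (mul_pos hδpos hKpos)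
    rw [Real.log_mul hδpos.ne' hKpos.ne'] at h1
    linarith
  have hfac : ((K.factorial : ℕ) : ℝ) ≤ Real.exp (K * Real.log K) := by
    have h1 : ((K.factorial : ℕ) : ℝ) ≤ (K : ℝ) ^ K := by
      exact_mod_cast Nat.factorial_le_pow K
    refine h1.trans (le_of_eq ?_)
    rw [← Real.rpow_natCast, Real.rpow_def_of_pos hKpos, mul_comm]
  have hC2K : C2 ^ K = Real.exp (K * Real.log C2) := by
    rw [← Real.rpow_natCast, Real.rpow_def_of_pos (by linarith), mul_comm]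
  rw [hC2K, ← Real.exp_add]
  refine (mul_le_mul_of_nonneg_right hfac (Real.exp_nonneg _)).trans ?_
  rw [← Real.exp_add]
  apply Real.exp_le_exp.2
  have e1 : (K : ℝ) * Real.log K + K * Real.log C2 ≤
      δ * (((K0 : ℝ) + 2) * n) ^ 2 + Cd * (((K0 : ℝ) + 2) * n) := by
    have h1 : (K : ℝ) * Real.log K ≤ K * (δ * K + |(-1 - Real.log δ)|) := by
      apply mul_le_mul_of_nonneg_left _ hKpos.le
      linarith [le_abs_self (-1 - Real.log δ)]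
    have h2 : (K : ℝ) * Real.log K + K * Real.log C2 ≤ δ * (K : ℝ) ^ 2 + Cd * K := by
      have : (K : ℝ) * (δ * K + |(-1 - Real.log δ)|) + K * Real.log C2 =
          δ * (K : ℝ) ^ 2 + Cd * K := by
        rw [hCδ]; ring
      linarith
    refine h2.trans ?_
    have h3 : (K : ℝ) ^ 2 ≤ (((K0 : ℝ) + 2) * n) ^ 2 := pow_le_pow_left₀ hKpos.le hKle 2
    have h4 : δ * (K : ℝ) ^ 2 ≤ δ * (((K0 : ℝ) + 2) * n) ^ 2 :=
      mul_le_mul_of_nonneg_left h3 hδpos.le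
    have h5 : Cd * K ≤ Cd * (((K0 : ℝ) + 2) * n) := mul_le_mul_of_nonneg_left hKle hCδ0
    linarith
  have e2 : δ * (((K0 : ℝ) + 2) * n) ^ 2 = ε / 2 * (n : ℝ) ^ 2 := by
    rw [hδ]
    field_simp
  have e9 : (tot + ε) * (n : ℝ) ^ 2 = tot * (n : ℝ) ^ 2 + 2 * (ε / 2 * (n : ℝ) ^ 2) := by ring
  linarith

theorem AU_core {K0 a0 b0 m0 N : ℕ} {w : ℝ} {S T : Set ℂ} (C : Cert K0 a0 b0 m0 N w S T)
    (hSb : ∃ B : ℝ, ∀ s ∈ S, ‖tau s‖ ≤ B) (hTb : ∃ B : ℝ, ∀ s ∈ T, ‖tau s‖ ≤ B)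
    (hLam : ∃ c : ℝ, 0 < c ∧ ∀ (m : ℕ) (F : ℝ[X]) (M : ℝ),
      (∀ s ∈ S, ‖ev F s‖ ≤ M * ‖tau s‖ ^ m) → |Lam Real.pi m F| ≤ c * M)
    (hBet : ∃ c : ℝ, 0 < c ∧ ∀ (m : ℕ) (F : ℝ[X]) (M : ℝ),
      (∀ s ∈ T, ‖ev F s‖ ≤ M * ‖tau s‖ ^ m) → |Bet m F| ≤ c * M)
    (hmonic : ∀ (x : ℝ) (a b m K : ℕ) (P : ℕ → ℝ[X]), (∀ i < K, (P i).Monic) →
      (∀ i < K, (P i).natDegree = i) → (HM x a b m K).det =
      (Matrix.of fun i j : Fin K => Lam x m (P i * P j * Wp a b)).det)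
    (hdet : ∀ {K : ℕ} (A : Matrix (Fin K) (Fin K) ℝ) (u : ℕ → ℝ), (∀ i < K, 0 ≤ u i) →
      (∀ i j, |A i j| ≤ u i * u j) →
      |A.det| ≤ (K.factorial : ℝ) * ∏ i ∈ Finset.range K, u i ^ 2)
    {ε : ℝ} (hε : 0 < ε) :
    ∀ᶠ n : ℕ in atTop, ∀ κ ≤ 2, ∀ x : ℝ, |x - Real.pi| ≤ Real.exp (-w * n) →
      |(HM x (a0 * n) (b0 * n) (m0 * n) (K0 * n + κ)).det| ≤
        Real.exp ((C.total + ε) * (n : ℝ) ^ 2) := by
  obtain ⟨B1, hB1⟩ := hSb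
  obtain ⟨B2, hB2⟩ := hTb
  obtain ⟨cL, hcL, hLam⟩ := hLam
  obtain ⟨cB, hcB, hBet⟩ := hBet
  obtain ⟨B, hB, hBS, hBT⟩ : ∃ B : ℝ, 1 ≤ B ∧ (∀ s ∈ S, ‖tau s‖ ≤ B) ∧
      (∀ s ∈ T, ‖tau s‖ ≤ B) :=
    ⟨max 1 (max B1 B2), le_max_left _ _,
      fun s hs => (hB1 s hs).trans ((le_max_left _ _).trans (le_max_right _ _)),
      fun s hs => (hB2 s hs).trans ((le_max_right _ _).trans (le_max_right _ _))⟩
  obtain ⟨C1, hC1⟩ : ∃ C1 : ℝ, C1 = B ^ (2 * (K0 + 2)) := ⟨_, rfl⟩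
  have hC1pos : 0 < C1 := by rw [hC1]; positivity
  obtain ⟨C2, hC21, hC2⟩ : ∃ C2 : ℝ, 1 ≤ C2 ∧ cL * C1 + cB * C1 ≤ C2 :=
    ⟨max 1 (cL * C1 + cB * C1), le_max_left _ _, le_max_right _ _⟩
  obtain ⟨A1, hA1⟩ : ∃ A1 : ℝ, A1 = ∑ j ∈ Finset.range N,
    ((C.d (j + 1) : ℝ) - C.d j) * (C.L j - C.L (j + 1)) / 2 := ⟨_, rfl⟩
  filter_upwards [AU_asym K0 C2 A1 (C.L N) C.total hC21 hε] with n hn κ hκ x hx
  refine le_trans ?_ (hn κ hκ)
  obtain ⟨P, l, hP, hl⟩ := AU_rows C B hB hBS hBT n κ hκ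
  rw [← hC1] at hP
  refine (AU_detrows S T w cL cB C1 C2 a0 b0 m0 n hC1pos.le hcB.le hC2 (by linarith) hLam hBet
    hmonic hdet (K0 * n + κ) P l hP x hx).trans (le_of_eq ?_)
  congr 3
  rw [hl, hA1]
  unfold Cert.total
  rw [Finset.sum_mul, Finset.sum_mul, ← Finset.sum_add_distrib]
  congr 1
  apply Finset.sum_congr rfl
  intro j _
  ring

end Vale.Agent.P021.Det
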