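import Vale.Agent.P021.Det.ArithWin

/-!
# The arithmetic lower bound for a general local bound
-/

namespace Vale.Agent.P021.Det

open Filter Topology Finset

/-- the local bounds -/
noncomputable def betG (u : ℕ → ℝ) (a b m K p : ℕ) : ℝ :=
  u p * Real.log p +
    (if p ^ 2 ≤ rng a b m K ∨ p < 7 then (K : ℝ) * Real.log (rng a b m K) else 0) +
    (if p = 2 then T2 b m K else 0) + (if p = 5 then T5 a b m K else 0)

lemma log_norm_leG (u : ℕ → ℝ) (a b m K : ℕ) (p q : ℤ) (hu : ∀ l, 0 ≤ u l)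
    (hloc : ∀ l : ℕ, l.Prime → 7 ≤ l → rng a b m K < l ^ 2 →
      ∃ e : ℕ, padicNorm l (NN a b m K p q) ≤ (l : ℚ) ^ e ∧ (e : ℝ) ≤ u l)
    (hN : NN a b m K p q ≠ 0) (l : ℕ) (hl : l.Prime) :
    Real.log (padicNorm l (NN a b m K p q) : ℚ) ≤ betG u a b m K l := by
  have : Fact l.Prime := ⟨hl⟩
  have hpos : (0 : ℝ) < (padicNorm l (NN a b m K p q) : ℚ) := by
    have h1 : padicNorm l (NN a b m K p q) ≠ 0 := padicNorm.nonzero hN
    have h2 : 0 ≤ padicNorm l (NN a b m K p q) := padicNorm.nonneg _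
    exact_mod_cast lt_of_le_of_ne h2 h1.symm
  have hR0 : (0 : ℝ) < rng a b m K := by
    have : 0 < rng a b m K := by unfold rng; omega
    exact_mod_cast this
  have hlog : 0 ≤ u l * Real.log l := by
    have := hu l
    have h2 : 0 ≤ Real.log l := Real.log_natCast_nonneg _
    positivity
  have hKR : 0 ≤ (K : ℝ) * Real.log (rng a b m K) := by
    have := Real.log_natCast_nonneg (rng a b m K)
    positivity
  unfold betG
  by_cases h2 : l = 2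
  · subst h2
    have h3 := local_two a b m K p q
    have h4 : ((padicNorm 2 (NN a b m K p q) : ℚ) : ℝ) ^ 2 ≤
        (rng a b m K : ℝ) ^ (2 * K) * (32 : ℝ) ^ ((K : ℤ) * (m - 2 * b) - K * (K - 1)) := by
      have h4' := (Rat.cast_le (K := ℝ)).2 h3
      rw [Rat.cast_pow, Rat.cast_mul, Rat.cast_pow, Rat.cast_zpow, Rat.cast_natCast,
        Rat.cast_ofNat] at h4'
      exact h4'
    have h5 := Real.log_le_log (by positivity) h4
    rw [Real.log_pow, Real.log_mul (by positivity) (by positivity), Real.log_pow,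
      Real.log_zpow, show (32 : ℝ) = 2 ^ 5 by norm_num, Real.log_pow] at h5
    rw [if_pos (Or.inr (by norm_num)), if_pos rfl, if_neg (by norm_num), T2]
    push_cast at h5 hlog ⊢
    have h6 : (K : ℝ) * (m - 2 * b) * (5 * Real.log 2) = 2 * (5 / 2 * Real.log 2 *
      (K * (m - 2 * b))) := by ring
    have h7 : ((K : ℝ) * (m - 2 * b) - K * (K - 1)) * (5 * Real.log 2) = 2 * (5 / 2 * Real.log 2 *
      (K * (m - 2 * b) - K * (K - 1))) := by ring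
    linarith
  by_cases h5 : l = 5
  · subst h5
    have h3 := local_five a b m K p q
    have h4 : ((padicNorm 5 (NN a b m K p q) : ℚ) : ℝ) ≤
        (rng a b m K : ℝ) ^ K * (5 : ℝ) ^ (2 * ∑ i ∈ range K, (m - (a + b + 2 * i))) := by
      exact_mod_cast h3
    have h6 := Real.log_le_log hpos h4
    rw [Real.log_mul (by positivity) (by positivity), Real.log_pow, Real.log_pow] at h6
    rw [if_pos (Or.inr (by norm_num)), if_neg (by norm_num), if_pos rfl, T5]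
    push_cast at h6 hlog ⊢
    linarith
  rw [if_neg h2, if_neg h5, add_zero, add_zero]
  by_cases h7 : l ^ 2 ≤ rng a b m K ∨ l < 7
  · rw [if_pos h7]
    have h3 := local_crude a b m K p q l hl h2 h5
    have h4 : ((padicNorm l (NN a b m K p q) : ℚ) : ℝ) ≤ (rng a b m K : ℝ) ^ K := by
      exact_mod_cast h3
    have h6 := Real.log_le_log hpos h4
    rw [Real.log_pow] at h6
    linarith
  · rw [if_neg h7, add_zero]
    push Not at h7
    obtain ⟨e, he1, he2⟩ := hloc l hl h7.2 h7.1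
    have h4 : ((padicNorm l (NN a b m K p q) : ℚ) : ℝ) ≤ (l : ℝ) ^ e := by
      exact_mod_cast he1
    have h6 := Real.log_le_log hpos h4
    rw [Real.log_pow] at h6
    exact h6.trans (mul_le_mul_of_nonneg_right he2 (Real.log_natCast_nonneg _))

lemma log_NN_geG (u : ℕ → ℝ) (a b m K : ℕ) (p q : ℤ) (hu : ∀ l, 0 ≤ u l)
    (hloc : ∀ l : ℕ, l.Prime → 7 ≤ l → rng a b m K < l ^ 2 →
      ∃ e : ℕ, padicNorm l (NN a b m K p q) ≤ (l : ℚ) ^ e ∧ (e : ℝ) ≤ u l)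
    (hN : NN a b m K p q ≠ 0) :
    -(∑ l ∈ (Ioc 0 (rng a b m K)).filter Nat.Prime, u l * Real.log l +
      (Real.sqrt (rng a b m K) + 7) * ((K : ℝ) * Real.log (rng a b m K)) +
      T2 b m K + T5 a b m K) ≤ Real.log |((NN a b m K p q : ℚ) : ℝ)| := by
  have h1 := log_abs_ge (NN a b m K p q) hN (rng a b m K) (betG u a b m K)
    (fun l hl _ => log_norm_leG u a b m K p q hu hloc hN l hl)
    (fun l hl hR => by
      have hR5 : 5 ≤ rng a b m K := by unfold rng; omega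
      have : 7 ≤ l := by
        have h6 : l ≠ 6 := by rintro rfl; exact absurd hl (by norm_num)
        omega
      exact local_big a b m K p q l hl this hR)
  refine le_trans ?_ h1
  rw [neg_le_neg_iff]
  unfold betG
  rw [sum_add_distrib, sum_add_distrib, sum_add_distrib]
  have hR5 : 5 ≤ rng a b m K := by unfold rng; omega
  have e2 : ∑ x ∈ (Ioc 0 (rng a b m K)).filter Nat.Prime, (if x = 2 then T2 b m K else 0) =
      T2 b m K := by
    rw [sum_ite_eq', if_pos]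
    rw [Finset.mem_filter, mem_Ioc]
    exact ⟨⟨by norm_num, by omega⟩, Nat.prime_two⟩
  have e5 : ∑ x ∈ (Ioc 0 (rng a b m K)).filter Nat.Prime, (if x = 5 then T5 a b m K else 0) =
      T5 a b m K := by
    rw [sum_ite_eq', if_pos]
    rw [Finset.mem_filter, mem_Ioc]
    exact ⟨⟨by norm_num, by omega⟩, Nat.prime_five⟩
  rw [e2, e5]
  have hKR : 0 ≤ (K : ℝ) * Real.log (rng a b m K) := by
    have := Real.log_natCast_nonneg (rng a b m K)
    positivity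
  have h3 : ∑ x ∈ (Ioc 0 (rng a b m K)).filter Nat.Prime,
      (if x ^ 2 ≤ rng a b m K ∨ x < 7 then (K : ℝ) * Real.log (rng a b m K) else 0) ≤
      (Real.sqrt (rng a b m K) + 7) * ((K : ℝ) * Real.log (rng a b m K)) := by
    rw [← sum_filter, sum_const, nsmul_eq_mul]
    refine mul_le_mul_of_nonneg_right ?_ hKR
    have h4 : (((Ioc 0 (rng a b m K)).filter Nat.Prime).filter
        (fun x => x ^ 2 ≤ rng a b m K ∨ x < 7)) ⊆ range (Nat.sqrt (rng a b m K) + 7) := by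
      intro x hx
      rw [Finset.mem_filter] at hx
      rw [Finset.mem_range]
      rcases hx.2 with h | h
      · have : x ≤ Nat.sqrt (rng a b m K) := Nat.le_sqrt'.2 h
        omega
      · omega
    have h5 := card_le_card h4
    rw [card_range] at h5
    have h6 : ((Nat.sqrt (rng a b m K) : ℕ) : ℝ) ≤ Real.sqrt (rng a b m K) :=
      Real.nat_sqrt_le_real_sqrt
    calc (_ : ℝ) ≤ ((Nat.sqrt (rng a b m K) + 7 : ℕ) : ℝ) := by exact_mod_cast h5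
      _ ≤ _ := by push_cast; linarith
  linarith

/-- the arithmetic cost for the function `φ` -/
noncomputable def cphi (φ : ℝ → ℝ) (K0 a0 b0 m0 : ℕ) : ℝ :=
  (∫ y in (0 : ℝ)..(2 * (m0 + 2 * K0 + a0 + 2 * b0) + 1), φ y) +
    ((m0 - (a0 + b0) : ℕ) : ℝ) ^ 2 / 2 * Real.log 5 -
    5 / 2 * K0 * (2 * (b0 : ℝ) + K0 - m0) * Real.log 2

lemma sum_phi_le {φ : ℝ → ℝ} (hφ0 : ∀ y, 0 ≤ φ y) {C0 : ℝ} (hC0 : 0 ≤ C0)
    (K0 a0 b0 m0 n κ : ℕ) (hn : 13 ≤ n) (hκ : κ ≤ 2) :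
    ∑ l ∈ (Ioc 0 (rng (a0 * n) (b0 * n) (m0 * n) (K0 * n + κ))).filter Nat.Prime,
      (n * φ ((l : ℝ) / n) + C0) * Real.log l ≤
      n * psum φ n (XR K0 a0 b0 m0) + C0 * (Real.log 4 * (XR K0 a0 b0 m0 * n)) := by
  have hnR : (0 : ℝ) < n := by
    have : 0 < n := by omega
    exact_mod_cast this
  set X : ℝ := XR K0 a0 b0 m0 with hX
  have hX1 : 1 ≤ X := XR_pos K0 a0 b0 m0
  have hX0 : 0 ≤ X * n := by positivity
  have h1 := Chebyshev.theta_le_log4_mul_x hX0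
  have h2 := rng_le K0 a0 b0 m0 n κ hn hκ
  have hsub : (Ioc 0 (rng (a0 * n) (b0 * n) (m0 * n) (K0 * n + κ))).filter Nat.Prime ⊆
      (Ioc 0 ⌊X * n⌋₊).filter Nat.Prime := by
    intro l hl
    rw [Finset.mem_filter, mem_Ioc] at hl ⊢
    exact ⟨⟨hl.1.1, hl.1.2.trans ((Nat.le_floor_iff hX0).2 h2)⟩, hl.2⟩
  calc _ ≤ ∑ l ∈ (Ioc 0 ⌊X * n⌋₊).filter Nat.Prime, (n * φ ((l : ℝ) / n) + C0) * Real.log l := by
        refine sum_le_sum_of_subset_of_nonneg hsub fun l _ _ => ?_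
        have := hφ0 ((l : ℝ) / n)
        have h5 := Real.log_natCast_nonneg l
        positivity
    _ = n * psum φ n X + C0 * Chebyshev.theta (X * n) := by
        rw [psum, Chebyshev.theta, mul_sum, mul_sum, ← sum_add_distrib]
        refine sum_congr rfl fun l _ => ?_
        ring
    _ ≤ _ := by
        have := mul_le_mul_of_nonneg_left h1 hC0
        linarith

lemma lin_leG {X M n k m0 K0 l2 l4 l5 C0 : ℝ} (hn : 1 ≤ n) (h2 : 0 ≤ l2)
    (h5 : 0 ≤ l5) (hk : k ≤ (K0 + 2) * n) :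
    C0 * (l4 * (X * n)) + (M * n + 1) * l5 + 5 / 2 * l2 * ((2 * m0 + K0) * n + 2) + k * l2 ≤
      (C0 * (l4 * X) + (M + 1) * l5 + 5 / 2 * l2 * (2 * m0 + K0 + 2) + (K0 + 2) * l2) * n := by
  have e3 : (M * n + 1) * l5 ≤ (M + 1) * n * l5 := mul_le_mul_of_nonneg_right (by linarith) h5
  have e4 : 5 / 2 * l2 * ((2 * m0 + K0) * n + 2) ≤ 5 / 2 * l2 * ((2 * m0 + K0 + 2) * n) :=
    mul_le_mul_of_nonneg_left (by linarith) (by positivity)
  have e5 : k * l2 ≤ (K0 + 2) * n * l2 := mul_le_mul_of_nonneg_right hk h2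
  have e6 : (C0 * (l4 * X) + (M + 1) * l5 + 5 / 2 * l2 * (2 * m0 + K0 + 2) + (K0 + 2) * l2) * n =
    C0 * (l4 * (X * n)) + (M + 1) * n * l5 + 5 / 2 * l2 * ((2 * m0 + K0 + 2) * n) +
      (K0 + 2) * n * l2 := by ring
  rw [e6]
  linarith

lemma kk_le {K0 n κ : ℕ} (hn : (1 : ℝ) ≤ n) (hκ : (κ : ℝ) ≤ 2) :
    ((K0 * n + κ : ℕ) : ℝ) ≤ (K0 + 2) * n := by
  push_cast
  nlinarith

lemma bn_le {B ε n : ℝ} {N0 : ℕ} (hε : 0 < ε) (hN0 : 4 * B / ε < N0) (h1 : (N0 : ℝ) ≤ n)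
    (hn : 1 ≤ n) : B * n ≤ ε / 4 * n ^ 2 := by
  have h2 : 4 * B / ε < n := hN0.trans_le h1
  rw [div_lt_iff₀ hε] at h2
  nlinarith

/-- **The arithmetic lower bound** from local bounds `n φ (l / n) + C0`. -/
theorem arith_lower_phi (K0 a0 b0 m0 : ℕ) {φ : ℝ → ℝ} {Λ C0 : ℝ} (hφ0 : ∀ y, 0 ≤ φ y)
    (hΛ : 0 ≤ Λ) (hLip : ∀ x y, |φ x - φ y| ≤ Λ * |x - y|) (hC0 : 0 ≤ C0)
    (hloc : ∀ n κ : ℕ, 0 < n → κ ≤ 2 → ∀ (p q : ℤ) (l : ℕ), l.Prime → 7 ≤ l →
      rng (a0 * n) (b0 * n) (m0 * n) (K0 * n + κ) < l ^ 2 →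
      ∃ e : ℕ, padicNorm l (NN (a0 * n) (b0 * n) (m0 * n) (K0 * n + κ) p q) ≤ (l : ℚ) ^ e ∧
        (e : ℝ) ≤ n * φ ((l : ℝ) / n) + C0) {ε : ℝ} (hε : 0 < ε) :
    ∀ᶠ n : ℕ in atTop, ∀ κ ≤ 2, ∀ p q : ℤ, 0 < q →
      (HM ((p : ℝ) / q) (a0 * n) (b0 * n) (m0 * n) (K0 * n + κ)).det ≠ 0 →
      Real.exp (-(cphi φ K0 a0 b0 m0 + ε) * (n : ℝ) ^ 2) ≤
        (q : ℝ) ^ (K0 * n + κ) *
          |(HM ((p : ℝ) / q) (a0 * n) (b0 * n) (m0 * n) (K0 * n + κ)).det| := by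
  set X : ℝ := XR K0 a0 b0 m0 with hXdef
  have hX1 : 1 ≤ X := XR_pos K0 a0 b0 m0
  have hX0 : 0 < X := by linarith
  set η : ℝ := ε / (4 * (K0 + 2) * X) with hη
  have hη0 : 0 < η := by positivity
  have hη1 : (K0 + 2) * (η * X) = ε / 4 := by rw [hη]; field_simp
  set M : ℝ := ((m0 - (a0 + b0) : ℕ) : ℝ) with hM
  have hM0 : 0 ≤ M := Nat.cast_nonneg _
  have hl2 : 0 < Real.log 2 := Real.log_pos (by norm_num)
  have hl4 : 0 < Real.log 4 := Real.log_pos (by norm_num)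
  have hl5 : 0 < Real.log 5 := Real.log_pos (by norm_num)
  set B : ℝ := C0 * (Real.log 4 * X) + (M + 1) * Real.log 5 +
    5 / 2 * Real.log 2 * (2 * m0 + K0 + 2) + (K0 + 2) * Real.log 2 with hB
  have hB0 : 0 ≤ B := by rw [hB]; positivity
  obtain ⟨N0, hN0⟩ := exists_nat_gt (4 * B / ε)
  filter_upwards [psum_le_integral (φ := φ) hX0 hΛ hLip (by positivity : 0 < ε / 4),
    sqrt_log_small hX0 hη0,
    eventually_ge_atTop (N0 + 13)] with n hn1 hn2 hn3 κ hκ p q hq hdet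
  have hn13 : 13 ≤ n := by omega
  have hnR : (1 : ℝ) ≤ n := by
    have : 1 ≤ n := by omega
    exact_mod_cast this
  have hnB : B * n ≤ ε / 4 * n ^ 2 :=
    bn_le hε hN0 (by exact_mod_cast (by omega : N0 ≤ n)) hnR
  have hκR : (κ : ℝ) ≤ 2 := by exact_mod_cast hκ
  have hκ0 : (0 : ℝ) ≤ κ := Nat.cast_nonneg _
  have hqR : (0 : ℝ) < q := by exact_mod_cast hq
  have hNN := NN_eq (a0 * n) (b0 * n) (m0 * n) (K0 * n + κ) p q hq
  have hNNR : ((NN (a0 * n) (b0 * n) (m0 * n) (K0 * n + κ) p q : ℚ) : ℝ) ≠ 0 := by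
    rw [hNN]
    exact mul_ne_zero (pow_pos (by linarith) _).ne' hdet
  have hNN0 : NN (a0 * n) (b0 * n) (m0 * n) (K0 * n + κ) p q ≠ 0 := by
    exact_mod_cast hNNR
  have h3 := log_NN_geG (fun l => n * φ ((l : ℝ) / n) + C0) _ _ _ _ p q
    (fun l => by have := hφ0 ((l : ℝ) / n); positivity)
    (fun l hl h7 hr => hloc n κ (by omega) hκ p q l hl h7 hr) hNN0
  have h4 := sum_phi_le hφ0 hC0 K0 a0 b0 m0 n κ hn13 hκ
  have h5 := T5_le K0 a0 b0 m0 n κ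
  have h6 := T2_le K0 b0 m0 n κ hκ
  have h7 := rng_le K0 a0 b0 m0 n κ hn13 hκ
  have hrng1 : (1 : ℝ) ≤ rng (a0 * n) (b0 * n) (m0 * n) (K0 * n + κ) := by
    have : 1 ≤ rng (a0 * n) (b0 * n) (m0 * n) (K0 * n + κ) := by unfold rng; omega
    exact_mod_cast this
  have hXR : 2 * ((m0 : ℝ) + 2 * K0 + a0 + 2 * b0) + 1 = X := rfl
  rw [← hM] at h5
  rw [← hXdef] at h7 h4
  have h12 : ((K0 * n + κ : ℕ) : ℝ) ≤ (K0 + 2) * n := kk_le hnR hκR
  have h8 : (Real.sqrt (rng (a0 * n) (b0 * n) (m0 * n) (K0 * n + κ)) + 7) *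
      (((K0 * n + κ : ℕ) : ℝ) * Real.log (rng (a0 * n) (b0 * n) (m0 * n) (K0 * n + κ))) ≤
      ε / 4 * n ^ 2 := by
    have h13 := mid_le hrng1 h7 (Nat.cast_nonneg (K0 * n + κ)) h12 hn2
    have h14 : ((K0 : ℝ) + 2) * n * (η * (X * n)) = ((K0 + 2) * (η * X)) * n ^ 2 := by ring
    rw [h14, hη1] at h13
    exact h13
  have h9 : (n : ℝ) * psum φ n X ≤
      (∫ y in (0 : ℝ)..X, φ y) * n ^ 2 + ε / 4 * n ^ 2 := by
    refine (mul_le_mul_of_nonneg_left hn1 (zero_le_one.trans hnR)).trans (le_of_eq ?_)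
    ring
  have hlogeq := log_NN_eq (a0 * n) (b0 * n) (m0 * n) (K0 * n + κ) p q hq hdet
  have hfin : -(cphi φ K0 a0 b0 m0 + ε) * (n : ℝ) ^ 2 ≤ Real.log ((q : ℝ) ^ (K0 * n + κ) *
          |(HM ((p : ℝ) / q) (a0 * n) (b0 * n) (m0 * n) (K0 * n + κ)).det|) := by
    have e1 : cphi φ K0 a0 b0 m0 * (n : ℝ) ^ 2 = (∫ y in (0 : ℝ)..X, φ y) * n ^ 2 +
      M ^ 2 / 2 * Real.log 5 * n ^ 2 +
      -(5 / 2 * K0 * (2 * (b0 : ℝ) + K0 - m0) * Real.log 2) * n ^ 2 := by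
      rw [cphi, hXR, ← hM]; ring
    have e2 : C0 * (Real.log 4 * (X * n)) + (M * n + 1) * Real.log 5 +
        5 / 2 * Real.log 2 * ((2 * m0 + K0) * n + 2) +
        ((K0 * n + κ : ℕ) : ℝ) * Real.log 2 ≤ B * n := by
      rw [hB]
      exact lin_leG hnR hl2.le hl5.le h12
    have e6 : -(cphi φ K0 a0 b0 m0 + ε) * (n : ℝ) ^ 2 = -(cphi φ K0 a0 b0 m0 * (n : ℝ) ^ 2) -
      ε * n ^ 2 := by ring
    rw [e6, e1]
    rw [hlogeq] at h3
    have e7 : 0 ≤ ε * (n : ℝ) ^ 2 := by positivity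
    linarith
  exact (Real.le_log_iff_exp_le (mul_pos (pow_pos hqR _) (abs_pos.2 hdet))).1 hfin

end Vale.Agent.P021.Det
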