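import Vale.Agent.P021.Det.Defs
import Vale.Agent.PNT.Main

open Polynomial Filter Topology

namespace Vale.Agent.P021.Det

theorem arithLower_log_lcm {η : ℝ} (hη : 0 < η) :
    ∃ C : ℝ, 0 ≤ C ∧ ∀ Y : ℕ, Real.log (Nat.lcmUpto Y) ≤ (1 + η) * Y + C := by
  have h := Vale.Agent.PNT.log_lcmUpto_div_tendsto
  have h1 : ∀ᶠ n : ℕ in atTop, Real.log (Nat.lcmUpto n) / n < 1 + η :=
    h.eventually_lt_const (by linarith)
  obtain ⟨N, hN⟩ := eventually_atTop.mp (h1.and (eventually_ge_atTop 1))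
  refine ⟨∑ Y ∈ Finset.range N, |Real.log (Nat.lcmUpto Y)|,
    Finset.sum_nonneg fun _ _ => abs_nonneg _, fun Y => ?_⟩
  have h0 : (0 : ℝ) ≤ ∑ Y ∈ Finset.range N, |Real.log (Nat.lcmUpto Y)| :=
    Finset.sum_nonneg fun _ _ => abs_nonneg _
  by_cases hY : Y < N
  · have h2 : |Real.log (Nat.lcmUpto Y)| ≤ ∑ Y ∈ Finset.range N, |Real.log (Nat.lcmUpto Y)| :=
      Finset.single_le_sum (f := fun Y : ℕ => |Real.log (Nat.lcmUpto Y)|)
        (fun _ _ => abs_nonneg _) (Finset.mem_range.mpr hY)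
    have h3 : 0 ≤ (1 + η) * (Y : ℝ) := by positivity
    have h4 := le_abs_self (Real.log (Nat.lcmUpto Y))
    linarith
  · obtain ⟨h2, h3⟩ := hN Y (not_lt.mp hY)
    have h4 : (0 : ℝ) < Y := by exact_mod_cast h3
    rw [div_lt_iff₀ h4] at h2
    linarith

theorem arithLower_sum_id (n : ℕ) :
    ∑ i ∈ Finset.range n, (i : ℝ) = n * (n - 1) / 2 := by
  induction n with
  | zero => simp
  | succ k ih =>
    rw [Finset.sum_range_succ, ih]
    push_cast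
    ring

/-- the sum of the truncated linear function -/
theorem arithLower_sum_sub (K M : ℕ) :
    4 * ∑ i ∈ Finset.range K, (M - 2 * i) ≤ (M + 1) ^ 2 := by
  induction K generalizing M with
  | zero => simp
  | succ k ih =>
    rw [Finset.sum_range_succ']
    have e : ∀ i, M - 2 * (i + 1) = M - 2 - 2 * i := fun i => by omega
    simp only [e]
    rcases lt_or_ge M 2 with hM | hM
    · have e2 : M - 2 = 0 := by omega
      rw [e2]
      simp only [Nat.zero_sub, Finset.sum_const_zero]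
      interval_cases M <;> norm_num
    · obtain ⟨M', rfl⟩ := Nat.exists_eq_add_of_le hM
      have h := ih M'
      have e2 : 2 + M' - 2 = M' := by omega
      rw [e2]
      have e3 : (2 + M' + 1) ^ 2 = (M' + 1) ^ 2 + 4 * (2 + M') := by ring
      rw [e3]
      simp only [mul_zero, Nat.sub_zero]
      omega

theorem arithLower_sum_Y (T E κ r : ℕ) :
    ((∑ i ∈ Finset.range (T + r),
        max (3 * T + 2 * E - i) (2 * i + 2 * κ + 2 * E) : ℕ) : ℝ) ≤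
      (3 * T + 2 * E) * T - (T : ℝ) ^ 2 / 2 + ((T + r : ℝ) ^ 2 - (T : ℝ) ^ 2) + 2 * E * r
        + T + 2 * κ * (T + r) := by
  rw [Finset.sum_range_add, Nat.cast_add, Nat.cast_sum, Nat.cast_sum]
  have h1 : ∑ i ∈ Finset.range T, ((max (3 * T + 2 * E - i) (2 * i + 2 * κ + 2 * E) : ℕ) : ℝ) ≤
      ∑ i ∈ Finset.range T, ((3 * (T : ℝ) + 2 * E + 2 * κ) - i) := by
    refine Finset.sum_le_sum fun i hi => ?_
    have hi' := Finset.mem_range.mp hi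
    have e : max (3 * T + 2 * E - i) (2 * i + 2 * κ + 2 * E) + i ≤ 3 * T + 2 * E + 2 * κ := by
      omega
    have e' : ((max (3 * T + 2 * E - i) (2 * i + 2 * κ + 2 * E) : ℕ) : ℝ) + i ≤
        3 * T + 2 * E + 2 * κ := by exact_mod_cast e
    linarith
  have h2 : ∑ j ∈ Finset.range r,
      ((max (3 * T + 2 * E - (T + j)) (2 * (T + j) + 2 * κ + 2 * E) : ℕ) : ℝ) ≤
      ∑ j ∈ Finset.range r, ((2 * (T : ℝ) + 2 * κ + 2 * E) + 2 * j) := by
    refine Finset.sum_le_sum fun j _ => ?_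
    have e : max (3 * T + 2 * E - (T + j)) (2 * (T + j) + 2 * κ + 2 * E) ≤
        2 * T + 2 * κ + 2 * E + 2 * j := by
      omega
    exact_mod_cast e
  have e1 : ∑ i ∈ Finset.range T, ((3 * (T : ℝ) + 2 * E + 2 * κ) - i) =
      (3 * (T : ℝ) + 2 * E + 2 * κ) * T - T * (T - 1) / 2 := by
    rw [Finset.sum_sub_distrib, arithLower_sum_id, Finset.sum_const, Finset.card_range,
      nsmul_eq_mul]
    ring
  have e2 : ∑ j ∈ Finset.range r, ((2 * (T : ℝ) + 2 * κ + 2 * E) + 2 * j) =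
      (2 * (T : ℝ) + 2 * κ + 2 * E) * r + r * (r - 1) := by
    rw [Finset.sum_add_distrib, ← Finset.mul_sum, arithLower_sum_id, Finset.sum_const,
      Finset.card_range, nsmul_eq_mul]
    ring
  have hT : (0 : ℝ) ≤ T := Nat.cast_nonneg T
  have hr : (0 : ℝ) ≤ r := Nat.cast_nonneg r
  nlinarith [h1, h2, e1, e2]

theorem arithLower_floor (K : ℕ) :
    5 / 2 * (K : ℝ) * (K - 1) - K ≤ ((2 * ∑ i ∈ Finset.range K, 5 * i / 2 : ℕ) : ℝ) := by
  have h : ∑ i ∈ Finset.range K, (5 * (i : ℝ) - 1) ≤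
      ((2 * ∑ i ∈ Finset.range K, 5 * i / 2 : ℕ) : ℝ) := by
    rw [Nat.cast_mul, Nat.cast_sum, Finset.mul_sum]
    refine Finset.sum_le_sum fun i _ => ?_
    have e : 5 * i ≤ 2 * (5 * i / 2) + 1 := by omega
    have e' : (5 * (i : ℝ)) ≤ ((2 : ℕ) : ℝ) * ((5 * i / 2 : ℕ) : ℝ) + 1 := by exact_mod_cast e
    linarith
  rw [Finset.sum_sub_distrib, ← Finset.mul_sum, arithLower_sum_id, Finset.sum_const,
    Finset.card_range, nsmul_eq_mul] at h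
  linarith

theorem arithLower_log_prod {η C : ℝ} (hlcm : ∀ Y : ℕ, Real.log (Nat.lcmUpto Y) ≤ (1 + η) * Y + C)
    (Y : ℕ → ℕ) (K : ℕ) :
    Real.log (∏ i ∈ Finset.range K, (Nat.lcmUpto (Y i) : ℝ)) ≤
      (1 + η) * ((∑ i ∈ Finset.range K, Y i : ℕ) : ℝ) + C * K := by
  rw [Real.log_prod]
  · calc ∑ i ∈ Finset.range K, Real.log (Nat.lcmUpto (Y i))
        ≤ ∑ i ∈ Finset.range K, ((1 + η) * (Y i : ℝ) + C) :=
          Finset.sum_le_sum fun i _ => hlcm (Y i)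
      _ = _ := by
          rw [Finset.sum_add_distrib, ← Finset.mul_sum, Finset.sum_const, Finset.card_range,
            nsmul_eq_mul]
          push_cast
          ring
  · intro i _
    exact_mod_cast (Nat.lcmUpto_pos (Y i)).ne'

theorem arithLower_S {t d E n k S : ℝ}
    (ht : 0 ≤ t) (hd : 0 ≤ d) (hE : 0 ≤ E) (hn : 0 ≤ n) (hk0 : 0 ≤ k) (hk : k ≤ 2)
    (hS : S ≤ (3 * (t * n) + 2 * (E * n)) * (t * n) - (t * n) ^ 2 / 2 +
      ((t * n + (d * n + k)) ^ 2 - (t * n) ^ 2) + 2 * (E * n) * (d * n + k)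
        + t * n + 2 * k * (t * n + (d * n + k))) :
    S ≤ (((3 * t + 2 * E) * t - t ^ 2 / 2) + (((t + d) ^ 2 - t ^ 2) + 2 * E * d)) * n ^ 2 +
      ((8 * (t + d) + 4 * E + t) * n + 12) := by
  refine hS.trans ?_
  have e1 : k * (t * n) ≤ 2 * (t * n) := mul_le_mul_of_nonneg_right hk (by positivity)
  have e2 : k * (d * n) ≤ 2 * (d * n) := mul_le_mul_of_nonneg_right hk (by positivity)
  have e3 : k * (E * n) ≤ 2 * (E * n) := mul_le_mul_of_nonneg_right hk (by positivity)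
  have e4 : k * k ≤ 2 * 2 := mul_le_mul hk hk hk0 (by norm_num)
  linarith

theorem arithLower_PR {K s b m n k P R : ℝ} (hn : 0 ≤ n) (hk0 : 0 ≤ k)
    (hk : k ≤ 2) (hs : s = 2 * b + K - m)
    (hP : 5 * (b * n) * (K * n + k) +
      (5 / 2 * (K * n + k) * (K * n + k - 1) - (K * n + k)) ≤ P)
    (hR : R ≤ (K * n + k) * ((5 * (m * n) + 1) / 2)) :
    5 / 2 * K * s * n ^ 2 - (5 * |K + s| + 4 * K) * n - 8 ≤ P - R := by
  have e0 : 5 * (b * n) * (K * n + k) +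
    (5 / 2 * (K * n + k) * (K * n + k - 1) - (K * n + k)) -
      (K * n + k) * ((5 * (m * n) + 1) / 2) ≤ P - R := by linarith
  refine le_trans ?_ e0
  have e1 : -(2 * |K + s|) * n ≤ (k * (K + s)) * n := by
    refine mul_le_mul_of_nonneg_right ?_ hn
    have f1 : -(k * |K + s|) ≤ k * (K + s) := by
      rw [← mul_neg]
      exact mul_le_mul_of_nonneg_left (neg_abs_le _) hk0
    have f2 : k * |K + s| ≤ 2 * |K + s| := mul_le_mul_of_nonneg_right hk (abs_nonneg _)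
    linarith
  have e2 : 0 ≤ k * k := mul_nonneg hk0 hk0
  have e3 : b = (s - K + m) / 2 := by linarith
  rw [e3]
  linarith

/-- pure real arithmetic: the collected exponents -/
theorem arithLower_collect {A K s c1 M n k η C l2 l5 S P Q R lL : ℝ}
    (hk : k ≤ 2)
    (hη : 0 ≤ η) (hC : 0 ≤ C) (hl2 : 0 ≤ l2) (hl5 : 0 ≤ l5)
    (hS : S ≤ A * n ^ 2 + (c1 * n + 12))
    (hQ : 2 * Q ≤ (M * n + 1) ^ 2)
    (hPR : 5 / 2 * K * s * n ^ 2 - (5 * |K + s| + 4 * K) * n - 8 ≤ P - R)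
    (hL : lL ≤ (1 + η) * S + C * (K * n + k)) :
    lL + Q * l5 + R * l2 - P * l2 ≤
      (A + M ^ 2 / 2 * l5 - 5 / 2 * K * s * l2) * n ^ 2 + η * A * n ^ 2
      + (((1 + η) * c1 + C * K + M * l5 + (5 * |K + s| + 4 * K) * l2) * n +
        ((1 + η) * 12 + 2 * C + l5 / 2 + 8 * l2)) := by
  have hLL : lL ≤ (1 + η) * (A * n ^ 2 + (c1 * n + 12)) + C * (K * n + 2) := by
    refine hL.trans (add_le_add (mul_le_mul_of_nonneg_left hS (by linarith)) ?_)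
    exact mul_le_mul_of_nonneg_left (by linarith) hC
  have hQQ : Q * l5 ≤ ((M * n + 1) ^ 2 / 2) * l5 :=
    mul_le_mul_of_nonneg_right (by linarith) hl5
  have hPR2 := mul_le_mul_of_nonneg_right hPR hl2
  linarith

theorem arithLower_fin {B0 B1 n ε : ℝ} (hB0 : 0 ≤ B0) (hn : 1 ≤ n)
    (h : 2 * (B1 + B0) ≤ n * ε) : B1 * n + B0 ≤ ε / 2 * n ^ 2 := by
  have f2 : B1 * n + B0 ≤ (B1 + B0) * n := by nlinarith
  have f3 : (B1 + B0) * n ≤ (n * ε / 2) * n :=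
    mul_le_mul_of_nonneg_right (by linarith) (by linarith)
  nlinarith

/-- `arith_lower` from `det_lower` -/
theorem arith_lower_of
    (det_lower : ∀ (a b m K : ℕ) (p q : ℤ), 0 < q → ∀ Y : ℕ → ℕ,
      (∀ i < K, m ≤ i + Y i) → (∀ i < K, 2 * (i + K + a + 2 * b) ≤ Y i + 2 * m + 1) →
      (HM ((p : ℝ) / q) a b m K).det ≠ 0 →
      (2 : ℝ) ^ (5 * b * K + 2 * ∑ i ∈ Finset.range K, 5 * i / 2) ≤
        |(HM ((p : ℝ) / q) a b m K).det| * (q : ℝ) ^ K *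
          (∏ i ∈ Finset.range K, (Nat.lcmUpto (Y i) : ℝ)) *
          5 ^ (2 * ∑ i ∈ Finset.range K, (m - (a + b) - 2 * i)) * 2 ^ (K * ((5 * m + 1) / 2)))
    (K0 a0 b0 m0 t0 E0 M0 : ℕ) (h1 : K0 + a0 + 2 * b0 = m0 + E0)
    (h2 : m0 = 3 * t0 + 2 * E0) (ht : t0 ≤ K0) (h3 : m0 = a0 + b0 + M0) (hM : M0 ≤ 2 * K0)
    {ε : ℝ} (hε : 0 < ε) :
    ∀ᶠ n : ℕ in atTop, ∀ κ ≤ 2, ∀ p q : ℤ, 0 < q →
      (HM ((p : ℝ) / q) (a0 * n) (b0 * n) (m0 * n) (K0 * n + κ)).det ≠ 0 →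
      Real.exp (-(cst K0 a0 b0 m0 t0 E0 M0 + ε) * (n : ℝ) ^ 2) ≤
        (q : ℝ) ^ (K0 * n + κ) *
          |(HM ((p : ℝ) / q) (a0 * n) (b0 * n) (m0 * n) (K0 * n + κ)).det| := by
  obtain ⟨d, rfl⟩ := Nat.exists_eq_add_of_le ht
  obtain ⟨A, hA⟩ : ∃ A : ℝ, A = (m0 * t0 - (t0 : ℝ) ^ 2 / 2) +
      ((((t0 : ℝ) + d) ^ 2 - (t0 : ℝ) ^ 2) + 2 * E0 * d) := ⟨_, rfl⟩
  have hη : 0 < ε / (2 * (|A| + 1)) := by positivity
  obtain ⟨η, hηdef⟩ : ∃ η : ℝ, η = ε / (2 * (|A| + 1)) := ⟨_, rfl⟩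
  rw [← hηdef] at hη
  have hηA : η * A ≤ ε / 2 := by
    have e1 : η * (2 * (|A| + 1)) = ε := by
      rw [hηdef]
      field_simp
    have e2 : η * A ≤ η * (|A| + 1) :=
      mul_le_mul_of_nonneg_left (by linarith [le_abs_self A]) hη.le
    linarith
  obtain ⟨C, hC, hlcm⟩ := arithLower_log_lcm hη
  obtain ⟨B1, hB1⟩ : ∃ B1 : ℝ, B1 = (1 + η) * (8 * ((t0 : ℝ) + d) + 4 * E0 + t0) +
      C * ((t0 : ℝ) + d) + M0 * Real.log 5 +
        (5 * |((t0 : ℝ) + d) + (2 * (b0 : ℝ) + ((t0 : ℝ) + d) - m0)| + 4 * ((t0 : ℝ) + d)) *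
          Real.log 2 := ⟨_, rfl⟩
  obtain ⟨B0, hB0⟩ : ∃ B0 : ℝ, B0 = (1 + η) * 12 + 2 * C + Real.log 5 / 2 + 8 * Real.log 2 :=
    ⟨_, rfl⟩
  have hl2 : 0 ≤ Real.log 2 := Real.log_nonneg (by norm_num)
  have hl5 : 0 ≤ Real.log 5 := Real.log_nonneg (by norm_num)
  have hB0' : 0 ≤ B0 := by rw [hB0]; positivity
  filter_upwards [eventually_ge_atTop 1,
    tendsto_natCast_atTop_atTop.eventually_ge_atTop (2 * (B1 + B0) / ε)] with n hn1 hnB κ hκ p q hq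
      hne
  have hn1' : (1 : ℝ) ≤ n := by exact_mod_cast hn1
  have e2n : m0 * n = 3 * (t0 * n) + 2 * (E0 * n) := by rw [h2]; ring
  have e1n : (t0 + d) * n + a0 * n + 2 * (b0 * n) = m0 * n + E0 * n := by
    rw [← add_mul, ← mul_assoc, ← add_mul, h1, add_mul]
  have e3n : m0 * n - (a0 * n + b0 * n) = M0 * n := by
    rw [h3]
    rw [show (a0 + b0 + M0) * n = a0 * n + b0 * n + M0 * n by ring]
    omega
  have key := det_lower (a0 * n) (b0 * n) (m0 * n) ((t0 + d) * n + κ) p q hq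
    (fun i => max (3 * (t0 * n) + 2 * (E0 * n) - i) (2 * i + 2 * κ + 2 * (E0 * n)))
    (fun i _ => by omega) (fun i _ => by omega) hne
  rw [e3n] at key
  obtain ⟨D, hD⟩ : ∃ D : ℝ, D =
    |(HM ((p : ℝ) / q) (a0 * n) (b0 * n) (m0 * n) ((t0 + d) * n + κ)).det| := ⟨_, rfl⟩
  rw [← hD] at key ⊢
  have hlog := arithLower_log_prod hlcm
    (fun i => max (3 * (t0 * n) + 2 * (E0 * n) - i) (2 * i + 2 * κ + 2 * (E0 * n)))
    ((t0 + d) * n + κ)
  have hS := arithLower_sum_Y (t0 * n) (E0 * n) κ (d * n + κ)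
  rw [show t0 * n + (d * n + κ) = (t0 + d) * n + κ by ring] at hS
  obtain ⟨S, hSdef⟩ : ∃ S : ℕ, S = ∑ i ∈ Finset.range ((t0 + d) * n + κ),
    max (3 * (t0 * n) + 2 * (E0 * n) - i) (2 * i + 2 * κ + 2 * (E0 * n)) := ⟨_, rfl⟩
  rw [← hSdef] at hS hlog
  have hLpos : (0 : ℝ) < ∏ i ∈ Finset.range ((t0 + d) * n + κ), (Nat.lcmUpto
      (max (3 * (t0 * n) + 2 * (E0 * n) - i) (2 * i + 2 * κ + 2 * (E0 * n))) : ℝ) :=
    Finset.prod_pos fun i _ => by exact_mod_cast Nat.lcmUpto_pos _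
  obtain ⟨L, hLdef⟩ : ∃ L : ℝ, L = ∏ i ∈ Finset.range ((t0 + d) * n + κ), (Nat.lcmUpto
      (max (3 * (t0 * n) + 2 * (E0 * n) - i) (2 * i + 2 * κ + 2 * (E0 * n))) : ℝ) := ⟨_, rfl⟩
  rw [← hLdef] at key hlog hLpos
  have hQ := arithLower_sum_sub ((t0 + d) * n + κ) (M0 * n)
  obtain ⟨Q, hQdef⟩ : ∃ Q : ℕ, Q = 2 * ∑ i ∈ Finset.range ((t0 + d) * n + κ), (M0 * n - 2 * i) :=
    ⟨_, rfl⟩
  rw [← hQdef] at key
  have hQ' : 2 * Q ≤ (M0 * n + 1) ^ 2 := by rw [hQdef]; omega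
  have hF := arithLower_floor ((t0 + d) * n + κ)
  obtain ⟨F, hFdef⟩ : ∃ F : ℕ, F = 2 * ∑ i ∈ Finset.range ((t0 + d) * n + κ), 5 * i / 2 :=
    ⟨_, rfl⟩
  rw [← hFdef] at key hF
  obtain ⟨R, hRdef⟩ : ∃ R : ℕ, R = ((t0 + d) * n + κ) * ((5 * (m0 * n) + 1) / 2) := ⟨_, rfl⟩
  rw [← hRdef] at key
  have hR' : (R : ℝ) ≤ (((t0 : ℝ) + d) * n + κ) * ((5 * (m0 * n) + 1) / 2) := by
    rw [hRdef]
    push_cast
    refine mul_le_mul_of_nonneg_left ?_ (by positivity)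
    have := @Nat.cast_div_le ℝ _ _ _ (5 * (m0 * n) + 1) 2
    push_cast at this
    exact this
  have hn0 : (0 : ℝ) ≤ n := Nat.cast_nonneg n
  have hk0 : (0 : ℝ) ≤ κ := Nat.cast_nonneg κ
  have hk2 : (κ : ℝ) ≤ 2 := by exact_mod_cast hκ
  have hm0 : (m0 : ℝ) = 3 * t0 + 2 * E0 := by exact_mod_cast h2
  have hS1 := arithLower_S (t := t0) (d := d) (E := E0) (n := n) (k := κ) (S := S)
    (Nat.cast_nonneg _) (Nat.cast_nonneg _) (Nat.cast_nonneg _) hn0 hk0 hk2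
    (by push_cast at hS; linarith)
  rw [← hm0, ← hA] at hS1
  have hPR := arithLower_PR (K := (t0 : ℝ) + d) (s := 2 * (b0 : ℝ) + ((t0 : ℝ) + d) - m0) (b := b0)
    (m := m0) (n := n) (k := κ) (P := ((5 * (b0 * n) * ((t0 + d) * n + κ) + F : ℕ) : ℝ)) (R := R)
    hn0 hk0 hk2 rfl (by push_cast at hF ⊢; linarith) hR'
  have hcol := arithLower_collect (A := A) (K := (t0 : ℝ) + d)
    (s := 2 * (b0 : ℝ) + ((t0 : ℝ) + d) - m0)
    (M := M0) (n := n) (k := κ) (η := η) (C := C) (l2 := Real.log 2) (l5 := Real.log 5)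
    (P := ((5 * (b0 * n) * ((t0 + d) * n + κ) + F : ℕ) : ℝ)) (Q := Q) (R := R)
    (lL := Real.log L) hk2 hη.le hC hl2 hl5 hS1
    (by exact_mod_cast hQ') hPR (by push_cast at hlog ⊢; exact hlog)
  have hcst : cst (t0 + d) a0 b0 m0 t0 E0 M0 = (A + (M0 : ℝ) ^ 2 / 2 * Real.log 5
        - 5 / 2 * ((t0 : ℝ) + d) * (2 * b0 + ((t0 : ℝ) + d) - m0) * Real.log 2) := by
    rw [hA]
    unfold cst
    push_cast
    ring
  rw [← hcst, ← hB1, ← hB0] at hcol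
  have hfin : B1 * n + B0 ≤ ε / 2 * (n : ℝ) ^ 2 := by
    refine arithLower_fin hB0' hn1' ?_
    rwa [div_le_iff₀ hε] at hnB
  have hηA2 : η * A * (n : ℝ) ^ 2 ≤ ε / 2 * (n : ℝ) ^ 2 :=
    mul_le_mul_of_nonneg_right hηA (by positivity)
  have hexp : Real.exp (-(cst (t0 + d) a0 b0 m0 t0 E0 M0 + ε) * (n : ℝ) ^ 2) *
      (L * 5 ^ Q * 2 ^ R) ≤ 2 ^ (5 * (b0 * n) * ((t0 + d) * n + κ) + F) := by
    have g1 : L * 5 ^ Q * 2 ^ R =
        Real.exp (Real.log L + Q * Real.log 5 + R * Real.log 2) := by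
      rw [Real.exp_add, Real.exp_add, Real.exp_log hLpos, Real.exp_nat_mul, Real.exp_nat_mul,
        Real.exp_log (by norm_num), Real.exp_log (by norm_num)]
    have g2 : (2 : ℝ) ^ (5 * (b0 * n) * ((t0 + d) * n + κ) + F) =
        Real.exp (((5 * (b0 * n) * ((t0 + d) * n + κ) + F : ℕ) : ℝ) * Real.log 2) := by
      rw [Real.exp_nat_mul, Real.exp_log (by norm_num)]
    rw [g1, g2, ← Real.exp_add]
    apply Real.exp_le_exp.mpr
    linarith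
  have hW : 0 < L * 5 ^ Q * 2 ^ R := by positivity
  have hend : Real.exp (-(cst (t0 + d) a0 b0 m0 t0 E0 M0 + ε) * (n : ℝ) ^ 2) *
      (L * 5 ^ Q * 2 ^ R) ≤ ((q : ℝ) ^ ((t0 + d) * n + κ) * D) * (L * 5 ^ Q * 2 ^ R) := by
    refine hexp.trans (key.trans (le_of_eq ?_))
    ring
  exact le_of_mul_le_mul_right hend hW

end Vale.Agent.P021.Det
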