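import Vale.Agent.P021.Det.DetLower
import Vale.Agent.P021.Det.ArithLowerOf

open Filter

namespace Vale.Agent.P021.Det

theorem arith_lower (K0 a0 b0 m0 t0 E0 M0 : ℕ) (h1 : K0 + a0 + 2 * b0 = m0 + E0)
    (h2 : m0 = 3 * t0 + 2 * E0) (ht : t0 ≤ K0) (h3 : m0 = a0 + b0 + M0) (hM : M0 ≤ 2 * K0)
    {ε : ℝ} (hε : 0 < ε) :
    ∀ᶠ n : ℕ in atTop, ∀ κ ≤ 2, ∀ p q : ℤ, 0 < q →
      (HM ((p : ℝ) / q) (a0 * n) (b0 * n) (m0 * n) (K0 * n + κ)).det ≠ 0 →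
      Real.exp (-(cst K0 a0 b0 m0 t0 E0 M0 + ε) * (n : ℝ) ^ 2) ≤
        (q : ℝ) ^ (K0 * n + κ) *
          |(HM ((p : ℝ) / q) (a0 * n) (b0 * n) (m0 * n) (K0 * n + κ)).det| :=
  arith_lower_of det_lower K0 a0 b0 m0 t0 E0 M0 h1 h2 ht h3 hM hε

end Vale.Agent.P021.Det
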