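import Vale.Agent.P021.Form
import Vale.Agent.P021.Val
import Vale.Agent.P021.Defs

open Polynomial

namespace Vale.Agent.P021.Det

/-- `Λ_x(τ^k) = aco k * x / 2 + bco k` (so `Λ_π(τ^k) = ∫_{-2}^{2} ((-1+iy)^2-25)^k dy`). -/
noncomputable def lam (x : ℝ) (k : ℤ) : ℝ := (aco k : ℝ) * (x / 2) + (bco k : ℝ)

/-- boundary term `2 Im (e τ_e^k)`, `e = -1+2i`, `τ_e = e^2-25 = -28-4i`. -/
noncomputable def bd (k : ℤ) : ℝ :=
  2 * ((-1 + 2 * Complex.I) * (-28 - 4 * Complex.I) ^ k).im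

/-- `Λ_x(F τ^{-m})` -/
noncomputable def Lam (x : ℝ) (m : ℕ) : ℝ[X] →ₗ[ℝ] ℝ :=
  Polynomial.lsum fun j => (lam x ((j : ℤ) - m)) • (LinearMap.id : ℝ →ₗ[ℝ] ℝ)

/-- the coefficient of `x` in `Λ_x(F τ^{-m})` -/
noncomputable def Bet (m : ℕ) : ℝ[X] →ₗ[ℝ] ℝ :=
  Polynomial.lsum fun j => ((aco ((j : ℤ) - m) : ℝ) / 2) • (LinearMap.id : ℝ →ₗ[ℝ] ℝ)

theorem Lam_eq_sum (x : ℝ) (m : ℕ) (F : ℝ[X]) {N : ℕ} (hN : F.natDegree < N) :
    Lam x m F = ∑ j ∈ Finset.range N, F.coeff j * lam x ((j : ℤ) - m) := by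
  unfold Lam
  rw [Polynomial.lsum_apply, Polynomial.sum_over_range' _ _ N hN]
  · apply Finset.sum_congr rfl
    intro j _
    simp [mul_comm]
  · intro j
    simp

theorem Bet_eq_sum (m : ℕ) (F : ℝ[X]) {N : ℕ} (hN : F.natDegree < N) :
    Bet m F = ∑ j ∈ Finset.range N, F.coeff j * ((aco ((j : ℤ) - m) : ℝ) / 2) := by
  unfold Bet
  rw [Polynomial.lsum_apply, Polynomial.sum_over_range' _ _ N hN]
  · apply Finset.sum_congr rfl
    intro j _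
    simp [mul_comm]
  · intro j
    simp

theorem Lam_eq_add (x y : ℝ) (m : ℕ) (F : ℝ[X]) :
    Lam x m F = Lam y m F + (x - y) * Bet m F := by
  rw [Lam_eq_sum x m F (Nat.lt_succ_self _), Lam_eq_sum y m F (Nat.lt_succ_self _),
    Bet_eq_sum m F (Nat.lt_succ_self _), Finset.mul_sum, ← Finset.sum_add_distrib]
  apply Finset.sum_congr rfl
  intro j _
  unfold lam
  ring

theorem Lam_X_pow (x : ℝ) (m k : ℕ) : Lam x m (X ^ k) = lam x ((k : ℤ) - m) := by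
  unfold Lam
  rw [Polynomial.lsum_apply, ← Polynomial.monomial_one_right_eq_X_pow,
    Polynomial.sum_monomial_index]
  · simp
  · simp

theorem Bet_X_pow (m k : ℕ) : Bet m (X ^ k) = (aco ((k : ℤ) - m) : ℝ) / 2 := by
  unfold Bet
  rw [Polynomial.lsum_apply, ← Polynomial.monomial_one_right_eq_X_pow,
    Polynomial.sum_monomial_index]
  · simp
  · simp

/-- the weight polynomial `(τ+25)^a (τ^2+56τ+800)^b`. -/
noncomputable def Wp (a b : ℕ) : ℝ[X] := (X + C 25) ^ a * (X ^ 2 + C 56 * X + C 800) ^ b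

/-- the Hankel matrix `(Λ_x(τ^{i+j} (τ+25)^a (τ^2+56τ+800)^b τ^{-m}))_{i,j<K}` -/
noncomputable def HM (x : ℝ) (a b m K : ℕ) : Matrix (Fin K) (Fin K) ℝ :=
  Matrix.of fun i j => Lam x m (X ^ ((i : ℕ) + (j : ℕ)) * Wp a b)

/-- `τ(s) = s^2 - 25` -/
def tau (s : ℂ) : ℂ := s ^ 2 - 25

/-- the complex value `F(τ(s))` -/
noncomputable def ev (F : ℝ[X]) (s : ℂ) : ℂ := Polynomial.aeval (tau s) F

/-- the integral of `f` over the segment `[u,v]`. -/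
noncomputable def segI (f : ℂ → ℂ) (u v : ℂ) : ℂ :=
  (v - u) * ∫ t in (0 : ℝ)..1, f (u + (t : ℂ) * (v - u))

/-- the integral of `f` along the polygon with the given vertices. -/
noncomputable def pathI (f : ℂ → ℂ) : List ℂ → ℂ
  | [] => 0
  | [_] => 0
  | u :: v :: l => segI f u v + pathI f (v :: l)

/-- all segments of the polygon are contained in `S` -/
def PathIn (S : Set ℂ) : List ℂ → Prop
  | [] => True
  | [_] => True
  | u :: v :: l => segment ℝ u v ⊆ S ∧ PathIn S (v :: l)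

/-- the functional `Bet m` is bounded by sup norms on `T` -/
def BetBound (T : Set ℂ) : Prop :=
  ∃ C : ℝ, 0 < C ∧ ∀ (m : ℕ) (F : ℝ[X]) (M : ℝ),
    (∀ s ∈ T, ‖ev F s‖ ≤ M * ‖tau s‖ ^ m) → |Bet m F| ≤ C * M

/-- Data certifying the Archimedean bound: monic polynomials `F_0=1, ..., F_N` of degrees
`0 = d_0 < ... < d_N = K0` and numbers `L_j` with `|F_j^2 W_1 τ^{-m0}| ≤ e^{L_j}` on `S` and
`≤ e^{L_j + w}` on `T` (a circle around `5`, or any other set with `BetBound T`). -/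
structure Cert (K0 a0 b0 m0 N : ℕ) (w : ℝ) (S T : Set ℂ) where
  F : ℕ → ℝ[X]
  d : ℕ → ℕ
  L : ℕ → ℝ
  monic : ∀ j, j ≤ N → (F j).Monic
  deg : ∀ j, j ≤ N → (F j).natDegree = d j
  d_zero : d 0 = 0
  d_last : d N = K0
  d_lt : ∀ j, j < N → d j < d (j + 1)
  path : ∀ j, j ≤ N → ∀ s ∈ S,
    ‖ev (F j) s‖ ^ 2 * ‖ev (Wp a0 b0) s‖ ≤ Real.exp (L j) * ‖tau s‖ ^ m0
  circ : ∀ j, j ≤ N → ∀ s ∈ T,
    ‖ev (F j) s‖ ^ 2 * ‖ev (Wp a0 b0) s‖ ≤ Real.exp (L j + w) * ‖tau s‖ ^ m0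

/-- the Archimedean exponent of a certificate -/
noncomputable def Cert.total {K0 a0 b0 m0 N : ℕ} {w : ℝ} {S T : Set ℂ}
    (c : Cert K0 a0 b0 m0 N w S T) : ℝ :=
  ∑ j ∈ Finset.range N, ((c.d (j + 1) : ℝ) - c.d j) * (c.L j + c.L (j + 1)) / 2

/-- the arithmetic cost -/
noncomputable def cst (K0 a0 b0 m0 t0 E0 M0 : ℕ) : ℝ :=
  ((m0 : ℝ) * t0 - (t0 : ℝ) ^ 2 / 2) + (((K0 : ℝ) ^ 2 - (t0 : ℝ) ^ 2) + 2 * E0 * ((K0 : ℝ) - t0))
    + (M0 : ℝ) ^ 2 / 2 * Real.log 5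
    - 5 / 2 * K0 * (2 * (b0 : ℝ) + K0 - m0) * Real.log 2 + 0 * (a0 : ℝ)

end Vale.Agent.P021.Det
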