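import Vale.Agent.P021.Det.Val25
import Vale.Agent.P021.Det.Defs

/-!
# Non-vanishing of one of three consecutive determinants
-/

namespace Vale.Agent.P021.Det.NV

open Polynomial

section
/-! ### Hankel determinants and orthogonal polynomials -/

/-- The Hankel matrix of a linear functional. -/
noncomputable def HM (L : ℝ[X] →ₗ[ℝ] ℝ) (n : ℕ) : Matrix (Fin n) (Fin n) ℝ :=
  Matrix.of fun i j => L (X ^ ((i : ℕ) + (j : ℕ)))

/-- The polynomial with given coefficients. -/
noncomputable def ofVec {n : ℕ} (v : Fin n → ℝ) : ℝ[X] := ∑ j : Fin n, C (v j) * X ^ (j : ℕ)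

lemma ofVec_degree {n : ℕ} (v : Fin n → ℝ) : (ofVec v).degree < n := by
  rw [ofVec, ← Polynomial.mem_degreeLT]
  refine Submodule.sum_mem _ fun j _ => ?_
  rw [Polynomial.mem_degreeLT]
  exact lt_of_le_of_lt (degree_C_mul_X_pow_le _ _) (by exact_mod_cast j.2)

lemma ofVec_coeff {n : ℕ} (v : Fin n → ℝ) (i : Fin n) : (ofVec v).coeff i = v i := by
  rw [ofVec, finsetSum_coeff, Finset.sum_eq_single i]
  · simp
  · intro b _ hb
    rw [coeff_C_mul_X_pow, if_neg]
    intro h
    exact hb (Fin.ext h.symm)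
  · intro h; exact absurd (Finset.mem_univ _) h

lemma ofVec_coeff_self {n : ℕ} (A : ℝ[X]) (hA : A.degree < n) :
    ofVec (fun i : Fin n => A.coeff i) = A := by
  ext k
  by_cases hk : k < n
  · exact ofVec_coeff _ ⟨k, hk⟩
  · have h1 : (ofVec (fun i : Fin n => A.coeff i)).coeff k = 0 :=
      coeff_eq_zero_of_degree_lt (lt_of_lt_of_le (ofVec_degree _) (by exact_mod_cast not_lt.1 hk))
    have h2 : A.coeff k = 0 :=
      coeff_eq_zero_of_degree_lt (lt_of_lt_of_le hA (by exact_mod_cast not_lt.1 hk))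
    rw [h1, h2]

lemma HM_mulVec (L : ℝ[X] →ₗ[ℝ] ℝ) {n : ℕ} (v : Fin n → ℝ) (i : Fin n) :
    (HM L n).mulVec v i = L (ofVec v * X ^ (i : ℕ)) := by
  rw [Matrix.mulVec, dotProduct, ofVec, Finset.sum_mul, map_sum]
  refine Finset.sum_congr rfl fun j _ => ?_
  rw [mul_assoc, ← pow_add, ← smul_eq_C_mul, map_smul, HM, Matrix.of_apply, smul_eq_mul, mul_comm,
    add_comm (i : ℕ)]

lemma exists_annih (L : ℝ[X] →ₗ[ℝ] ℝ) {n : ℕ} (h : (HM L n).det = 0) :
    ∃ A : ℝ[X], A ≠ 0 ∧ A.degree < n ∧ ∀ i < n, L (A * X ^ i) = 0 := by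
  obtain ⟨v, hv, hv2⟩ := Matrix.exists_mulVec_eq_zero_iff.2 h
  refine ⟨ofVec v, ?_, ofVec_degree v, ?_⟩
  · intro h0
    apply hv
    funext i
    rw [← ofVec_coeff v i, h0]
    simp
  · intro i hi
    rw [← HM_mulVec L v ⟨i, hi⟩, hv2]
    rfl

lemma annih_unique (L : ℝ[X] →ₗ[ℝ] ℝ) {n : ℕ} (h : (HM L n).det ≠ 0) (A : ℝ[X])
    (hA : A.degree < n) (hA2 : ∀ i < n, L (A * X ^ i) = 0) : A = 0 := by
  by_contra hne
  apply h
  refine Matrix.exists_mulVec_eq_zero_iff.1 ⟨fun i : Fin n => A.coeff i, ?_, ?_⟩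
  · intro h0
    apply hne
    rw [← ofVec_coeff_self A hA, h0]
    simp [ofVec]
  · funext i
    rw [HM_mulVec, ofVec_coeff_self A hA]
    exact hA2 i i.2

lemma exists_monic (L : ℝ[X] →ₗ[ℝ] ℝ) {n : ℕ} (h : (HM L n).det ≠ 0) :
    ∃ P : ℝ[X], P.Monic ∧ P.natDegree = n ∧ ∀ i < n, L (P * X ^ i) = 0 := by
  obtain ⟨v, hv⟩ : ∃ v : Fin n → ℝ, (HM L n).mulVec v =
      fun i : Fin n => - L (X ^ n * X ^ (i : ℕ)) := by
    refine ⟨(HM L n)⁻¹.mulVec (fun i : Fin n => - L (X ^ n * X ^ (i : ℕ))), ?_⟩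
    rw [Matrix.mulVec_mulVec, Matrix.mul_nonsing_inv _ (by exact h.isUnit), Matrix.one_mulVec]
  have hd : (ofVec v).degree < ((X : ℝ[X]) ^ n).degree := by
    rw [degree_X_pow]; exact ofVec_degree v
  refine ⟨X ^ n + ofVec v, ?_, ?_, ?_⟩
  · exact (monic_X_pow n).add_of_left hd
  · rw [natDegree_add_eq_left_of_degree_lt hd, natDegree_X_pow]
  · intro i hi
    rw [add_mul, map_add, ← HM_mulVec L v ⟨i, hi⟩, hv]
    simp

lemma L_mul_zero (L : ℝ[X] →ₗ[ℝ] ℝ) (P : ℝ[X]) {s : ℕ} (h : ∀ i < s, L (P * X ^ i) = 0)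
    (U : ℝ[X]) (hU : U.degree < s) : L (P * U) = 0 := by
  rw [← ofVec_coeff_self U hU, ofVec, Finset.mul_sum, map_sum]
  refine Finset.sum_eq_zero fun j _ => ?_
  rw [mul_left_comm, ← smul_eq_C_mul, map_smul, h j j.2, smul_zero]

/-- Growth of the block of zeros. -/
lemma block_step (L : ℝ[X] →ₗ[ℝ] ℝ) {n r : ℕ} (h : (HM L n).det ≠ 0) (P : ℝ[X]) (hP : P.Monic)
    (hPn : P.natDegree = n) (hL : ∀ i < n + r, L (P * X ^ i) = 0)
    (h2 : (HM L (n + r + 1)).det = 0) : L (P * X ^ (n + r)) = 0 := by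
  obtain ⟨A, hA0, hAd, hA⟩ := exists_annih L h2
  have hdiv : A %ₘ P + P * (A /ₘ P) = A := modByMonic_add_div A P
  set C' := A /ₘ P with hC
  set E := A %ₘ P with hE
  have hEd : E.degree < n := by
    have := degree_modByMonic_lt A hP
    rwa [degree_eq_natDegree hP.ne_zero, hPn] at this
  have hCd : C'.degree < (r + 1 : ℕ) := by
    by_cases hC0 : C' = 0
    · rw [hC0, degree_zero]; exact WithBot.bot_lt_coe _
    have hAn : A.natDegree < n + r + 1 := by
      rw [degree_eq_natDegree hA0] at hAd; exact_mod_cast hAd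
    have : C'.natDegree = A.natDegree - P.natDegree := natDegree_divByMonic A hP
    rw [degree_eq_natDegree hC0, this, hPn]
    have : A.natDegree - n < r + 1 := by omega
    exact_mod_cast this
  have hE0 : E = 0 := by
    refine annih_unique L h E hEd fun i hi => ?_
    have h1 : L (A * X ^ i) = 0 := hA i (by omega)
    rw [← hdiv, add_mul, map_add, mul_assoc] at h1
    have h3 : L (P * (C' * X ^ i)) = 0 := by
      refine L_mul_zero L P hL _ ?_
      by_cases hC0 : C' = 0
      · rw [hC0, zero_mul, degree_zero]; exact WithBot.bot_lt_coe _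
      rw [degree_mul, degree_X_pow, degree_eq_natDegree hC0]
      rw [degree_eq_natDegree hC0] at hCd
      have : C'.natDegree < r + 1 := by exact_mod_cast hCd
      have : C'.natDegree + i < n + r := by omega
      exact_mod_cast this
    rw [h3, add_zero] at h1
    exact h1
  have hAP : A = P * C' := by rw [← hdiv, hE0, zero_add]
  have hC0 : C' ≠ 0 := by
    intro h0; apply hA0; rw [hAP, h0, mul_zero]
  have hc : C'.natDegree ≤ r := by
    rw [degree_eq_natDegree hC0] at hCd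
    have : C'.natDegree < r + 1 := by exact_mod_cast hCd
    omega
  have h1 : L (A * X ^ (n + r - C'.natDegree)) = 0 := hA _ (by omega)
  have h4 : A * X ^ (n + r - C'.natDegree) =
      P * (C'.eraseLead * X ^ (n + r - C'.natDegree)) + C C'.leadingCoeff * (P * X ^ (n + r)) := by
    have h20 : (X : ℝ[X]) ^ (n + r) = X ^ C'.natDegree * X ^ (n + r - C'.natDegree) := by
      rw [← pow_add]; congr 1; omega
    have h21 := eraseLead_add_C_mul_X_pow C'
    rw [hAP, h20]
    generalize (X : ℝ[X]) ^ (n + r - C'.natDegree) = Z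
    calc P * C' * Z = P * (C'.eraseLead + C C'.leadingCoeff * X ^ C'.natDegree) * Z := by rw [h21]
      _ = _ := by ring
  rw [h4, map_add, ← smul_eq_C_mul, map_smul] at h1
  have h5 : L (P * (C'.eraseLead * X ^ (n + r - C'.natDegree))) = 0 := by
    refine L_mul_zero L P hL _ ?_
    by_cases hE1 : C'.eraseLead = 0
    · rw [hE1, zero_mul, degree_zero]; exact WithBot.bot_lt_coe _
    have h6 : C'.eraseLead.degree < C'.degree := degree_eraseLead_lt hC0
    rw [degree_eq_natDegree hE1, degree_eq_natDegree hC0] at h6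
    have h7 : C'.eraseLead.natDegree < C'.natDegree := by exact_mod_cast h6
    rw [degree_mul, degree_X_pow, degree_eq_natDegree hE1]
    have : C'.eraseLead.natDegree + (n + r - C'.natDegree) < n + r := by omega
    exact_mod_cast this
  rw [h5, zero_add, smul_eq_mul] at h1
  exact (mul_eq_zero.1 h1).resolve_left (leadingCoeff_ne_zero.2 hC0)

/-- If three consecutive Hankel determinants after a nonzero one vanish, then a semiclassical
functional of class two is annihilated by an ideal. -/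
lemma semiclassical (L : ℝ[X] →ₗ[ℝ] ℝ) (S T : ℝ[X]) (hPear : ∀ R : ℝ[X],
      L (S * R + T * derivative R) = 0)
    (hT : T.natDegree ≤ 4) (hT4 : T.coeff 4 = 2) (hS : S.natDegree ≤ 3)
    (hσ : ∀ k : ℕ, 2 * (k : ℝ) + S.coeff 3 ≠ 0) {n : ℕ} (h : (HM L n).det ≠ 0)
    (h1 : (HM L (n + 1)).det = 0) (h2 : (HM L (n + 2)).det = 0) (h3 : (HM L (n + 3)).det = 0) :
    ∃ P : ℝ[X], P.Monic ∧ ∀ U : ℝ[X], L (P * U) = 0 := by
  obtain ⟨P, hP, hPn, hL0⟩ := exists_monic L h
  have e0 : L (P * X ^ n) = 0 := by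
    simpa using block_step L (r := 0) h P hP hPn (by simpa using hL0) h1
  have hL1 : ∀ i < n + 1, L (P * X ^ i) = 0 := by
    intro i hi
    rcases Nat.lt_succ_iff_lt_or_eq.1 hi with h' | rfl
    · exact hL0 i h'
    · exact e0
  have e1 : L (P * X ^ (n + 1)) = 0 := block_step L (r := 1) h P hP hPn hL1 h2
  have hL2 : ∀ i < n + 2, L (P * X ^ i) = 0 := by
    intro i hi
    rcases Nat.lt_succ_iff_lt_or_eq.1 hi with h' | rfl
    · exact hL1 i h'
    · exact e1
  have e2 : L (P * X ^ (n + 2)) = 0 := block_step L (r := 2) h P hP hPn hL2 h3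
  have hL3 : ∀ i < n + 3, L (P * X ^ i) = 0 := by
    intro i hi
    rcases Nat.lt_succ_iff_lt_or_eq.1 hi with h' | rfl
    · exact hL2 i h'
    · exact e2
  -- degree bounds
  have hdS : ∀ U : ℝ[X], ∀ u : ℕ, U.degree < u → (S * U).degree < (u + 3 : ℕ) := by
    intro U u hU
    by_cases hU0 : U = 0
    · rw [hU0, mul_zero, degree_zero]; exact WithBot.bot_lt_coe _
    rw [degree_eq_natDegree hU0] at hU
    have hU' : U.natDegree < u := by exact_mod_cast hU
    refine lt_of_le_of_lt degree_le_natDegree ?_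
    have : (S * U).natDegree < u + 3 := by
      have := natDegree_mul_le (p := S) (q := U)
      omega
    exact_mod_cast this
  have hdT : ∀ U : ℝ[X], ∀ u : ℕ, U.degree < u → (T * derivative U).degree < (u + 3 : ℕ) := by
    intro U u hU
    by_cases hU0 : derivative U = 0
    · rw [hU0, mul_zero, degree_zero]; exact WithBot.bot_lt_coe _
    have hU1 : U ≠ 0 := by rintro rfl; simp at hU0
    rw [degree_eq_natDegree hU1] at hU
    have hU' : U.natDegree < u := by exact_mod_cast hU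
    refine lt_of_le_of_lt degree_le_natDegree ?_
    have hU2 : (derivative U).natDegree < U.natDegree := by
      apply natDegree_derivative_lt
      intro h0
      apply hU0
      rw [eq_C_of_natDegree_eq_zero h0, derivative_C]
    have : (T * derivative U).natDegree < u + 3 := by
      have := natDegree_mul_le (p := T) (q := derivative U)
      omega
    exact_mod_cast this
  -- T P' is divisible by P
  have hdiv : (T * derivative P) %ₘ P + P * ((T * derivative P) /ₘ P) = T * derivative P :=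
    modByMonic_add_div _ P
  set G := (T * derivative P) /ₘ P with hG
  set E := (T * derivative P) %ₘ P with hE
  have hEd : E.degree < n := by
    have := degree_modByMonic_lt (T * derivative P) hP
    rwa [degree_eq_natDegree hP.ne_zero, hPn] at this
  have hTPd : (T * derivative P).natDegree ≤ n + 3 := by
    have h4 : (T * derivative P).degree < (n + 1 + 3 : ℕ) := by
      refine hdT P (n + 1) ?_
      rw [degree_eq_natDegree hP.ne_zero, hPn]
      exact_mod_cast Nat.lt_succ_self n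
    by_cases h0 : T * derivative P = 0
    · rw [h0]; simp
    · rw [degree_eq_natDegree h0] at h4
      have : (T * derivative P).natDegree < n + 1 + 3 := by exact_mod_cast h4
      omega
  have hGd : G.natDegree ≤ 3 := by
    have : G.natDegree = (T * derivative P).natDegree - P.natDegree := natDegree_divByMonic _ hP
    rw [this, hPn]; omega
  have hE0 : E = 0 := by
    refine annih_unique L h E hEd fun i hi => ?_
    have hp := hPear (P * X ^ i)
    have e4 : S * (P * X ^ i) + T * derivative (P * X ^ i) =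
        P * (S * X ^ i + T * derivative (X ^ i) + G * X ^ i) + E * X ^ i := by
      rw [derivative_mul]
      have : T * (derivative P * X ^ i + P * derivative (X ^ i)) =
          (T * derivative P) * X ^ i + T * (P * derivative (X ^ i)) := by ring
      rw [this, ← hdiv]
      ring
    rw [e4, map_add] at hp
    have hi2 : ((X : ℝ[X]) ^ i).degree < (n : ℕ) := by
      rw [degree_X_pow]; exact_mod_cast hi
    have h5 : L (P * (S * X ^ i + T * derivative (X ^ i) + G * X ^ i)) = 0 := by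
      refine L_mul_zero L P hL3 _ ?_
      refine lt_of_le_of_lt (degree_add_le _ _) (max_lt (lt_of_le_of_lt (degree_add_le _ _)
        (max_lt (hdS _ n hi2) (hdT _ n hi2))) ?_)
      by_cases hG0 : G = 0
      · rw [hG0, zero_mul, degree_zero]; exact WithBot.bot_lt_coe _
      rw [degree_mul, degree_X_pow, degree_eq_natDegree hG0]
      have : G.natDegree + i < n + 3 := by omega
      exact_mod_cast this
    rw [h5, zero_add] at hp
    exact hp
  have hTP : T * derivative P = P * G := by rw [← hdiv, hE0, zero_add]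
  have hG3 : G.coeff 3 = 2 * (n : ℝ) := by
    have h6 : (T * derivative P).coeff (n + 3) = (P * G).coeff (n + 3) := by rw [hTP]
    have h7 : (P * G).coeff (n + 3) = G.coeff 3 := by
      rw [coeff_mul_add_eq_of_natDegree_le (le_of_eq hPn) hGd]
      have : P.coeff n = 1 := by rw [← hPn]; exact hP.coeff_natDegree
      rw [this, one_mul]
    rw [h7] at h6
    rw [← h6]
    rcases Nat.eq_zero_or_pos n with rfl | hn
    · have : P = 1 := by
        rw [eq_C_of_natDegree_eq_zero hPn]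
        have : P.coeff 0 = 1 := by
          have := hP.coeff_natDegree
          rwa [hPn] at this
        rw [this, C_1]
      rw [this]; simp
    · obtain ⟨k, rfl⟩ : ∃ k, n = k + 1 := ⟨n - 1, by omega⟩
      have h8 : (derivative P).natDegree ≤ k := by
        have := natDegree_derivative_le P
        omega
      have h9 : k + 1 + 3 = 4 + k := by omega
      rw [h9, coeff_mul_add_eq_of_natDegree_le hT h8, hT4, coeff_derivative]
      have : P.coeff (k + 1) = 1 := by rw [← hPn]; exact hP.coeff_natDegree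
      rw [this]
      push_cast
      ring
  -- all moments vanish
  have hall : ∀ N : ℕ, ∀ i < N, L (P * X ^ i) = 0 := by
    intro N
    induction N with
    | zero => intro i hi; exact absurd hi (Nat.not_lt_zero _)
    | succ N ih =>
      intro i hi
      rcases Nat.lt_succ_iff_lt_or_eq.1 hi with h' | rfl
      · exact ih i h'
      by_cases hi3 : i < n + 3
      · exact hL3 i hi3
      obtain ⟨u, rfl⟩ : ∃ u, i = u + 3 := ⟨i - 3, by omega⟩
      have hp := hPear (P * X ^ u)
      set V := (S + G) * X ^ u + T * derivative (X ^ u) with hV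
      have e4 : S * (P * X ^ u) + T * derivative (P * X ^ u) = P * V := by
        rw [derivative_mul, hV]
        have : T * (derivative P * X ^ u + P * derivative (X ^ u)) =
            (T * derivative P) * X ^ u + T * (P * derivative (X ^ u)) := by ring
        rw [this, hTP]
        ring
      rw [e4] at hp
      have hVd : V.natDegree ≤ u + 3 := by
        rw [hV]
        refine (natDegree_add_le _ _).trans (max_le ?_ ?_)
        · refine natDegree_mul_le.trans ?_
          rw [natDegree_X_pow]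
          have := natDegree_add_le S G
          have h10 : (S + G).natDegree ≤ 3 := this.trans (max_le hS hGd)
          omega
        · rcases Nat.eq_zero_or_pos u with rfl | hu
          · simp
          · rw [derivative_X_pow]
            refine natDegree_mul_le.trans ?_
            have h11 : (C (u : ℝ) * X ^ (u - 1)).natDegree ≤ u - 1 := natDegree_C_mul_X_pow_le _ _
            omega
      have hVc : V.coeff (u + 3) = 2 * ((n + u : ℕ) : ℝ) + S.coeff 3 := by
        rw [hV, coeff_add]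
        have h12 : ((S + G) * X ^ u).coeff (u + 3) = S.coeff 3 + G.coeff 3 := by
          rw [add_comm u 3, coeff_mul_X_pow, coeff_add]
        have h13 : (T * derivative (X ^ u)).coeff (u + 3) = 2 * (u : ℝ) := by
          rcases Nat.eq_zero_or_pos u with rfl | hu
          · simp
          · obtain ⟨k, rfl⟩ : ∃ k, u = k + 1 := ⟨u - 1, by omega⟩
            rw [derivative_X_pow]
            have h14 : (C ((k + 1 : ℕ) : ℝ) * X ^ (k + 1 - 1)).natDegree ≤ k := by
              simpa using natDegree_C_mul_X_pow_le ((k + 1 : ℕ) : ℝ) (k + 1 - 1)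
            have h9 : k + 1 + 3 = 4 + k := by omega
            rw [h9, coeff_mul_add_eq_of_natDegree_le hT h14, hT4, Nat.add_sub_cancel,
              coeff_C_mul, coeff_X_pow_self, mul_one]
        rw [h12, h13, hG3]
        push_cast
        ring
      have h15 : V = C (V.coeff (u + 3)) * X ^ (u + 3) + V.erase (u + 3) := by
        rw [C_mul_X_pow_eq_monomial, monomial_add_erase]
      have h16 : (V.erase (u + 3)).degree < (u + 3 : ℕ) := by
        refine lt_of_le_of_ne ?_ ?_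
        · exact (degree_erase_le V (u + 3)).trans (degree_le_of_natDegree_le hVd)
        · intro h17
          have := degree_eq_iff_natDegree_eq_of_pos (p := V.erase (u + 3)) (n := u + 3) (by omega)
          have h18 : (V.erase (u + 3)).coeff (u + 3) ≠ 0 := coeff_ne_zero_of_eq_degree h17
          exact h18 (erase_same V (u + 3))
      rw [h15, mul_add, map_add, L_mul_zero L P ih _ h16, add_zero, mul_left_comm,
        ← smul_eq_C_mul, map_smul, smul_eq_mul, hVc] at hp
      exact (mul_eq_zero.1 hp).resolve_left (hσ _)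
  refine ⟨P, hP, fun U => ?_⟩
  by_cases hU0 : U = 0
  · rw [hU0, mul_zero, map_zero]
  refine L_mul_zero L P (s := U.natDegree + 1) (fun i hi => hall _ i hi) U ?_
  rw [degree_eq_natDegree hU0]
  exact_mod_cast Nat.lt_succ_self _

end

section
/-- The end point `-1 + 2 i`. -/
noncomputable def ep : ℂ := -1 + 2 * Complex.I

/-- The end point `-28 - 4 i` in the variable `s ^ 2 - 25`. -/
noncomputable def tp : ℂ := -28 - 4 * Complex.I

/-- Boundary values. -/
noncomputable def bd (k : ℤ) : ℝ := 2 * (ep * tp ^ k).im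

/-- The polynomial `τ ^ 2 + 56 τ + 800`. -/
noncomputable def Qp : ℝ[X] := X ^ 2 + C 56 * X + C 800

/-- The polynomial part of the weight. -/
noncomputable def Wp (a b : ℕ) : ℝ[X] := (X + C 25) ^ a * Qp ^ b

/-- The functional `τ ^ k ↦ Y (k - m)`. -/
noncomputable def Lam (Y : ℤ → ℝ) (m : ℕ) : ℝ[X] →ₗ[ℝ] ℝ :=
  Polynomial.lsum (fun k => (Y ((k : ℤ) - m)) • (LinearMap.id : ℝ →ₗ[ℝ] ℝ))

lemma Lam_monomial (Y : ℤ → ℝ) (m k : ℕ) (w : ℝ) :
    Lam Y m (monomial k w) = w * Y ((k : ℤ) - m) := by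
  rw [Lam, lsum_apply, sum_monomial_index]
  · simp [mul_comm]
  · simp

lemma Lam_C_mul_X_pow (Y : ℤ → ℝ) (m k : ℕ) (w : ℝ) :
    Lam Y m (C w * X ^ k) = w * Y ((k : ℤ) - m) := by
  rw [C_mul_X_pow_eq_monomial, Lam_monomial]

lemma ep_sq : ep ^ 2 = tp + 25 := by
  rw [ep, tp]
  apply Complex.ext <;> simp [pow_two] <;> norm_num

lemma tp_ne : tp ≠ 0 := by
  intro h
  have := congrArg Complex.re h
  simp [tp] at this

lemma tp_root : aeval tp Qp = 0 := by
  rw [Qp]
  simp only [map_add, map_mul, map_pow, aeval_X, aeval_C]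
  rw [tp]
  apply Complex.ext <;> simp [pow_two] <;> norm_num

/-- Pearson equation for the unweighted functional. -/
lemma pearson0 (Y : ℤ → ℝ) (hY : ∀ k : ℤ, (2 * k + 1) * Y k + 50 * k * Y (k - 1) = bd k) (m : ℕ)
    (F : ℝ[X]) :
    Lam Y m (X * F + C 2 * (X + C 25) * (derivative (X * F) - C (m : ℝ) * F)) =
      2 * (ep * (aeval tp (X * F)) * tp ^ (-(m : ℤ))).im := by
  induction F using Polynomial.induction_on' with
  | add p q hp hq =>
    have e1 : X * (p + q) + C 2 * (X + C 25) * (derivative (X * (p + q)) - C (m : ℝ) * (p + q)) =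
        (X * p + C 2 * (X + C 25) * (derivative (X * p) - C (m : ℝ) * p)) +
        (X * q + C 2 * (X + C 25) * (derivative (X * q) - C (m : ℝ) * q)) := by
      rw [mul_add X p q, derivative_add]
      ring
    rw [e1, map_add, hp, hq, mul_add X p q, map_add, mul_add, add_mul, Complex.add_im]
    ring
  | monomial k w =>
    have e1 : X * monomial k w + C 2 * (X + C 25) * (derivative (X * monomial k w) -
        C (m : ℝ) * monomial k w) = C (w * (1 + 2 * ((k : ℝ) + 1 - m))) * X ^ (k + 1) +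
        C (w * (50 * ((k : ℝ) + 1 - m))) * X ^ k := by
      rw [← C_mul_X_pow_eq_monomial]
      have : X * (C w * X ^ k) = C w * X ^ (k + 1) := by ring
      rw [this, derivative_C_mul_X_pow]
      simp only [Nat.add_sub_cancel, map_mul, map_add, map_sub, C_1, Nat.cast_add, Nat.cast_one]
      have h2 : (C (2 : ℝ) : ℝ[X]) = 2 := rfl
      have h25 : (C (25 : ℝ) : ℝ[X]) = 25 := rfl
      have h50 : (C (50 : ℝ) : ℝ[X]) = 50 := rfl
      rw [h2, h25, h50]
      ring
    have h3 := hY ((k : ℤ) + 1 - m)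
    have h4 : (k : ℤ) + 1 - m - 1 = (k : ℤ) - m := by ring
    rw [h4] at h3
    have h5 : aeval tp (X * monomial k w) = (w : ℂ) * tp ^ (k + 1) := by
      rw [map_mul, aeval_X, aeval_monomial]
      simp only [Complex.coe_algebraMap]
      ring
    have h6 : ep * ((w : ℂ) * tp ^ (k + 1)) * tp ^ (-(m : ℤ)) =
        (w : ℂ) * (ep * tp ^ ((k : ℤ) + 1 - m)) := by
      have : tp ^ ((k : ℤ) + 1 - m) = tp ^ (k + 1) * tp ^ (-(m : ℤ)) := by
        rw [sub_eq_add_neg, zpow_add₀ tp_ne]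
        congr 1
      rw [this]
      ring
    have h7 : ((k + 1 : ℕ) : ℤ) - m = (k : ℤ) + 1 - m := by push_cast; ring
    rw [e1, map_add, Lam_C_mul_X_pow, Lam_C_mul_X_pow, h5, h6, Complex.im_ofReal_mul, h7]
    rw [bd] at h3
    push_cast at h3
    linear_combination w * h3

/-- The first Pearson coefficient. -/
noncomputable def Sp (a b m : ℕ) : ℝ[X] :=
  X * Qp + C 2 * (X + C 25) * Qp - C (2 * (m : ℝ)) * (X + C 25) * Qp +
    C 2 * (X + C 25) * X * derivative Qp + C (2 * (a : ℝ)) * X * Qp +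
    C (2 * (b : ℝ)) * (X + C 25) * X * derivative Qp

/-- The second Pearson coefficient. -/
noncomputable def Tp : ℝ[X] := C 2 * (X + C 25) * X * Qp

lemma deriv_Wp (a b : ℕ) : (X + C 25) * Qp * derivative (Wp a b) =
    Wp a b * (C (a : ℝ) * Qp + C (b : ℝ) * (X + C 25) * derivative Qp) := by
  have h1 : (X + C 25) * derivative ((X + C (25 : ℝ)) ^ a) = C (a : ℝ) * (X + C 25) ^ a := by
    rcases Nat.eq_zero_or_pos a with rfl | ha
    · simp
    · obtain ⟨k, rfl⟩ : ∃ k, a = k + 1 := ⟨a - 1, by omega⟩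
      rw [derivative_pow, derivative_add, derivative_X, derivative_C, Nat.add_sub_cancel]
      ring
  have h2 : Qp * derivative (Qp ^ b) = C (b : ℝ) * Qp ^ b * derivative Qp := by
    rcases Nat.eq_zero_or_pos b with rfl | hb
    · simp
    · obtain ⟨k, rfl⟩ : ∃ k, b = k + 1 := ⟨b - 1, by omega⟩
      rw [derivative_pow, Nat.add_sub_cancel]
      ring
  rw [Wp, derivative_mul]
  calc (X + C 25) * Qp * (derivative ((X + C (25 : ℝ)) ^ a) * Qp ^ b +
        (X + C 25) ^ a * derivative (Qp ^ b))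
      = ((X + C 25) * derivative ((X + C (25 : ℝ)) ^ a)) * Qp * Qp ^ b +
        (X + C 25) ^ a * (X + C 25) * (Qp * derivative (Qp ^ b)) := by ring
    _ = _ := by rw [h1, h2]; ring

/-- The weighted functional. -/
noncomputable def LW (Y : ℤ → ℝ) (a b m : ℕ) : ℝ[X] →ₗ[ℝ] ℝ :=
  (Lam Y m).comp (LinearMap.mulRight ℝ (Wp a b))

lemma LW_apply (Y : ℤ → ℝ) (a b m : ℕ) (U : ℝ[X]) : LW Y a b m U = Lam Y m (U * Wp a b) := rfl

lemma pearson (Y : ℤ → ℝ) (hY : ∀ k : ℤ, (2 * k + 1) * Y k + 50 * k * Y (k - 1) = bd k)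
    (a b m : ℕ) (R : ℝ[X]) : LW Y a b m (Sp a b m * R + Tp * derivative R) = 0 := by
  have h1 := pearson0 Y hY m (Qp * R * Wp a b)
  have h2 : aeval tp (X * (Qp * R * Wp a b)) = 0 := by
    rw [map_mul, map_mul, map_mul, tp_root]; simp
  rw [h2, mul_zero, zero_mul, Complex.zero_im, mul_zero] at h1
  rw [LW_apply, ← h1]
  congr 1
  have h3 := deriv_Wp a b
  have h4 : derivative (X * (Qp * R * Wp a b)) = Qp * R * Wp a b + X * (derivative Qp * R * Wp a b +
      Qp * derivative R * Wp a b + Qp * R * derivative (Wp a b)) := by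
    rw [derivative_mul, derivative_X, derivative_mul, derivative_mul]
    ring
  rw [h4, Sp, Tp]
  have e2 : (C (2 * (m : ℝ)) : ℝ[X]) = C 2 * C (m : ℝ) := C_mul
  have e3 : (C (2 * (a : ℝ)) : ℝ[X]) = C 2 * C (a : ℝ) := C_mul
  have e4 : (C (2 * (b : ℝ)) : ℝ[X]) = C 2 * C (b : ℝ) := C_mul
  rw [e2, e3, e4]
  linear_combination -(C 2 * X * R) * h3

lemma Qp_nat : Qp.natDegree ≤ 2 := by rw [Qp]; compute_degree

lemma Tp_nat : Tp.natDegree ≤ 4 := by
  rw [Tp, Qp]; compute_degree

lemma Tp_coeff : Tp.coeff 4 = 2 := by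
  rw [Tp, Qp]
  have : (C (2:ℝ) * (X + C 25) * X * (X ^ 2 + C 56 * X + C 800) : ℝ[X]) =
      C 2 * X ^ 4 + C 162 * X ^ 3 + C 4400 * X ^ 2 + C 40000 * X := by
    have h2 : (C (2 : ℝ) : ℝ[X]) = 2 := rfl
    have h25 : (C (25 : ℝ) : ℝ[X]) = 25 := rfl
    have h56 : (C (56 : ℝ) : ℝ[X]) = 56 := rfl
    have h800 : (C (800 : ℝ) : ℝ[X]) = 800 := rfl
    have h162 : (C (162 : ℝ) : ℝ[X]) = 162 := rfl
    have h4400 : (C (4400 : ℝ) : ℝ[X]) = 4400 := rfl
    have h40000 : (C (40000 : ℝ) : ℝ[X]) = 40000 := rfl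
    rw [h2, h25, h56, h800, h162, h4400, h40000]
    ring
  rw [this]
  simp [coeff_X_pow, coeff_C_mul]

lemma derivative_Qp : derivative Qp = C 2 * X + C 56 := by
  rw [Qp]
  simp only [derivative_add, derivative_X_pow, derivative_mul, derivative_C, derivative_X]
  simp

lemma Sp_nat (a b m : ℕ) : (Sp a b m).natDegree ≤ 3 := by
  rw [Sp, derivative_Qp, Qp]; compute_degree

lemma Sp_coeff (a b m : ℕ) : (Sp a b m).coeff 3 = 7 + 2 * (a : ℝ) + 4 * b - 2 * m := by
  rw [Sp, derivative_Qp, Qp]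
  have h2 : (C (2 : ℝ) : ℝ[X]) = 2 := rfl
  have : ∃ R : ℝ[X], R.natDegree ≤ 2 ∧ X * (X ^ 2 + C 56 * X + C 800) +
      C 2 * (X + C 25) * (X ^ 2 + C 56 * X + C 800) -
      C (2 * (m : ℝ)) * (X + C 25) * (X ^ 2 + C 56 * X + C 800) +
    C 2 * (X + C 25) * X * (C 2 * X + C 56) + C (2 * (a : ℝ)) * X * (X ^ 2 + C 56 * X + C 800) +
    C (2 * (b : ℝ)) * (X + C 25) * X * (C 2 * X + C 56) =
      C (7 + 2 * (a : ℝ) + 4 * b - 2 * m) * X ^ 3 + R := by
    refine ⟨(C 56 * X ^ 2 + C 800 * X) + C 2 * (C 81 * X ^ 2 + C 2200 * X + C 20000) -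
      C (2 * (m : ℝ)) * (C 81 * X ^ 2 + C 2200 * X + C 20000) +
      C 2 * (C 106 * X ^ 2 + C 1400 * X) + C (2 * (a : ℝ)) * (C 56 * X ^ 2 + C 800 * X) +
      C (2 * (b : ℝ)) * (C 106 * X ^ 2 + C 1400 * X), ?_, ?_⟩
    · compute_degree
    · simp only [map_add, map_sub, map_mul]
      have h25 : (C (25 : ℝ) : ℝ[X]) = 25 := rfl
      have h56 : (C (56 : ℝ) : ℝ[X]) = 56 := rfl
      have h800 : (C (800 : ℝ) : ℝ[X]) = 800 := rfl
      have h7 : (C (7 : ℝ) : ℝ[X]) = 7 := rfl
      have h4 : (C (4 : ℝ) : ℝ[X]) = 4 := rfl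
      have h81 : (C (81 : ℝ) : ℝ[X]) = 81 := rfl
      have h2200 : (C (2200 : ℝ) : ℝ[X]) = 2200 := rfl
      have h20000 : (C (20000 : ℝ) : ℝ[X]) = 20000 := rfl
      have h106 : (C (106 : ℝ) : ℝ[X]) = 106 := rfl
      have h1400 : (C (1400 : ℝ) : ℝ[X]) = 1400 := rfl
      rw [h2, h25, h56, h800, h7, h4, h81, h2200, h20000, h106, h1400]
      ring
  obtain ⟨R, hR, he⟩ := this
  rw [he, coeff_add, coeff_C_mul, coeff_X_pow_self, coeff_eq_zero_of_natDegree_lt (by omega)]
  ring

lemma odd_ne (a b m k : ℕ) : 2 * (k : ℝ) + (Sp a b m).coeff 3 ≠ 0 := by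
  rw [Sp_coeff]
  intro h
  have h1 : (((2 * (k + a + 2 * b + 3) + 1 : ℕ) : ℤ) : ℝ) = ((2 * m : ℕ) : ℤ) := by
    push_cast; linarith
  have h2 : 2 * (k + a + 2 * b + 3) + 1 = 2 * m := by exact_mod_cast h1
  omega

end

section

open Filter Topology
lemma tendsto_eval_div (N : ℂ[X]) :
    Tendsto (fun n : ℕ => N.eval (n : ℂ) / (n : ℂ) ^ N.natDegree) atTop (𝓝 N.leadingCoeff) := by
  have h1 : ∀ n : ℕ, N.eval (n : ℂ) / (n : ℂ) ^ N.natDegree =
      ∑ i ∈ Finset.range (N.natDegree + 1), N.coeff i * ((n : ℂ) ^ i / (n : ℂ) ^ N.natDegree) := by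
    intro n
    rw [eval_eq_sum_range, Finset.sum_div]
    exact Finset.sum_congr rfl fun i _ => by rw [mul_div_assoc]
  have h2 : N.leadingCoeff = ∑ i ∈ Finset.range (N.natDegree + 1),
      N.coeff i * (if i = N.natDegree then 1 else 0) := by
    rw [Finset.sum_eq_single N.natDegree]
    · simp
    · intro i _ hi; simp [hi]
    · intro h; exact absurd (Finset.mem_range.2 (Nat.lt_succ_self _)) h
  rw [h2]
  simp_rw [h1]
  refine tendsto_finsetSum _ fun i hi => Tendsto.const_mul _ ?_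
  rw [Finset.mem_range] at hi
  by_cases h : i = N.natDegree
  · rw [if_pos h, h]
    refine tendsto_const_nhds.congr' ?_
    filter_upwards [eventually_ge_atTop 1] with n hn
    have : (n : ℂ) ≠ 0 := by exact_mod_cast (by omega : n ≠ 0)
    rw [div_self (pow_ne_zero _ this)]
  · rw [if_neg h]
    have hlt : i < N.natDegree := by omega
    have h3 : Tendsto (fun n : ℕ => ((n : ℂ)⁻¹) ^ (N.natDegree - i)) atTop (𝓝 0) := by
      have : Tendsto (fun n : ℕ => ((n : ℂ)⁻¹)) atTop (𝓝 0) := tendsto_inv_atTop_nhds_zero_nat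
      have := this.pow (N.natDegree - i)
      rwa [zero_pow (by omega)] at this
    refine h3.congr' ?_
    filter_upwards [eventually_ge_atTop 1] with n hn
    have hn0 : (n : ℂ) ≠ 0 := by exact_mod_cast (by omega : n ≠ 0)
    have : (n : ℂ) ^ N.natDegree = (n : ℂ) ^ i * (n : ℂ) ^ (N.natDegree - i) := by
      rw [← pow_add]; congr 1; omega
    rw [this, inv_pow]
    field_simp

/-- The rotation `e ^ 2 / 5`. -/
noncomputable def rot : ℂ := ep ^ 2 / 5

lemma rot_eq : rot = -(3 / 5) - (4 / 5) * Complex.I := by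
  rw [rot, ep]
  apply Complex.ext <;> simp [pow_two] <;> norm_num

lemma rot_norm : ‖rot‖ = 1 := by
  have : ‖rot‖ ^ 2 = 1 := by
    rw [← Complex.normSq_eq_norm_sq, rot_eq]
    simp [Complex.normSq_apply]
    norm_num
  nlinarith [norm_nonneg rot, sq_nonneg (‖rot‖ - 1)]

/-- A nonzero polynomial cannot be real on the spiral. -/
lemma no_real (N : ℂ[X]) (hN : N ≠ 0) (h : ∀ n : ℕ, (ep ^ (2 * n + 1) * N.eval (n : ℂ)).im = 0) :
    False := by
  set c := N.leadingCoeff with hc
  have hc0 : c ≠ 0 := leadingCoeff_ne_zero.2 hN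
  set w : ℕ → ℂ := fun n => ep * rot ^ n * c with hw
  have h1 : ∀ n : ℕ, 1 ≤ n →
      (ep * rot ^ n * (N.eval (n : ℂ) / (n : ℂ) ^ N.natDegree)).im = 0 := by
    intro n hn
    have e1 : ep * rot ^ n * (N.eval (n : ℂ) / (n : ℂ) ^ N.natDegree) =
        (((5 ^ n * (n : ℝ) ^ N.natDegree)⁻¹ : ℝ) : ℂ) * (ep ^ (2 * n + 1) * N.eval (n : ℂ)) := by
      rw [rot, div_pow]
      push_cast
      have hn0 : (n : ℂ) ≠ 0 := by exact_mod_cast (by omega : n ≠ 0)
      have : ep ^ (2 * n + 1) = ep * (ep ^ 2) ^ n := by rw [← pow_mul]; ring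
      rw [this]
      field_simp
    rw [e1, Complex.im_ofReal_mul, h n, mul_zero]
  have h2 : Tendsto (fun n => (w n).im) atTop (𝓝 0) := by
    have h3 : Tendsto (fun n : ℕ => ‖ep‖ *
        ‖c - N.eval (n : ℂ) / (n : ℂ) ^ N.natDegree‖) atTop (𝓝 0) := by
      have := (tendsto_eval_div N).const_sub c
      rw [← hc, sub_self] at this
      have := this.norm.const_mul ‖ep‖
      rwa [norm_zero, mul_zero] at this
    refine squeeze_zero_norm' ?_ h3
    filter_upwards [eventually_ge_atTop 1] with n hn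
    have e2 : (w n).im = (ep * rot ^ n * (c - N.eval (n : ℂ) / (n : ℂ) ^ N.natDegree)).im := by
      rw [mul_sub, Complex.sub_im, h1 n hn, sub_zero]
    rw [e2]
    refine (Complex.abs_im_le_norm _).trans ?_
    rw [norm_mul, norm_mul, norm_pow, rot_norm, one_pow, mul_one]
  have h4 : Tendsto (fun n => (w n).re) atTop (𝓝 0) := by
    have e3 : ∀ n, (w n).re = ((w (n + 1)).im - rot.re * (w n).im) / rot.im := by
      intro n
      have : w (n + 1) = rot * w n := by
        simp only [hw]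
        rw [pow_succ]; ring
      rw [this, Complex.mul_im]
      have hi : rot.im = -(4 / 5) := by rw [rot_eq]; simp
      have hi0 : rot.im ≠ 0 := by rw [hi]; norm_num
      field_simp
      ring
    simp_rw [e3]
    have h5 := (tendsto_add_atTop_iff_nat 1).2 h2
    have := ((h5.sub (h2.const_mul rot.re)).div_const rot.im)
    simpa using this
  have h6 : ∀ n, ‖w n‖ = ‖ep‖ * ‖c‖ := by
    intro n
    simp only [hw]
    rw [norm_mul, norm_mul, norm_pow, rot_norm, one_pow, mul_one]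
  have h7 : Tendsto (fun n => (w n).re ^ 2 + (w n).im ^ 2) atTop (𝓝 0) := by
    have := (h4.pow 2).add (h2.pow 2)
    simpa using this
  have h8 : ∀ n, (w n).re ^ 2 + (w n).im ^ 2 = (‖ep‖ * ‖c‖) ^ 2 := by
    intro n
    rw [← h6 n, ← Complex.normSq_eq_norm_sq, Complex.normSq_apply]
    ring
  simp_rw [h8] at h7
  have h9 := tendsto_nhds_unique h7 tendsto_const_nhds
  have hep : ep ≠ 0 := by
    intro h0
    have := congrArg Complex.re h0
    simp [ep] at this
  have h10 : 0 < ‖ep‖ * ‖c‖ := mul_pos (norm_pos_iff.2 hep) (norm_pos_iff.2 hc0)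
  have h11 : 0 < (‖ep‖ * ‖c‖) ^ 2 := by positivity
  rw [← h9] at h11
  exact lt_irrefl _ h11

lemma pearson00 (Y : ℤ → ℝ) (hY : ∀ k : ℤ, (2 * k + 1) * Y k + 50 * k * Y (k - 1) = bd k)
    (H : ℝ[X]) : Lam Y 0 (H + C 2 * (X + C 25) * derivative H) = 2 * (ep * aeval tp H).im := by
  have h1 := pearson0 Y hY 0 H.divX
  have h2 : H = X * H.divX + C (H.coeff 0) := by
    rw [mul_comm]; exact (divX_mul_X_add H).symm
  have h0 : Lam Y 0 (C (H.coeff 0)) = H.coeff 0 * Y 0 := by
    have := Lam_C_mul_X_pow Y 0 0 (H.coeff 0)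
    simpa using this
  have h3 := hY 0
  simp only [Int.cast_zero, mul_zero, zero_add, one_mul, zero_mul, add_zero] at h3
  rw [bd, zpow_zero, mul_one] at h3
  simp only [Nat.cast_zero, C_0, zero_mul, sub_zero, neg_zero, zpow_zero, mul_one] at h1
  have h4 : H + C 2 * (X + C 25) * derivative H = (X * H.divX + C 2 * (X + C 25) *
      derivative (X * H.divX)) + C (H.coeff 0) := by
    conv_lhs => rw [h2]
    rw [derivative_add, derivative_C]
    ring
  have h5 : aeval tp H = aeval tp (X * H.divX) + ((H.coeff 0 : ℝ) : ℂ) := by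
    conv_lhs => rw [h2]
    rw [map_add, aeval_C]
    rfl
  rw [h4, map_add, h1, h0, h5, h3, mul_add, Complex.add_im]
  have : (ep * ((H.coeff 0 : ℝ) : ℂ)).im = H.coeff 0 * ep.im := by
    rw [mul_comm, Complex.im_ofReal_mul]
  rw [this]
  ring

lemma Lam_shift_pow (Y : ℤ → ℝ)
    (hY : ∀ k : ℤ, (2 * k + 1) * Y k + 50 * k * Y (k - 1) = bd k) (n : ℕ) :
    (2 * (n : ℝ) + 1) * Lam Y 0 ((X + C 25) ^ n) = 2 * (ep ^ (2 * n + 1)).im := by
  have h1 := pearson00 Y hY ((X + C 25) ^ n)
  have h2 : (X + C (25 : ℝ)) ^ n + C 2 * (X + C 25) * derivative ((X + C (25 : ℝ)) ^ n) =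
      C (2 * (n : ℝ) + 1) * (X + C 25) ^ n := by
    rcases Nat.eq_zero_or_pos n with rfl | hn
    · simp
    · obtain ⟨k, rfl⟩ : ∃ k, n = k + 1 := ⟨n - 1, by omega⟩
      rw [derivative_pow, derivative_add, derivative_X, derivative_C, Nat.add_sub_cancel]
      simp only [map_add, map_mul, C_1, Nat.cast_add, Nat.cast_one]
      ring
  rw [h2, ← smul_eq_C_mul, map_smul, smul_eq_mul] at h1
  rw [h1]
  congr 2
  rw [map_pow, map_add, aeval_X, aeval_C]
  have : tp + (algebraMap ℝ ℂ) 25 = ep ^ 2 := by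
    rw [ep_sq]; simp
  rw [this, ← pow_mul]
  ring

lemma Lam_X_mul (Y : ℤ → ℝ) (m : ℕ) (F : ℝ[X]) : Lam Y m (X ^ m * F) = Lam Y 0 F := by
  induction F using Polynomial.induction_on' with
  | add p q hp hq => rw [mul_add, map_add, map_add, hp, hq]
  | monomial k w =>
    rw [X_pow_mul_monomial, Lam_monomial, Lam_monomial]
    congr 2
    push_cast
    ring

/-- No nonzero polynomial is annihilated together with all its multiples. -/
lemma not_annih (Y : ℤ → ℝ)
    (hY : ∀ k : ℤ, (2 * k + 1) * Y k + 50 * k * Y (k - 1) = bd k) (G : ℝ[X]) (hG : G ≠ 0)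
    (h : ∀ U, Lam Y 0 (G * U) = 0) : False := by
  set g := G.comp (X - C 25) with hg
  have hgG : g.comp (X + C 25) = G := by
    rw [hg, comp_assoc]
    simp
  have hg0 : g ≠ 0 := by
    intro h0
    apply hG
    rw [← hgG, h0, zero_comp]
  set d := g.natDegree with hd
  set N : ℂ[X] := ∑ j ∈ Finset.range (d + 1), C ((g.coeff j : ℂ) * ep ^ (2 * j)) *
    ∏ i ∈ (Finset.range (d + 1)).erase j, (C 2 * X + C (2 * (i : ℂ) + 1)) with hN
  have hNe : ∀ x : ℂ, N.eval x = ∑ j ∈ Finset.range (d + 1), ((g.coeff j : ℂ) * ep ^ (2 * j)) *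
      ∏ i ∈ (Finset.range (d + 1)).erase j, (2 * x + (2 * (i : ℂ) + 1)) := by
    intro x
    rw [hN, eval_finsetSum]
    refine Finset.sum_congr rfl fun j _ => ?_
    rw [eval_mul, eval_C, eval_prod]
    congr 1
    refine Finset.prod_congr rfl fun i _ => ?_
    simp
  have hep : ep ≠ 0 := by
    intro h0
    have := congrArg Complex.re h0
    simp [ep] at this
  have hN0 : N ≠ 0 := by
    intro h0
    have h1 : N.eval (-(2 * (d : ℂ) + 1) / 2) = 0 := by rw [h0, eval_zero]
    rw [hNe, Finset.sum_eq_single d] at h1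
    · rcases mul_eq_zero.1 h1 with h2 | h2
      · rcases mul_eq_zero.1 h2 with h3 | h3
        · apply hg0
          rw [← leadingCoeff_eq_zero]
          exact_mod_cast h3
        · exact pow_ne_zero _ hep h3
      · rw [Finset.prod_eq_zero_iff] at h2
        obtain ⟨i, hi, h3⟩ := h2
        rw [Finset.mem_erase] at hi
        apply hi.1
        have : (i : ℂ) = (d : ℂ) := by linear_combination h3 / 2
        exact_mod_cast this
    · intro j hj hjd
      rw [Finset.prod_eq_zero (i := d), mul_zero]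
      · rw [Finset.mem_erase, Finset.mem_range]
        exact ⟨fun h => hjd h.symm, Nat.lt_succ_self _⟩
      · ring
    · intro h2; exact absurd (Finset.mem_range.2 (Nat.lt_succ_self _)) h2
  refine no_real N hN0 fun n => ?_
  have h1 := h ((X + C 25) ^ n)
  have h2 : G * (X + C 25) ^ n = ∑ j ∈ Finset.range (d + 1), C (g.coeff j) * (X + C 25) ^ (n + j) := by
    conv_lhs => rw [← hgG]
    rw [comp, eval₂_eq_sum_range, Finset.sum_mul]
    refine Finset.sum_congr rfl fun j _ => ?_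
    rw [pow_add]; ring
  rw [h2, map_sum] at h1
  have h3 : ∀ j ∈ Finset.range (d + 1), Lam Y 0 (C (g.coeff j) * (X + C 25) ^ (n + j)) =
      (∏ i ∈ Finset.range (d + 1), (2 * (n : ℝ) + (2 * (i : ℝ) + 1)))⁻¹ *
      (2 * ((g.coeff j * ∏ i ∈ (Finset.range (d + 1)).erase j, (2 * (n : ℝ) + (2 * (i : ℝ) + 1))) *
        (ep ^ (2 * (n + j) + 1)).im)) := by
    intro j hj
    have h4 := Lam_shift_pow Y hY (n + j)
    rw [← smul_eq_C_mul, map_smul, smul_eq_mul]
    rw [← Finset.mul_prod_erase _ _ hj]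
    have h5 : (∏ i ∈ (Finset.range (d + 1)).erase j, (2 * (n : ℝ) + (2 * (i : ℝ) + 1))) ≠ 0 :=
      Finset.prod_ne_zero_iff.2 fun i _ => by positivity
    have h6 : (2 * (n : ℝ) + (2 * (j : ℝ) + 1)) ≠ 0 := by positivity
    set Pr := ∏ i ∈ (Finset.range (d + 1)).erase j, (2 * (n : ℝ) + (2 * (i : ℝ) + 1)) with hPr
    have h7 : Lam Y 0 ((X + C 25) ^ (n + j)) =
        2 * (ep ^ (2 * (n + j) + 1)).im / (2 * (n : ℝ) + (2 * (j : ℝ) + 1)) := by
      rw [eq_div_iff h6, ← h4]
      push_cast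
      ring
    rw [h7]
    field_simp
  rw [Finset.sum_congr rfl h3, ← Finset.mul_sum, ← Finset.mul_sum] at h1
  have h4 : (∏ i ∈ Finset.range (d + 1), (2 * (n : ℝ) + (2 * (i : ℝ) + 1)))⁻¹ ≠ 0 :=
    inv_ne_zero (Finset.prod_ne_zero_iff.2 fun i _ => by positivity)
  have h5 := (mul_eq_zero.1 ((mul_eq_zero.1 h1).resolve_left h4)).resolve_left two_ne_zero
  rw [hNe, Finset.mul_sum, Complex.im_sum, ← h5]
  refine Finset.sum_congr rfl fun j _ => ?_
  have h6 : ep ^ (2 * n + 1) * ((g.coeff j : ℂ) * ep ^ (2 * j) *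
      ∏ i ∈ (Finset.range (d + 1)).erase j, (2 * (n : ℂ) + (2 * (i : ℂ) + 1))) =
      ((g.coeff j * ∏ i ∈ (Finset.range (d + 1)).erase j,
        (2 * (n : ℝ) + (2 * (i : ℝ) + 1)) : ℝ) : ℂ) * ep ^ (2 * (n + j) + 1) := by
    push_cast
    have : ep ^ (2 * (n + j) + 1) = ep ^ (2 * n + 1) * ep ^ (2 * j) := by
      rw [← pow_add]; congr 1; ring
    rw [this]
    ring
  rw [h6, Complex.im_ofReal_mul]

/-- **Non-vanishing**: among three consecutive Hankel determinants of the weighted functional at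
least one is nonzero. -/
theorem nonvan_HM (Y : ℤ → ℝ)
    (hY : ∀ k : ℤ, (2 * k + 1) * Y k + 50 * k * Y (k - 1) = bd k) (a b m K : ℕ) :
    ∃ K', K ≤ K' ∧ K' ≤ K + 2 ∧ (HM (LW Y a b m) K').det ≠ 0 := by
  by_contra hcon
  push Not at hcon
  -- the last nonvanishing index below `K`
  have hex : ∃ n, n < K ∧ (HM (LW Y a b m) n).det ≠ 0 ∧
      ∀ k, n < k → k ≤ K + 2 → (HM (LW Y a b m) k).det = 0 := by
    have hP : ∀ N, N ≤ K → (∀ k, N ≤ k → k ≤ K + 2 → (HM (LW Y a b m) k).det = 0) →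
        ∃ n, n < K ∧ (HM (LW Y a b m) n).det ≠ 0 ∧
          ∀ k, n < k → k ≤ K + 2 → (HM (LW Y a b m) k).det = 0 := by
      intro N
      induction N with
      | zero =>
        intro _ h
        exfalso
        have := h 0 le_rfl (by omega)
        simp at this
      | succ N ih =>
        intro hN h
        by_cases h0 : (HM (LW Y a b m) N).det = 0
        · refine ih (by omega) fun k hk1 hk2 => ?_
          rcases Nat.eq_or_lt_of_le hk1 with rfl | h'
          · exact h0
          · exact h k h' hk2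
        · exact ⟨N, by omega, h0, fun k hk1 hk2 => h k hk1 hk2⟩
    exact hP K le_rfl fun k h1 h2 => hcon k h1 h2
  obtain ⟨n, hn, hn0, hz⟩ := hex
  obtain ⟨P, hP, hPU⟩ := semiclassical (LW Y a b m) (Sp a b m) Tp (pearson Y hY a b m) Tp_nat
    Tp_coeff (Sp_nat a b m) (odd_ne a b m) hn0 (hz _ (by omega) (by omega))
    (hz _ (by omega) (by omega)) (hz _ (by omega) (by omega))
  have hW0 : Wp a b ≠ 0 := by
    rw [Wp]
    refine mul_ne_zero (pow_ne_zero _ (X_add_C_ne_zero 25)) (pow_ne_zero _ ?_)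
    intro h0
    have := congrArg (fun p => coeff p 2) h0
    simp [Qp] at this
  refine not_annih Y hY (P * Wp a b) (mul_ne_zero hP.ne_zero hW0) fun U => ?_
  have h1 := hPU (X ^ m * U)
  rw [LW_apply] at h1
  rw [← Lam_X_mul Y m, ← h1]
  congr 1
  ring

/-- The weighted moments. -/
noncomputable def cc (Y : ℤ → ℝ) (a b m n : ℕ) : ℝ :=
  (Wp a b).sum fun k w => w * Y ((n : ℤ) + k - m)

lemma LW_X_pow (Y : ℤ → ℝ) (a b m n : ℕ) : LW Y a b m (X ^ n) = cc Y a b m n := by
  rw [LW_apply, cc]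
  conv_lhs => rw [← sum_monomial_eq (Wp a b)]
  rw [Polynomial.sum, Finset.mul_sum, map_sum, Polynomial.sum]
  refine Finset.sum_congr rfl fun k _ => ?_
  rw [X_pow_mul_monomial, Lam_monomial]
  congr 2
  push_cast
  ring

/-- **Non-vanishing**, matrix form. -/
theorem nonvan (Y : ℤ → ℝ)
    (hY : ∀ k : ℤ, (2 * k + 1) * Y k + 50 * k * Y (k - 1) = bd k) (a b m K : ℕ) :
    ∃ K', K ≤ K' ∧ K' ≤ K + 2 ∧
      (Matrix.of fun i j : Fin K' => cc Y a b m ((i : ℕ) + (j : ℕ))).det ≠ 0 := by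
  obtain ⟨K', h1, h2, h3⟩ := nonvan_HM Y hY a b m K
  refine ⟨K', h1, h2, ?_⟩
  have : HM (LW Y a b m) K' = Matrix.of fun i j : Fin K' => cc Y a b m ((i : ℕ) + (j : ℕ)) := by
    ext i j
    rw [HM, Matrix.of_apply, Matrix.of_apply, LW_X_pow]
  rwa [this] at h3

end

section
lemma tau_ne (y : ℝ) : (-1 + (y : ℂ) * Complex.I) ^ 2 - 25 ≠ 0 := form_tau_ne y

lemma hasDerivAt_stau (k : ℤ) (y : ℝ) :
    HasDerivAt (fun y : ℝ => (-1 + (y : ℂ) * Complex.I) *
        ((-1 + (y : ℂ) * Complex.I) ^ 2 - 25) ^ k)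
      (Complex.I * ((2 * (k : ℂ) + 1) * ((-1 + (y : ℂ) * Complex.I) ^ 2 - 25) ^ k +
        50 * (k : ℂ) * ((-1 + (y : ℂ) * Complex.I) ^ 2 - 25) ^ (k - 1))) y := by
  have h1 : HasDerivAt (fun y : ℝ => (-1 + (y : ℂ) * Complex.I)) Complex.I y := by
    have := ((Complex.ofRealCLM.hasDerivAt (x := y)).mul_const Complex.I).const_add (-1 : ℂ)
    simpa using this
  have h2 : HasDerivAt (fun y : ℝ => (-1 + (y : ℂ) * Complex.I) ^ 2 - 25)
      (2 * (-1 + (y : ℂ) * Complex.I) * Complex.I) y := by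
    have := (h1.pow 2).sub_const (25 : ℂ)
    simpa using this
  have h3 : HasDerivAt (fun y : ℝ => ((-1 + (y : ℂ) * Complex.I) ^ 2 - 25) ^ k)
      ((k : ℂ) * ((-1 + (y : ℂ) * Complex.I) ^ 2 - 25) ^ (k - 1) *
        (2 * (-1 + (y : ℂ) * Complex.I) * Complex.I)) y :=
    (hasDerivAt_zpow k _ (Or.inl (tau_ne y))).comp_of_eq y h2 rfl
  refine HasDerivAt.congr_deriv (h1.mul h3) ?_
  set s : ℂ := -1 + (y : ℂ) * Complex.I with hs
  have h5 : (s ^ 2 - 25) ^ k = (s ^ 2 - 25) ^ (k - 1) * (s ^ 2 - 25) := by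
    rw [← zpow_add_one₀ (tau_ne y), sub_add_cancel]
  rw [h5]
  ring

lemma continuous_tau (k : ℤ) :
    Continuous (fun y : ℝ => ((-1 + (y : ℂ) * Complex.I) ^ 2 - 25) ^ k) := by
  refine Continuous.zpow₀ (by fun_prop) k fun y => Or.inl (tau_ne y)

lemma XX_rec (k : ℤ) : (2 * (k : ℂ) + 1) * XX k + 50 * (k : ℂ) * XX (k - 1) = (bd k : ℂ) := by
  have h1 := intervalIntegral.integral_eq_sub_of_hasDerivAt (a := (-2 : ℝ)) (b := 2)
    (fun y _ => hasDerivAt_stau k y)
    (Continuous.intervalIntegrable (by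
      have := continuous_tau k
      have := continuous_tau (k - 1)
      fun_prop) _ _)
  rw [intervalIntegral.integral_const_mul, intervalIntegral.integral_add,
    intervalIntegral.integral_const_mul, intervalIntegral.integral_const_mul] at h1
  · have h2 : XX k = ∫ y in (-2 : ℝ)..2, ((-1 + (y : ℂ) * Complex.I) ^ 2 - 25) ^ k := rfl
    have h3 : XX (k - 1) = ∫ y in (-2 : ℝ)..2, ((-1 + (y : ℂ) * Complex.I) ^ 2 - 25) ^ (k - 1) := rfl
    rw [← h2, ← h3] at h1
    have e1 : (-1 + ((2 : ℝ) : ℂ) * Complex.I) = ep := by rw [ep]; push_cast; ring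
    have e2 : (-1 + ((-2 : ℝ) : ℂ) * Complex.I) = (starRingEnd ℂ) ep := by
      rw [ep, map_add, map_mul, Complex.conj_I, map_neg, map_one, Complex.conj_ofNat]
      push_cast
      ring
    have e3 : ep ^ 2 - 25 = tp := by rw [ep_sq]; ring
    rw [e1, e2, ← map_pow, e3] at h1
    have e4 : (starRingEnd ℂ) (ep ^ 2) - 25 = (starRingEnd ℂ) tp := by
      rw [← e3, map_sub]
      congr 1
      exact (Complex.conj_ofNat 25).symm
    rw [e4, ← map_zpow₀, ← map_mul, xneg_sub_conj] at h1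
    have h5 : Complex.I * ((2 * (k : ℂ) + 1) * XX k + 50 * (k : ℂ) * XX (k - 1)) =
        Complex.I * (bd k : ℂ) := by
      rw [h1, bd]
      push_cast
      ring
    exact mul_left_cancel₀ Complex.I_ne_zero h5
  · exact ((continuous_tau k).const_mul _).intervalIntegrable _ _
  · exact ((continuous_tau (k - 1)).const_mul _).intervalIntegrable _ _

lemma aco_rec (k : ℤ) : (2 * (k : ℚ) + 1) * aco k + 50 * (k : ℚ) * aco (k - 1) = 0 := by
  rcases lt_trichotomy k 0 with hk | rfl | hk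
  · obtain ⟨n, rfl⟩ : ∃ n : ℕ, k = -((n + 1 : ℕ) : ℤ) := ⟨k.natAbs - 1, by omega⟩
    rw [aco, aco, if_neg (by omega), if_neg (by omega)]
    have h1 : (-((n + 1 : ℕ) : ℤ)).natAbs = n + 1 := by omega
    have h2 : (-((n + 1 : ℕ) : ℤ) - 1).natAbs = n + 2 := by omega
    rw [h1, h2]
    have e1 : 2 * (n + 1) - 2 = 2 * n := by omega
    have e2 : n + 1 - 1 = n := by omega
    have e3 : 2 * (n + 1) - 1 = 2 * n + 1 := by omega
    have e4 : 2 * (n + 2) - 2 = 2 * (n + 1) := by omega
    have e5 : n + 2 - 1 = n + 1 := by omega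
    have e6 : 2 * (n + 2) - 1 = 2 * n + 1 + 2 := by omega
    rw [e1, e2, e3, e4, e5, e6]
    have h3 := Nat.succ_mul_centralBinom_succ n
    rw [Nat.centralBinom, Nat.centralBinom] at h3
    have h4 : ((n : ℚ) + 1) * ((2 * (n + 1)).choose (n + 1) : ℚ) =
        2 * (2 * n + 1) * ((2 * n).choose n : ℚ) := by exact_mod_cast h3
    rw [pow_add (10 : ℚ) (2 * n + 1) 2, pow_succ (-1 : ℚ) (n + 1)]
    have h10 : (10 : ℚ) ^ (2 * n + 1) ≠ 0 := by positivity
    push_cast
    field_simp
    linear_combination (50 * (-1 : ℚ) ^ (n + 1)) * h4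
  · simp [aco]
  · rw [aco, aco, if_pos (by omega), if_pos (by omega)]
    ring

lemma bco_rec (k : ℤ) :
    (2 * (k : ℝ) + 1) * (bco k : ℝ) + 50 * (k : ℝ) * (bco (k - 1) : ℝ) = bd k := by
  have h1 := XX_rec k
  rw [XX_eq, XX_eq] at h1
  have h2 : (2 * (k : ℂ) + 1) * (aco k : ℂ) + 50 * (k : ℂ) * (aco (k - 1) : ℂ) = 0 := by
    exact_mod_cast congrArg (Rat.cast : ℚ → ℂ) (aco_rec k)
  have h3 : (2 * (k : ℂ) + 1) * (bco k : ℂ) + 50 * (k : ℂ) * (bco (k - 1) : ℂ) = (bd k : ℂ) := by
    linear_combination h1 - ((Real.pi : ℂ) / 2) * h2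
  exact_mod_cast h3

lemma comb_rec (x : ℝ) (k : ℤ) :
    (2 * (k : ℝ) + 1) * (x * (aco k : ℝ) + (bco k : ℝ)) +
      50 * (k : ℝ) * (x * (aco (k - 1) : ℝ) + (bco (k - 1) : ℝ)) = bd k := by
  have h1 := bco_rec k
  have h2 : (2 * (k : ℝ) + 1) * (aco k : ℝ) + 50 * (k : ℝ) * (aco (k - 1) : ℝ) = 0 := by
    exact_mod_cast congrArg (Rat.cast : ℚ → ℝ) (aco_rec k)
  linear_combination h1 + x * h2

lemma wp_map (a b : ℕ) : (wp a b).map (Int.castRingHom ℝ) = Wp a b := by
  rw [wp, Wp, Qp]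
  have e : ∀ n : ℤ, (C n : ℤ[X]).map (Int.castRingHom ℝ) = C (n : ℝ) := fun n => by
    rw [map_C]; rfl
  simp only [Polynomial.map_mul, Polynomial.map_pow, Polynomial.map_add, map_X, e]
  norm_num

lemma Wp_natDegree (a b : ℕ) : (Wp a b).natDegree < a + 2 * b + 1 := by
  rw [Wp]
  have h1 : (X + C (25 : ℝ)).natDegree ≤ 1 := by compute_degree
  have h3 := natDegree_pow_le_of_le a h1
  have h4 := natDegree_pow_le_of_le b Qp_nat
  have h5 := natDegree_mul_le_of_le h3 h4
  omega

/-- **Non-vanishing** (real form): for every real `x` one of three consecutive Hankel determinants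
of the functional `x * aco + bco` is nonzero. -/
theorem nonvan_real (x : ℝ) (a b m K : ℕ) : ∃ K', K ≤ K' ∧ K' ≤ K + 2 ∧
    (Matrix.of fun i j : Fin K' => ∑ l ∈ Finset.range (a + 2 * b + 1),
      ((wp a b).coeff l : ℝ) * (x * (aco ((i : ℤ) + j - m + l) : ℝ) +
        (bco ((i : ℤ) + j - m + l) : ℝ))).det ≠ 0 := by
  obtain ⟨K', h1, h2, h3⟩ := nonvan (fun k => x * (aco k : ℝ) + (bco k : ℝ)) (comb_rec x) a b m K
  refine ⟨K', h1, h2, ?_⟩
  convert h3 using 3
  ext i j
  rw [cc, sum_over_range' _ (by simp) (a + 2 * b + 1) (Wp_natDegree a b)]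
  refine Finset.sum_congr rfl fun l _ => ?_
  have e1 : (i : ℤ) + j - m + l = (((i : ℕ) + (j : ℕ) : ℕ) : ℤ) + l - m := by push_cast; ring
  rw [← wp_map, coeff_map, e1]
  simp

/-- **Non-vanishing** of `mat`: for rationals `u`, `v ≠ 0` and a positive integer `D`, one of three
consecutive determinants is nonzero. -/
theorem nonvan_mat (u v : ℚ) (hv : v ≠ 0) (D : ℕ) (hD : D ≠ 0) (a b m K : ℕ) :
    ∃ K', K ≤ K' ∧ K' ≤ K + 2 ∧
      (mat K' a b m D (fun k => u * aco k + v * bco k)).det ≠ 0 := by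
  obtain ⟨K', h1, h2, h3⟩ := nonvan_real ((u / v : ℚ) : ℝ) a b m K
  refine ⟨K', h1, h2, fun h0 => h3 ?_⟩
  have hDv : ((D : ℚ) * v) ≠ 0 := mul_ne_zero (by exact_mod_cast hD) hv
  have h4 : mat K' a b m D (fun k => u * aco k + v * bco k) = ((D : ℚ) * v) •
      (Matrix.of fun i j : Fin K' => ∑ l ∈ Finset.range (a + 2 * b + 1),
      ((wp a b).coeff l : ℚ) * ((u / v) * aco ((i : ℤ) + j - m + l) +
        bco ((i : ℤ) + j - m + l))) := by
    ext i j
    rw [Matrix.smul_apply, Matrix.of_apply, mat, ent, smul_eq_mul, mul_assoc]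
    congr 1
    rw [Finset.mul_sum]
    refine Finset.sum_congr rfl fun l _ => ?_
    field_simp
  rw [h4, Matrix.det_smul] at h0
  have h5 := (mul_eq_zero.1 h0).resolve_left (pow_ne_zero _ hDv)
  have h6 := congrArg (Rat.castHom ℝ) h5
  rw [RingHom.map_det, map_zero] at h6
  rw [← h6]
  congr 1
  ext i j
  simp [Matrix.map_apply]

end

theorem lam_rec (x : ℝ) (k : ℤ) :
    (2 * (k : ℝ) + 1) * lam x k + 50 * (k : ℝ) * lam x (k - 1) = bd k := by
  have h := comb_rec (x / 2) k
  rw [lam, lam]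
  linear_combination h

end Vale.Agent.P021.Det.NV

namespace Vale.Agent.P021.Det

open Polynomial

/-- **Non-vanishing**: one of three consecutive determinants is nonzero. -/
theorem exists_det_ne_zero (x : ℝ) (a b m K : ℕ) :
    ∃ κ ≤ 2, (HM x a b m (K + κ)).det ≠ 0 := by
  obtain ⟨K', h1, h2, h3⟩ := NV.nonvan_HM (lam x) (NV.lam_rec x) a b m K
  refine ⟨K' - K, by omega, ?_⟩
  have e : K + (K' - K) = K' := by omega
  rw [e]
  exact h3

end Vale.Agent.P021.Det
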