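import Mathlib
import Vale.Agent.PNT.Main

/-!
# Sums over primes of `φ (p / n) log p`
-/

namespace Vale.Agent.P021.Det

open Filter Topology Finset

/-- the sum `∑_{p ≤ y n} φ (p/n) log p` -/
noncomputable def psum (φ : ℝ → ℝ) (n : ℕ) (y : ℝ) : ℝ :=
  ∑ p ∈ Ioc 0 ⌊y * n⌋₊ with p.Prime, φ ((p : ℝ) / n) * Real.log p

lemma psum_zero (φ : ℝ → ℝ) (n : ℕ) : psum φ n 0 = 0 := by
  simp [psum]

lemma theta_zero_div (n : ℕ) : Chebyshev.theta (0 * (n : ℝ)) = 0 := by
  rw [zero_mul]; exact Chebyshev.theta_zero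

lemma psum_sub_le {φ : ℝ → ℝ} {L : ℝ} (hLip : ∀ x y, |φ x - φ y| ≤ L * |x - y|)
    (hL : 0 ≤ L) {n : ℕ} (hn : 0 < n) {y y' : ℝ} (hy : 0 ≤ y) (hyy : y ≤ y') :
    psum φ n y' - psum φ n y ≤
      (φ y' + L * (y' - y)) * (Chebyshev.theta (y' * n) - Chebyshev.theta (y * n)) := by
  have hnR : (0 : ℝ) < n := by exact_mod_cast hn
  have hy' : 0 ≤ y' := hy.trans hyy
  have hsub : (Ioc 0 ⌊y * n⌋₊).filter Nat.Prime ⊆ (Ioc 0 ⌊y' * n⌋₊).filter Nat.Prime := by
    intro p hp
    rw [mem_filter, mem_Ioc] at hp ⊢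
    exact ⟨⟨hp.1.1, hp.1.2.trans (Nat.floor_le_floor (by gcongr))⟩, hp.2⟩
  have h1 : psum φ n y' - psum φ n y = ∑ p ∈ (Ioc 0 ⌊y' * n⌋₊).filter Nat.Prime \
      (Ioc 0 ⌊y * n⌋₊).filter Nat.Prime, φ ((p : ℝ) / n) * Real.log p := by
    rw [psum, psum, ← sum_sdiff hsub]; ring
  have h2 : Chebyshev.theta (y' * n) - Chebyshev.theta (y * n) =
      ∑ p ∈ (Ioc 0 ⌊y' * n⌋₊).filter Nat.Prime \
      (Ioc 0 ⌊y * n⌋₊).filter Nat.Prime, Real.log p := by
    rw [Chebyshev.theta, Chebyshev.theta, ← sum_sdiff hsub]; ring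
  rw [h1, h2, mul_sum]
  refine sum_le_sum fun p hp => ?_
  rw [Finset.mem_sdiff, Finset.mem_filter, Finset.mem_filter, mem_Ioc, mem_Ioc] at hp
  obtain ⟨⟨⟨hp0, hp1⟩, hp2⟩, hp3⟩ := hp
  have hp4 : ¬ (p ≤ ⌊y * n⌋₊) := fun h => hp3 ⟨⟨hp0, h⟩, hp2⟩
  have h3 : (p : ℝ) ≤ y' * n := (Nat.le_floor_iff (by positivity)).1 hp1
  have h4 : y * n < p := by
    by_contra hcon
    exact hp4 ((Nat.le_floor_iff (by positivity)).2 (not_lt.1 hcon))
  have h5 : (p : ℝ) / n ≤ y' := by rwa [div_le_iff₀ hnR]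
  have h6 : y ≤ (p : ℝ) / n := by rw [le_div_iff₀ hnR]; exact h4.le
  have h7 := hLip ((p : ℝ) / n) y'
  have h8 : |(p : ℝ) / n - y'| ≤ y' - y := by
    rw [abs_sub_comm, abs_of_nonneg (by linarith)]; linarith
  have h9 : φ ((p : ℝ) / n) ≤ φ y' + L * (y' - y) := by
    have := (abs_le.1 h7).2
    have := mul_le_mul_of_nonneg_left h8 hL
    linarith
  exact mul_le_mul_of_nonneg_right h9 (Real.log_natCast_nonneg _)

lemma theta_mul_div_tendsto {c : ℝ} (hc : 0 ≤ c) :
    Tendsto (fun n : ℕ => Chebyshev.theta (c * n) / n) atTop (𝓝 c) := by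
  rcases hc.eq_or_lt with rfl | hc
  · simp only [zero_mul, Chebyshev.theta_zero, zero_div]
    exact tendsto_const_nhds
  · have h0 : Tendsto (fun n : ℕ => c * (n : ℝ)) atTop atTop :=
      tendsto_natCast_atTop_atTop.const_mul_atTop hc
    have h1 := (PNT.theta_div_tendsto.comp h0).const_mul c
    rw [mul_one] at h1
    refine h1.congr' ?_
    filter_upwards [eventually_gt_atTop 0] with n hn
    have : (0 : ℝ) < n := by exact_mod_cast hn
    simp only [Function.comp]
    field_simp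

/-- Riemann sums dominate the sums over primes. -/
theorem psum_le_integral {φ : ℝ → ℝ} {L X : ℝ} (hX : 0 < X) (hL : 0 ≤ L)
    (hLip : ∀ x y, |φ x - φ y| ≤ L * |x - y|) {ε : ℝ} (hε : 0 < ε) :
    ∀ᶠ n : ℕ in atTop, psum φ n X ≤ n * ((∫ x in (0 : ℝ)..X, φ x) + ε) := by
  have hcont : Continuous φ := by
    have : LipschitzWith (Real.toNNReal L) φ := by
      refine LipschitzWith.of_dist_le_mul fun x y => ?_
      rw [Real.dist_eq, Real.dist_eq, Real.coe_toNNReal L hL]
      exact hLip x y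
    exact this.continuous
  obtain ⟨M, hM⟩ := exists_nat_gt (4 * L * X ^ 2 / ε)
  have hM0 : 0 < M := by
    have h1 : (0 : ℝ) ≤ 4 * L * X ^ 2 / ε := by positivity
    exact_mod_cast h1.trans_lt hM
  have hMR : (0 : ℝ) < M := by exact_mod_cast hM0
  set h := X / M with hh
  have hh0 : 0 < h := by positivity
  have hMh : M * h = X := by rw [hh]; field_simp
  have hLh : 2 * L * h * X ≤ ε / 2 := by
    rw [div_lt_iff₀ hε] at hM
    rw [hh]
    have : 2 * L * (X / M) * X = 2 * L * X ^ 2 / M := by ring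
    rw [this, div_le_iff₀ hMR]
    linarith
  -- telescoping
  have htel : ∀ n : ℕ, 0 < n → psum φ n X ≤ ∑ j ∈ range M, (φ ((j + 1) * h) + L * h) *
      (Chebyshev.theta ((j + 1) * h * n) - Chebyshev.theta (j * h * n)) := by
    intro n hn
    have h1 : ∀ k : ℕ, psum φ n (k * h) ≤ ∑ j ∈ range k, (φ ((j + 1) * h) + L * h) *
      (Chebyshev.theta ((j + 1) * h * n) - Chebyshev.theta (j * h * n)) := by
      intro k
      induction k with
      | zero => rw [Nat.cast_zero, zero_mul, psum_zero]; simp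
      | succ k ih =>
        rw [sum_range_succ]
        have h2 := psum_sub_le hLip hL hn (y := k * h) (y' := (k + 1 : ℝ) * h) (by positivity)
          (by nlinarith)
        have h3 : (k + 1 : ℝ) * h - k * h = h := by ring
        rw [h3] at h2
        push_cast
        linarith
    have := h1 M
    rwa [hMh] at this
  have hlim : Tendsto (fun n : ℕ => (∑ j ∈ range M, (φ ((j + 1) * h) + L * h) *
      (Chebyshev.theta ((j + 1) * h * n) - Chebyshev.theta (j * h * n))) / n) atTop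
      (𝓝 (∑ j ∈ range M, (φ ((j + 1) * h) + L * h) * h)) := by
    simp_rw [Finset.sum_div]
    refine tendsto_finsetSum _ fun j _ => ?_
    have h1 := (theta_mul_div_tendsto (c := (j + 1 : ℝ) * h) (by positivity)).sub
      (theta_mul_div_tendsto (c := (j : ℝ) * h) (by positivity))
    have h2 := h1.const_mul (φ ((j + 1) * h) + L * h)
    have h3 : (j + 1 : ℝ) * h - j * h = h := by ring
    rw [h3] at h2
    refine h2.congr fun n => ?_
    ring
  have hint : ∑ j ∈ range M, (φ ((j + 1) * h) + L * h) * h ≤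
      (∫ x in (0 : ℝ)..X, φ x) + 2 * L * h * X := by
    have h1 : ∀ j : ℕ, (φ ((j + 1) * h) + L * h) * h ≤
        (∫ x in (j * h)..((j + 1 : ℕ) * h), φ x) + 2 * L * h * h := by
      intro j
      have h2 : ∫ x in (j * h : ℝ)..((j + 1 : ℕ) * h), (φ ((j + 1) * h) - L * h) ≤
          ∫ x in (j * h : ℝ)..((j + 1 : ℕ) * h), φ x := by
        refine intervalIntegral.integral_mono_on (by push_cast; nlinarith) (by simp)
          (hcont.intervalIntegrable _ _) fun x hx => ?_
        have h3 := hLip ((j + 1) * h) x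
        have h4 : |(j + 1 : ℝ) * h - x| ≤ h := by
          have h5 := hx.2
          push_cast at h5
          rw [abs_of_nonneg (by linarith)]
          have := hx.1
          nlinarith
        have h5 := (abs_le.1 h3).2
        have := mul_le_mul_of_nonneg_left h4 hL
        linarith
      rw [intervalIntegral.integral_const] at h2
      have h6 : ((j + 1 : ℕ) : ℝ) * h - j * h = h := by push_cast; ring
      rw [h6, smul_eq_mul] at h2
      nlinarith
    calc ∑ j ∈ range M, (φ ((j + 1) * h) + L * h) * h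
        ≤ ∑ j ∈ range M, ((∫ x in (j * h)..((j + 1 : ℕ) * h), φ x) + 2 * L * h * h) :=
          sum_le_sum fun j _ => h1 j
      _ = (∫ x in ((0 : ℕ) * h)..(M * h), φ x) + 2 * L * h * X := by
          rw [sum_add_distrib, intervalIntegral.sum_integral_adjacent_intervals
            (a := fun j : ℕ => (j : ℝ) * h) (fun k _ => hcont.intervalIntegrable _ _),
            sum_const, card_range, nsmul_eq_mul]
          congr 1
          rw [← hMh]; ring
      _ = _ := by rw [hMh, Nat.cast_zero, zero_mul]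
  have hlt : ∑ j ∈ range M, (φ ((j + 1) * h) + L * h) * h < (∫ x in (0 : ℝ)..X, φ x) + ε := by
    linarith
  filter_upwards [hlim.eventually (gt_mem_nhds hlt), eventually_gt_atTop 0] with n hn hn0
  have hnR : (0 : ℝ) < n := by exact_mod_cast hn0
  rw [div_lt_iff₀ hnR] at hn
  have := htel n hn0
  linarith

end Vale.Agent.P021.Det
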