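import Mathlib

/-!
# Lower bound for a rational number from its `p`-adic norms
-/

namespace Vale.Agent.P021.Det

open Finset

lemma log_nat_eq_sum (m B : ℕ) (hB : m ≤ B) (hm : m ≠ 0) :
    Real.log m = ∑ p ∈ (Ioc 0 B).filter Nat.Prime, (m.factorization p : ℝ) * Real.log p := by
  rw [Real.log_nat_eq_sum_factorization, Finsupp.sum]
  refine sum_subset ?_ ?_
  · intro p hp
    rw [Nat.support_factorization, Nat.mem_primeFactors] at hp
    rw [Finset.mem_filter, mem_Ioc]
    exact ⟨⟨hp.1.pos, (Nat.le_of_dvd (Nat.pos_of_ne_zero hm) hp.2.1).trans hB⟩, hp.1⟩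
  · intro p _ hp
    rw [Finsupp.mem_support_iff, not_not] at hp
    rw [hp]; simp

lemma log_padicNorm (p : ℕ) (hp : p.Prime) (x : ℚ) (hx : x ≠ 0) :
    Real.log (padicNorm p x : ℚ) =
      -((x.num.natAbs.factorization p : ℝ) - x.den.factorization p) * Real.log p := by
  have hv : padicNorm p x = (p : ℚ) ^ (-(padicValRat p x)) := padicNorm.eq_zpow_of_nonzero hx
  rw [hv]
  push_cast
  have h0 : padicValRat p x = (padicValNat p x.num.natAbs : ℤ) - padicValNat p x.den := rfl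
  rw [Real.log_zpow, h0, Nat.factorization_def _ hp, Nat.factorization_def _ hp, Int.cast_neg,
    Int.cast_sub, Int.cast_natCast, Int.cast_natCast]

/-- Lower bound of a nonzero rational number from upper bounds of its `p`-adic norms. -/
theorem log_abs_ge (x : ℚ) (hx : x ≠ 0) (R : ℕ) (β : ℕ → ℝ)
    (h1 : ∀ p : ℕ, p.Prime → p ≤ R → Real.log (padicNorm p x : ℚ) ≤ β p)
    (h2 : ∀ p : ℕ, p.Prime → R < p → padicNorm p x ≤ 1) :
    -∑ p ∈ (Ioc 0 R).filter Nat.Prime, β p ≤ Real.log |(x : ℝ)| := by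
  have hnum : x.num.natAbs ≠ 0 := by
    rw [Ne, Int.natAbs_eq_zero]; exact Rat.num_ne_zero.2 hx
  set B := max R (max x.num.natAbs x.den) with hB
  have e1 := log_nat_eq_sum x.num.natAbs B ((le_max_left _ _).trans (le_max_right _ _)) hnum
  have e2 := log_nat_eq_sum x.den B ((le_max_right _ _).trans (le_max_right _ _)) x.den_ne_zero
  have e3 : Real.log |(x : ℝ)| = Real.log x.num.natAbs - Real.log x.den := by
    have h3 : |(x : ℝ)| = (x.num.natAbs : ℝ) / x.den := by
      conv_lhs => rw [← Rat.num_div_den x]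
      push_cast
      rw [abs_div, Nat.abs_cast, Nat.cast_natAbs, Int.cast_abs]
    rw [h3, Real.log_div (by exact_mod_cast hnum) (by exact_mod_cast x.den_ne_zero)]
  have e4 : Real.log |(x : ℝ)| = -∑ p ∈ (Ioc 0 B).filter Nat.Prime,
      Real.log (padicNorm p x : ℚ) := by
    rw [e3, e1, e2, ← sum_sub_distrib, ← sum_neg_distrib]
    refine sum_congr rfl fun p hp => ?_
    rw [log_padicNorm p (Finset.mem_filter.1 hp).2 x hx]
    ring
  rw [e4, neg_le_neg_iff]
  have hsub : (Ioc 0 R).filter Nat.Prime ⊆ (Ioc 0 B).filter Nat.Prime := by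
    intro p hp
    rw [Finset.mem_filter, mem_Ioc] at hp ⊢
    exact ⟨⟨hp.1.1, hp.1.2.trans (le_max_left _ _)⟩, hp.2⟩
  rw [← sum_sdiff hsub]
  have h3 : ∑ p ∈ (Ioc 0 B).filter Nat.Prime \ (Ioc 0 R).filter Nat.Prime,
      Real.log (padicNorm p x : ℚ) ≤ 0 := by
    refine sum_nonpos fun p hp => ?_
    rw [Finset.mem_sdiff, Finset.mem_filter, Finset.mem_filter, mem_Ioc, mem_Ioc] at hp
    have hp1 : R < p := by
      by_contra h
      exact hp.2 ⟨⟨hp.1.1.1, not_lt.1 h⟩, hp.1.2⟩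
    refine Real.log_nonpos ?_ ?_
    · exact_mod_cast padicNorm.nonneg _
    · exact_mod_cast h2 p hp.1.2 hp1
  have h4 : ∑ p ∈ (Ioc 0 R).filter Nat.Prime, Real.log (padicNorm p x : ℚ) ≤
      ∑ p ∈ (Ioc 0 R).filter Nat.Prime, β p := by
    refine sum_le_sum fun p hp => ?_
    rw [Finset.mem_filter, mem_Ioc] at hp
    exact h1 p hp.2 hp.1.2
  linarith

end Vale.Agent.P021.Det
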