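import Vale.Agent.P021.Det.LocalOdd
import Vale.Agent.P021.Det.ProdForm
import Vale.Agent.P021.Det.PrimeInt
import Vale.Agent.P021.Det.Nonvan

/-!
# The arithmetic lower bound with window savings
-/

namespace Vale.Agent.P021.Det

open Filter Topology Finset

/-! ### relation between `NN` and `HM` -/

lemma Lam_wp (x : ℝ) (a b m s : ℕ) : Lam x m (Polynomial.X ^ s * Wp a b) =
    ∑ l ∈ range (a + 2 * b + 1), ((wp a b).coeff l : ℝ) * lam x ((s : ℤ) - m + l) := by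
  have h1 := NV.LW_X_pow (lam x) a b m s
  have h2 : Lam x m (Polynomial.X ^ s * Wp a b) = NV.LW (lam x) a b m (Polynomial.X ^ s) := rfl
  rw [h2, h1, NV.cc, Polynomial.sum_over_range' _ (by simp) (a + 2 * b + 1) (NV.Wp_natDegree a b)]
  refine sum_congr rfl fun l _ => ?_
  have e1 : (s : ℤ) - m + l = (s : ℤ) + l - m := by ring
  rw [← NV.wp_map, Polynomial.coeff_map, e1]
  simp

lemma NN_eq (a b m K : ℕ) (p q : ℤ) (hq : 0 < q) :
    ((NN a b m K p q : ℚ) : ℝ) = (2 * (q : ℝ)) ^ K * (HM ((p : ℝ) / q) a b m K).det := by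
  have hq0 : (q : ℝ) ≠ 0 := by exact_mod_cast hq.ne'
  have h1 : ((NN a b m K p q : ℚ) : ℝ) = (Matrix.map (mat K a b m 1
      (fun k => (p : ℚ) * aco k + ((2 * q : ℤ) : ℚ) * bco k)) (Rat.castHom ℝ)).det := by
    rw [NN, ← RingHom.mapMatrix_apply, ← RingHom.map_det]; rfl
  have h2 : (Matrix.map (mat K a b m 1
      (fun k => (p : ℚ) * aco k + ((2 * q : ℤ) : ℚ) * bco k)) (Rat.castHom ℝ)) =
      (2 * (q : ℝ)) • HM ((p : ℝ) / q) a b m K := by
    ext i j
    rw [Matrix.map_apply, Matrix.smul_apply, mat, ent, HM, Matrix.of_apply, Lam_wp]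
    rw [Nat.cast_one, one_mul, map_sum, smul_eq_mul, mul_sum]
    refine sum_congr rfl fun l _ => ?_
    have e1 : (((i : ℕ) + (j : ℕ) : ℕ) : ℤ) - m + l = (i : ℤ) + j - m + l := by push_cast; ring
    rw [e1, lam]
    simp only [eq_ratCast, Rat.cast_mul, Rat.cast_add, Rat.cast_intCast, Int.cast_mul,
      Int.cast_ofNat]
    push_cast
    field_simp
  rw [h1, h2, Matrix.det_smul, Fintype.card_fin]

/-! ### the rank function -/

lemma max_sub_le (u v : ℝ) : |max u 0 - max v 0| ≤ |u - v| := by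
  have := abs_max_sub_max_le_abs u v 0
  simpa using this

lemma badR_nonneg {a b m K l : ℝ} (hK : 0 ≤ K) : 0 ≤ badR a b m K l := by
  refine le_min hK (le_min ?_ ?_)
  · unfold plainR; positivity
  · unfold winR; positivity

lemma plainR_lip (a b m K x y : ℝ) : |plainR a b m K x - plainR a b m K y| ≤ 2 * |x - y| := by
  have h1 := max_sub_le (m - x) (m - y)
  have h2 := max_sub_le (2 * a + 4 * b - 2 * m + 4 * K - x) (2 * a + 4 * b - 2 * m + 4 * K - y)
  have e1 : m - x - (m - y) = -(x - y) := by ring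
  have e2 : 2 * a + 4 * b - 2 * m + 4 * K - x - (2 * a + 4 * b - 2 * m + 4 * K - y) =
    -(x - y) := by ring
  rw [e1, abs_neg] at h1
  rw [e2, abs_neg] at h2
  rw [abs_le] at h1 h2 ⊢
  unfold plainR
  constructor <;> linarith [abs_nonneg (x - y)]

lemma winR_lip (a b m K x y : ℝ) : |winR a b m K x - winR a b m K y| ≤ 6 * |x - y| := by
  have h1 := max_sub_le (x - b) (y - b)
  have h2 := max_sub_le (x - 2 * a) (y - 2 * a)
  have h3 := max_sub_le (m - 2 * x) (m - 2 * y)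
  have h4 := max_sub_le (2 * a + 4 * b - 2 * m + 4 * K - 3 * x)
    (2 * a + 4 * b - 2 * m + 4 * K - 3 * y)
  have e1 : x - b - (y - b) = x - y := by ring
  have e2 : x - 2 * a - (y - 2 * a) = x - y := by ring
  have e3 : m - 2 * x - (m - 2 * y) = -(2 * (x - y)) := by ring
  have e4 : 2 * a + 4 * b - 2 * m + 4 * K - 3 * x - (2 * a + 4 * b - 2 * m + 4 * K - 3 * y) =
    -(3 * (x - y)) := by ring
  rw [e1] at h1
  rw [e2] at h2
  rw [e3, abs_neg, abs_mul, abs_of_pos (by norm_num : (0 : ℝ) < 2)] at h3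
  rw [e4, abs_neg, abs_mul, abs_of_pos (by norm_num : (0 : ℝ) < 3)] at h4
  rw [abs_le] at h1 h2 h3 h4 ⊢
  unfold winR
  constructor <;> linarith [abs_nonneg (x - y)]

lemma badR_lip (a b m K x y : ℝ) : |badR a b m K x - badR a b m K y| ≤ 6 * |x - y| := by
  unfold badR
  refine (abs_min_sub_min_le_max _ _ _ _).trans ?_
  rw [sub_self, abs_zero]
  refine max_le (by positivity) ((abs_min_sub_min_le_max _ _ _ _).trans (max_le ?_ ?_))
  · refine (plainR_lip a b m K x y).trans ?_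
    linarith [abs_nonneg (x - y)]
  · exact winR_lip a b m K x y

lemma mul_max_zero {c x : ℝ} (hc : 0 ≤ c) : max (c * x) 0 = c * max x 0 := by
  rw [mul_max_of_nonneg _ _ hc, mul_zero]

lemma badR_scale (a b m K l : ℝ) {n : ℝ} (hn : 0 < n) (κ : ℝ) (hκ : 0 ≤ κ) :
    badR (a * n) (b * n) (m * n) (K * n + κ) l ≤ n * badR a b m K (l / n) + 2 * κ := by
  have hl : l = n * (l / n) := by field_simp
  set y := l / n with hy
  have hadd : ∀ u v : ℝ, 0 ≤ v → max (u + v) 0 ≤ max u 0 + v := by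
    intro u v hv
    exact max_le (by linarith [le_max_left u 0]) (by linarith [le_max_right u 0])
  have h1 : plainR (a * n) (b * n) (m * n) (K * n + κ) l ≤ n * plainR a b m K y + 2 * κ := by
    unfold plainR
    have e1 : m * n - l = n * (m - y) := by rw [hl]; ring
    have e2 : 2 * (a * n) + 4 * (b * n) - 2 * (m * n) + 4 * (K * n + κ) - l =
        n * (2 * a + 4 * b - 2 * m + 4 * K - y) + 4 * κ := by rw [hl]; ring
    rw [e1, e2, mul_max_zero hn.le]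
    have := hadd (n * (2 * a + 4 * b - 2 * m + 4 * K - y)) (4 * κ) (by linarith)
    rw [mul_max_zero hn.le] at this
    linarith
  have h2 : winR (a * n) (b * n) (m * n) (K * n + κ) l ≤ n * winR a b m K y + 2 * κ := by
    unfold winR
    have e1 : l - b * n = n * (y - b) := by rw [hl]; ring
    have e2 : l - 2 * (a * n) = n * (y - 2 * a) := by rw [hl]; ring
    have e3 : m * n - 2 * l = n * (m - 2 * y) := by rw [hl]; ring
    have e4 : 2 * (a * n) + 4 * (b * n) - 2 * (m * n) + 4 * (K * n + κ) - 3 * l =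
        n * (2 * a + 4 * b - 2 * m + 4 * K - 3 * y) + 4 * κ := by rw [hl]; ring
    rw [e1, e2, e3, e4, mul_max_zero hn.le, mul_max_zero hn.le, mul_max_zero hn.le]
    have := hadd (n * (2 * a + 4 * b - 2 * m + 4 * K - 3 * y)) (4 * κ) (by linarith)
    rw [mul_max_zero hn.le] at this
    linarith
  unfold badR
  have e3 : n * min K (min (plainR a b m K y) (winR a b m K y)) =
      min (n * K) (min (n * plainR a b m K y) (n * winR a b m K y)) := by
    rw [mul_min_of_nonneg _ _ hn.le, mul_min_of_nonneg _ _ hn.le]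
  rw [e3, ← min_add_add_right, ← min_add_add_right]
  exact min_le_min (by nlinarith) (min_le_min h1 h2)

lemma four_mul_sum_le (K : ℕ) : ∀ M : ℕ, 4 * ∑ i ∈ range K, (M - 2 * i) ≤ (M + 1) ^ 2 := by
  induction K with
  | zero => intro M; simp
  | succ K ih =>
    intro M
    rw [sum_range_succ']
    have e1 : ∀ i, M - 2 * (i + 1) = (M - 2) - 2 * i := fun i => by omega
    simp_rw [e1]
    have h := ih (M - 2)
    rcases Nat.lt_or_ge M 2 with hM | hM
    · have : M - 2 = 0 := by omega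
      rw [this] at h ⊢
      interval_cases M <;> omega
    · obtain ⟨k, rfl⟩ : ∃ k, M = k + 2 := ⟨M - 2, by omega⟩
      simp only [Nat.add_sub_cancel, Nat.mul_zero, Nat.sub_zero] at h ⊢
      nlinarith

/-! ### the sum of the local bounds -/

/-- the logarithmic size of the `2`-adic part -/
noncomputable def T2 (b m K : ℕ) : ℝ :=
  5 / 2 * Real.log 2 * ((K : ℝ) * (m - 2 * b) - K * (K - 1))

/-- the logarithmic size of the `5`-adic part -/
noncomputable def T5 (a b m K : ℕ) : ℝ :=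
  2 * ((∑ i ∈ range K, (m - (a + b + 2 * i)) : ℕ) : ℝ) * Real.log 5

/-- the local bounds -/
noncomputable def bet (a b m K p : ℕ) : ℝ :=
  (badR a b m K p + 8) * Real.log p +
    (if p ^ 2 ≤ rng a b m K ∨ p < 7 then (K : ℝ) * Real.log (rng a b m K) else 0) +
    (if p = 2 then T2 b m K else 0) + (if p = 5 then T5 a b m K else 0)

lemma log_norm_le (a b m K : ℕ) (p q : ℤ) (hN : NN a b m K p q ≠ 0) (l : ℕ) (hl : l.Prime) :
    Real.log (padicNorm l (NN a b m K p q) : ℚ) ≤ bet a b m K l := by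
  have : Fact l.Prime := ⟨hl⟩
  have hpos : (0 : ℝ) < (padicNorm l (NN a b m K p q) : ℚ) := by
    have h1 : padicNorm l (NN a b m K p q) ≠ 0 := padicNorm.nonzero hN
    have h2 : 0 ≤ padicNorm l (NN a b m K p q) := padicNorm.nonneg _
    exact_mod_cast lt_of_le_of_ne h2 h1.symm
  have hR0 : (0 : ℝ) < rng a b m K := by
    have : 0 < rng a b m K := by unfold rng; omega
    exact_mod_cast this
  have hlog : 0 ≤ (badR a b m K l + 8) * Real.log l := by
    have := badR_nonneg (a := a) (b := b) (m := m) (l := l) (Nat.cast_nonneg K : (0 : ℝ) ≤ K)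
    have h2 : 0 ≤ Real.log l := Real.log_natCast_nonneg _
    positivity
  have hKR : 0 ≤ (K : ℝ) * Real.log (rng a b m K) := by
    have := Real.log_natCast_nonneg (rng a b m K)
    positivity
  unfold bet
  by_cases h2 : l = 2
  · subst h2
    have h3 := local_two a b m K p q
    have h4 : ((padicNorm 2 (NN a b m K p q) : ℚ) : ℝ) ^ 2 ≤
        (rng a b m K : ℝ) ^ (2 * K) * (32 : ℝ) ^ ((K : ℤ) * (m - 2 * b) - K * (K - 1)) := by
      have h4' := (Rat.cast_le (K := ℝ)).2 h3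
      rw [Rat.cast_pow, Rat.cast_mul, Rat.cast_pow, Rat.cast_zpow, Rat.cast_natCast,
        Rat.cast_ofNat] at h4'
      exact h4'
    have h5 := Real.log_le_log (by positivity) h4
    rw [Real.log_pow, Real.log_mul (by positivity) (by positivity), Real.log_pow,
      Real.log_zpow, show (32 : ℝ) = 2 ^ 5 by norm_num, Real.log_pow] at h5
    rw [if_pos (Or.inr (by norm_num)), if_pos rfl, if_neg (by norm_num), T2]
    push_cast at h5 hlog ⊢
    have h6 : (K : ℝ) * (m - 2 * b) * (5 * Real.log 2) = 2 * (5 / 2 * Real.log 2 *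
      (K * (m - 2 * b))) := by ring
    have h7 : ((K : ℝ) * (m - 2 * b) - K * (K - 1)) * (5 * Real.log 2) = 2 * (5 / 2 * Real.log 2 *
      (K * (m - 2 * b) - K * (K - 1))) := by ring
    linarith
  by_cases h5 : l = 5
  · subst h5
    have h3 := local_five a b m K p q
    have h4 : ((padicNorm 5 (NN a b m K p q) : ℚ) : ℝ) ≤
        (rng a b m K : ℝ) ^ K * (5 : ℝ) ^ (2 * ∑ i ∈ range K, (m - (a + b + 2 * i))) := by
      exact_mod_cast h3
    have h6 := Real.log_le_log hpos h4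
    rw [Real.log_mul (by positivity) (by positivity), Real.log_pow, Real.log_pow] at h6
    rw [if_pos (Or.inr (by norm_num)), if_neg (by norm_num), if_pos rfl, T5]
    push_cast at h6 hlog ⊢
    linarith
  rw [if_neg h2, if_neg h5, add_zero, add_zero]
  by_cases h7 : l ^ 2 ≤ rng a b m K ∨ l < 7
  · rw [if_pos h7]
    have h3 := local_crude a b m K p q l hl h2 h5
    have h4 : ((padicNorm l (NN a b m K p q) : ℚ) : ℝ) ≤ (rng a b m K : ℝ) ^ K := by
      exact_mod_cast h3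
    have h6 := Real.log_le_log hpos h4
    rw [Real.log_pow] at h6
    linarith
  · rw [if_neg h7, add_zero]
    push Not at h7
    obtain ⟨e, he1, he2⟩ := local_odd a b m K p q l hl h7.2 h7.1
    have h4 : ((padicNorm l (NN a b m K p q) : ℚ) : ℝ) ≤ (l : ℝ) ^ e := by
      exact_mod_cast he1
    have h6 := Real.log_le_log hpos h4
    rw [Real.log_pow] at h6
    exact h6.trans (mul_le_mul_of_nonneg_right he2 (Real.log_natCast_nonneg _))

lemma log_NN_ge (a b m K : ℕ) (p q : ℤ) (hN : NN a b m K p q ≠ 0) :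
    -(∑ l ∈ (Ioc 0 (rng a b m K)).filter Nat.Prime, (badR a b m K l + 8) * Real.log l +
      (Real.sqrt (rng a b m K) + 7) * ((K : ℝ) * Real.log (rng a b m K)) +
      T2 b m K + T5 a b m K) ≤ Real.log |((NN a b m K p q : ℚ) : ℝ)| := by
  have h1 := log_abs_ge (NN a b m K p q) hN (rng a b m K) (bet a b m K)
    (fun l hl _ => log_norm_le a b m K p q hN l hl)
    (fun l hl hR => by
      have hR5 : 5 ≤ rng a b m K := by unfold rng; omega
      have : 7 ≤ l := by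
        have h6 : l ≠ 6 := by rintro rfl; exact absurd hl (by norm_num)
        omega
      exact local_big a b m K p q l hl this hR)
  refine le_trans ?_ h1
  rw [neg_le_neg_iff]
  unfold bet
  rw [sum_add_distrib, sum_add_distrib, sum_add_distrib]
  have hR5 : 5 ≤ rng a b m K := by unfold rng; omega
  have e2 : ∑ x ∈ (Ioc 0 (rng a b m K)).filter Nat.Prime, (if x = 2 then T2 b m K else 0) =
      T2 b m K := by
    rw [sum_ite_eq', if_pos]
    rw [Finset.mem_filter, mem_Ioc]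
    exact ⟨⟨by norm_num, by omega⟩, Nat.prime_two⟩
  have e5 : ∑ x ∈ (Ioc 0 (rng a b m K)).filter Nat.Prime, (if x = 5 then T5 a b m K else 0) =
      T5 a b m K := by
    rw [sum_ite_eq', if_pos]
    rw [Finset.mem_filter, mem_Ioc]
    exact ⟨⟨by norm_num, by omega⟩, Nat.prime_five⟩
  rw [e2, e5]
  have hKR : 0 ≤ (K : ℝ) * Real.log (rng a b m K) := by
    have := Real.log_natCast_nonneg (rng a b m K)
    positivity
  have h3 : ∑ x ∈ (Ioc 0 (rng a b m K)).filter Nat.Prime,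
      (if x ^ 2 ≤ rng a b m K ∨ x < 7 then (K : ℝ) * Real.log (rng a b m K) else 0) ≤
      (Real.sqrt (rng a b m K) + 7) * ((K : ℝ) * Real.log (rng a b m K)) := by
    rw [← sum_filter, sum_const, nsmul_eq_mul]
    refine mul_le_mul_of_nonneg_right ?_ hKR
    have h4 : (((Ioc 0 (rng a b m K)).filter Nat.Prime).filter
        (fun x => x ^ 2 ≤ rng a b m K ∨ x < 7)) ⊆ range (Nat.sqrt (rng a b m K) + 7) := by
      intro x hx
      rw [Finset.mem_filter] at hx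
      rw [Finset.mem_range]
      rcases hx.2 with h | h
      · have : x ≤ Nat.sqrt (rng a b m K) := Nat.le_sqrt'.2 h
        omega
      · omega
    have h5 := card_le_card h4
    rw [card_range] at h5
    have h6 : ((Nat.sqrt (rng a b m K) : ℕ) : ℝ) ≤ Real.sqrt (rng a b m K) := Real.nat_sqrt_le_real_sqrt
    calc (_ : ℝ) ≤ ((Nat.sqrt (rng a b m K) + 7 : ℕ) : ℝ) := by exact_mod_cast h5
      _ ≤ _ := by push_cast; linarith
  linarith

/-! ### asymptotics -/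

/-- the arithmetic cost with window savings -/
noncomputable def cwin (K0 a0 b0 m0 : ℕ) : ℝ :=
  (∫ y in (0 : ℝ)..(2 * (m0 + 2 * K0 + a0 + 2 * b0) + 1), badR a0 b0 m0 K0 y) +
    ((m0 - (a0 + b0) : ℕ) : ℝ) ^ 2 / 2 * Real.log 5 -
    5 / 2 * K0 * (2 * (b0 : ℝ) + K0 - m0) * Real.log 2

lemma sum_bad_le (K0 a0 b0 m0 n κ : ℕ) (hn : 13 ≤ n) (hκ : κ ≤ 2) :
    ∑ l ∈ (Ioc 0 (rng (a0 * n) (b0 * n) (m0 * n) (K0 * n + κ))).filter Nat.Prime,
      (badR ((a0 * n : ℕ) : ℝ) ((b0 * n : ℕ) : ℝ) ((m0 * n : ℕ) : ℝ) ((K0 * n + κ : ℕ) : ℝ) l + 8) *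
        Real.log l ≤
      n * psum (badR a0 b0 m0 K0) n (2 * (m0 + 2 * K0 + a0 + 2 * b0) + 1) +
        12 * (Real.log 4 * ((2 * (m0 + 2 * K0 + a0 + 2 * b0) + 1) * n)) := by
  have hnR : (0 : ℝ) < n := by
    have : 0 < n := by omega
    exact_mod_cast this
  set X : ℝ := 2 * (m0 + 2 * K0 + a0 + 2 * b0) + 1 with hX
  have hX0 : 0 ≤ X * n := by positivity
  have h1 := Chebyshev.theta_le_log4_mul_x hX0
  have hsub : (Ioc 0 (rng (a0 * n) (b0 * n) (m0 * n) (K0 * n + κ))).filter Nat.Prime ⊆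
      (Ioc 0 ⌊X * n⌋₊).filter Nat.Prime := by
    intro l hl
    rw [Finset.mem_filter, mem_Ioc] at hl ⊢
    refine ⟨⟨hl.1.1, hl.1.2.trans ((Nat.le_floor_iff hX0).2 ?_)⟩, hl.2⟩
    have h2 : rng (a0 * n) (b0 * n) (m0 * n) (K0 * n + κ) ≤
        (2 * (m0 + 2 * K0 + a0 + 2 * b0) + 1) * n := by
      unfold rng
      have e1 : 2 * (m0 * n + 2 * (K0 * n + κ) + a0 * n + 2 * (b0 * n)) + 5 =
        2 * (m0 + 2 * K0 + a0 + 2 * b0) * n + (4 * κ + 5) := by ring
      rw [e1, add_mul, one_mul]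
      omega
    calc ((rng (a0 * n) (b0 * n) (m0 * n) (K0 * n + κ) : ℕ) : ℝ) ≤
        (((2 * (m0 + 2 * K0 + a0 + 2 * b0) + 1) * n : ℕ) : ℝ) := by exact_mod_cast h2
      _ = X * n := by rw [hX]; push_cast; ring
  have hφ0 : ∀ y, 0 ≤ badR a0 b0 m0 K0 y := fun y => badR_nonneg (Nat.cast_nonneg K0)
  have h3 : ∀ l : ℕ, (badR ((a0 * n : ℕ) : ℝ) ((b0 * n : ℕ) : ℝ) ((m0 * n : ℕ) : ℝ)
      ((K0 * n + κ : ℕ) : ℝ) l + 8) * Real.log l ≤
      n * (badR a0 b0 m0 K0 ((l : ℝ) / n) * Real.log l) + 12 * Real.log l := by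
    intro l
    have h4 := badR_scale a0 b0 m0 K0 l hnR κ (Nat.cast_nonneg _)
    have hκ' : (κ : ℝ) ≤ 2 := by exact_mod_cast hκ
    have h5 := Real.log_natCast_nonneg l
    push_cast
    have h6 : badR ((a0 : ℝ) * n) (b0 * n) (m0 * n) (K0 * n + κ) l + 8 ≤
        n * badR a0 b0 m0 K0 ((l : ℝ) / n) + 12 := by linarith
    have h7 := mul_le_mul_of_nonneg_right h6 h5
    linarith
  calc _ ≤ ∑ l ∈ (Ioc 0 (rng (a0 * n) (b0 * n) (m0 * n) (K0 * n + κ))).filter Nat.Prime,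
        (n * (badR a0 b0 m0 K0 ((l : ℝ) / n) * Real.log l) + 12 * Real.log l) :=
        sum_le_sum fun l _ => h3 l
    _ ≤ ∑ l ∈ (Ioc 0 ⌊X * n⌋₊).filter Nat.Prime,
        (n * (badR a0 b0 m0 K0 ((l : ℝ) / n) * Real.log l) + 12 * Real.log l) := by
        refine sum_le_sum_of_subset_of_nonneg hsub fun l _ _ => ?_
        have := hφ0 ((l : ℝ) / n)
        have h5 := Real.log_natCast_nonneg l
        positivity
    _ = n * psum (badR a0 b0 m0 K0) n X + 12 * Chebyshev.theta (X * n) := by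
        rw [sum_add_distrib, ← mul_sum, ← mul_sum, psum, Chebyshev.theta]
    _ ≤ _ := by linarith

lemma T5_le (K0 a0 b0 m0 n κ : ℕ) : T5 (a0 * n) (b0 * n) (m0 * n) (K0 * n + κ) ≤
    ((m0 - (a0 + b0) : ℕ) : ℝ) ^ 2 / 2 * Real.log 5 * n ^ 2 +
      (((m0 - (a0 + b0) : ℕ) : ℝ) * n + 1) * Real.log 5 := by
  have h1 := four_mul_sum_le (K0 * n + κ) ((m0 - (a0 + b0)) * n)
  have e1 : ∀ i, m0 * n - (a0 * n + b0 * n + 2 * i) = (m0 - (a0 + b0)) * n - 2 * i := by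
    intro i
    rw [Nat.sub_mul, add_mul]
    omega
  unfold T5
  simp_rw [e1]
  have h2 : 4 * ((∑ i ∈ range (K0 * n + κ), ((m0 - (a0 + b0)) * n - 2 * i) : ℕ) : ℝ) ≤
      (((m0 - (a0 + b0) : ℕ) : ℝ) * n + 1) ^ 2 := by exact_mod_cast h1
  have h5 : 0 < Real.log 5 := Real.log_pos (by norm_num)
  nlinarith

lemma T2_le (K0 b0 m0 n κ : ℕ) (hκ : κ ≤ 2) : T2 (b0 * n) (m0 * n) (K0 * n + κ) ≤
    -(5 / 2 * K0 * (2 * (b0 : ℝ) + K0 - m0) * Real.log 2) * n ^ 2 +
      5 / 2 * Real.log 2 * ((2 * m0 + K0) * n + 2) := by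
  unfold T2
  have h2 : 0 < Real.log 2 := Real.log_pos (by norm_num)
  have hκ' : (κ : ℝ) ≤ 2 := by exact_mod_cast hκ
  have hκ0 : (0 : ℝ) ≤ κ := Nat.cast_nonneg _
  have hn0 : (0 : ℝ) ≤ n := Nat.cast_nonneg _
  have hb0 : (0 : ℝ) ≤ b0 := Nat.cast_nonneg _
  have hm0 : (0 : ℝ) ≤ m0 := Nat.cast_nonneg _
  have hK0 : (0 : ℝ) ≤ K0 := Nat.cast_nonneg _
  push_cast
  have h3 : ((K0 : ℝ) * n + κ) * (m0 * n - 2 * (b0 * n)) - (K0 * n + κ) * (K0 * n + κ - 1) ≤
      -(K0 * (2 * (b0 : ℝ) + K0 - m0)) * n ^ 2 + ((2 * m0 + K0) * n + 2) := by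
    have e1 : ((K0 : ℝ) * n + κ) * (m0 * n - 2 * (b0 * n)) - (K0 * n + κ) * (K0 * n + κ - 1) =
      -(K0 * (2 * (b0 : ℝ) + K0 - m0)) * n ^ 2 + (κ * (m0 * n) - 2 * κ * (b0 * n) -
        2 * κ * (K0 * n) + K0 * n - κ ^ 2 + κ) := by ring
    rw [e1]
    have h4 : (κ : ℝ) * (m0 * n) ≤ 2 * (m0 * n) := mul_le_mul_of_nonneg_right hκ' (by positivity)
    have h5 : 0 ≤ 2 * (κ : ℝ) * (b0 * n) := by positivity
    have h6 : 0 ≤ 2 * (κ : ℝ) * (K0 * n) := by positivity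
    nlinarith [sq_nonneg (κ : ℝ)]
  nlinarith

/-- the constant bounding the range -/
noncomputable def XR (K0 a0 b0 m0 : ℕ) : ℝ := 2 * (m0 + 2 * K0 + a0 + 2 * b0) + 1

lemma XR_pos (K0 a0 b0 m0 : ℕ) : 1 ≤ XR K0 a0 b0 m0 := by
  unfold XR
  have : (0 : ℝ) ≤ 2 * (m0 + 2 * K0 + a0 + 2 * b0) := by positivity
  linarith

lemma rng_le (K0 a0 b0 m0 n κ : ℕ) (hn : 13 ≤ n) (hκ : κ ≤ 2) :
    (rng (a0 * n) (b0 * n) (m0 * n) (K0 * n + κ) : ℝ) ≤ XR K0 a0 b0 m0 * n := by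
  have h2 : rng (a0 * n) (b0 * n) (m0 * n) (K0 * n + κ) ≤
      (2 * (m0 + 2 * K0 + a0 + 2 * b0) + 1) * n := by
    unfold rng
    have e1 : 2 * (m0 * n + 2 * (K0 * n + κ) + a0 * n + 2 * (b0 * n)) + 5 =
      2 * (m0 + 2 * K0 + a0 + 2 * b0) * n + (4 * κ + 5) := by ring
    rw [e1, add_mul, one_mul]
    omega
  calc ((rng (a0 * n) (b0 * n) (m0 * n) (K0 * n + κ) : ℕ) : ℝ) ≤
      (((2 * (m0 + 2 * K0 + a0 + 2 * b0) + 1) * n : ℕ) : ℝ) := by exact_mod_cast h2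
    _ = XR K0 a0 b0 m0 * n := by unfold XR; push_cast; ring

lemma sqrt_log_small {X η : ℝ} (hX : 0 < X) (hη : 0 < η) :
    ∀ᶠ n : ℕ in atTop, (Real.sqrt (X * n) + 7) * Real.log (X * n) ≤ η * (X * n) := by
  have h1 : (fun x : ℝ => (Real.sqrt x + 7) * Real.log x) =o[atTop] (fun x : ℝ => x) := by
    have h2 : (fun x : ℝ => Real.sqrt x + 7) =O[atTop] (fun x : ℝ => x ^ (1 / 2 : ℝ)) := by
      refine Asymptotics.IsBigO.of_bound 8 ?_
      filter_upwards [eventually_ge_atTop 1] with x hx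
      have h3 : 1 ≤ Real.sqrt x := Real.one_le_sqrt.2 hx
      rw [← Real.sqrt_eq_rpow, Real.norm_of_nonneg (by positivity),
        Real.norm_of_nonneg (by positivity)]
      linarith
    have h4 := h2.mul_isLittleO (isLittleO_log_rpow_atTop (r := 1 / 2) (by norm_num))
    refine h4.congr' (EventuallyEq.rfl) ?_
    filter_upwards [eventually_gt_atTop 0] with x hx
    rw [← Real.rpow_add hx]
    norm_num
  have h0 : Tendsto (fun n : ℕ => X * (n : ℝ)) atTop atTop :=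
    tendsto_natCast_atTop_atTop.const_mul_atTop hX
  have h5 := (h1.bound hη)
  filter_upwards [h0.eventually h5] with n hn
  have h6 : (0 : ℝ) ≤ X * n := by positivity
  rw [Real.norm_of_nonneg h6] at hn
  exact (le_abs_self _).trans hn

lemma mid_le {R Y k A Z : ℝ} (hR : 1 ≤ R) (hRY : R ≤ Y) (hk0 : 0 ≤ k) (hk : k ≤ A)
    (hZ : (Real.sqrt Y + 7) * Real.log Y ≤ Z) :
    (Real.sqrt R + 7) * (k * Real.log R) ≤ A * Z := by
  have h1 : Real.sqrt R ≤ Real.sqrt Y := Real.sqrt_le_sqrt hRY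
  have h2 : Real.log R ≤ Real.log Y := Real.log_le_log (by linarith) hRY
  have h3 : 0 ≤ Real.log R := Real.log_nonneg hR
  have h4 := Real.sqrt_nonneg R
  have h5 : 0 ≤ (Real.sqrt Y + 7) * Real.log Y := by
    have := h3.trans h2
    positivity
  calc (Real.sqrt R + 7) * (k * Real.log R) = k * ((Real.sqrt R + 7) * Real.log R) := by ring
    _ ≤ k * ((Real.sqrt Y + 7) * Real.log Y) :=
        mul_le_mul_of_nonneg_left (mul_le_mul (by linarith) h2 h3 (by positivity)) hk0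
    _ ≤ k * Z := mul_le_mul_of_nonneg_left hZ hk0
    _ ≤ A * Z := mul_le_mul_of_nonneg_right hk (h5.trans hZ)

lemma lin_le {X M n k m0 K0 l2 l4 l5 : ℝ} (hn : 1 ≤ n) (h2 : 0 ≤ l2)
    (h5 : 0 ≤ l5) (hk : k ≤ (K0 + 2) * n) :
    12 * (l4 * (X * n)) + (M * n + 1) * l5 + 5 / 2 * l2 * ((2 * m0 + K0) * n + 2) + k * l2 ≤
      (12 * (l4 * X) + (M + 1) * l5 + 5 / 2 * l2 * (2 * m0 + K0 + 2) + (K0 + 2) * l2) * n := by
  have e3 : (M * n + 1) * l5 ≤ (M + 1) * n * l5 := mul_le_mul_of_nonneg_right (by linarith) h5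
  have e4 : 5 / 2 * l2 * ((2 * m0 + K0) * n + 2) ≤ 5 / 2 * l2 * ((2 * m0 + K0 + 2) * n) :=
    mul_le_mul_of_nonneg_left (by linarith) (by positivity)
  have e5 : k * l2 ≤ (K0 + 2) * n * l2 := mul_le_mul_of_nonneg_right hk h2
  have e6 : (12 * (l4 * X) + (M + 1) * l5 + 5 / 2 * l2 * (2 * m0 + K0 + 2) + (K0 + 2) * l2) * n =
    12 * (l4 * (X * n)) + (M + 1) * n * l5 + 5 / 2 * l2 * ((2 * m0 + K0 + 2) * n) +
      (K0 + 2) * n * l2 := by ring
  rw [e6]
  linarith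

lemma log_NN_eq (a b m K : ℕ) (p q : ℤ) (hq : 0 < q)
    (hdet : (HM ((p : ℝ) / q) a b m K).det ≠ 0) :
    Real.log |((NN a b m K p q : ℚ) : ℝ)| =
      (K : ℝ) * Real.log 2 + Real.log ((q : ℝ) ^ K * |(HM ((p : ℝ) / q) a b m K).det|) := by
  have hqR : (0 : ℝ) < q := by exact_mod_cast hq
  have h1 : (0 : ℝ) < (q : ℝ) ^ K * |(HM ((p : ℝ) / q) a b m K).det| :=
    mul_pos (pow_pos hqR K) (abs_pos.2 hdet)
  have h2 : (0 : ℝ) < (2 * (q : ℝ)) ^ K := pow_pos (by linarith) K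
  have h3 : |((NN a b m K p q : ℚ) : ℝ)| = 2 ^ K * ((q : ℝ) ^ K *
      |(HM ((p : ℝ) / q) a b m K).det|) := by
    rw [NN_eq a b m K p q hq, abs_mul, abs_of_pos h2, mul_pow, mul_assoc]
  rw [h3, Real.log_mul (pow_ne_zero K (by norm_num)) h1.ne', Real.log_pow]

theorem arith_lower_win (K0 a0 b0 m0 : ℕ) {ε : ℝ} (hε : 0 < ε) :
    ∀ᶠ n : ℕ in atTop, ∀ κ ≤ 2, ∀ p q : ℤ, 0 < q →
      (HM ((p : ℝ) / q) (a0 * n) (b0 * n) (m0 * n) (K0 * n + κ)).det ≠ 0 →
      Real.exp (-(cwin K0 a0 b0 m0 + ε) * (n : ℝ) ^ 2) ≤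
        (q : ℝ) ^ (K0 * n + κ) *
          |(HM ((p : ℝ) / q) (a0 * n) (b0 * n) (m0 * n) (K0 * n + κ)).det| := by
  set X : ℝ := XR K0 a0 b0 m0 with hXdef
  have hX1 : 1 ≤ X := XR_pos K0 a0 b0 m0
  have hX0 : 0 < X := by linarith
  set η : ℝ := ε / (4 * (K0 + 2) * X) with hη
  have hη0 : 0 < η := by positivity
  have hη1 : (K0 + 2) * (η * X) = ε / 4 := by rw [hη]; field_simp
  set M : ℝ := ((m0 - (a0 + b0) : ℕ) : ℝ) with hM
  have hM0 : 0 ≤ M := Nat.cast_nonneg _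
  have hl2 : 0 < Real.log 2 := Real.log_pos (by norm_num)
  have hl4 : 0 < Real.log 4 := Real.log_pos (by norm_num)
  have hl5 : 0 < Real.log 5 := Real.log_pos (by norm_num)
  set B : ℝ := 12 * (Real.log 4 * X) + (M + 1) * Real.log 5 +
    5 / 2 * Real.log 2 * (2 * m0 + K0 + 2) + (K0 + 2) * Real.log 2 with hB
  have hB0 : 0 ≤ B := by rw [hB]; positivity
  obtain ⟨N0, hN0⟩ := exists_nat_gt (4 * B / ε)
  filter_upwards [psum_le_integral (φ := badR a0 b0 m0 K0) hX0 (by norm_num : (0 : ℝ) ≤ 6)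
    (badR_lip a0 b0 m0 K0) (by positivity : 0 < ε / 4), sqrt_log_small hX0 hη0,
    eventually_ge_atTop (N0 + 13)] with n hn1 hn2 hn3 κ hκ p q hq hdet
  have hn13 : 13 ≤ n := by omega
  have hnR : (1 : ℝ) ≤ n := by
    have : 1 ≤ n := by omega
    exact_mod_cast this
  have hnB : B * n ≤ ε / 4 * n ^ 2 := by
    have h1 : (N0 : ℝ) ≤ n := by
      have : N0 ≤ n := by omega
      exact_mod_cast this
    have h2 : 4 * B / ε < n := hN0.trans_le h1
    rw [div_lt_iff₀ hε] at h2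
    nlinarith
  have hκR : (κ : ℝ) ≤ 2 := by exact_mod_cast hκ
  have hκ0 : (0 : ℝ) ≤ κ := Nat.cast_nonneg _
  have hqR : (0 : ℝ) < q := by exact_mod_cast hq
  have hNN := NN_eq (a0 * n) (b0 * n) (m0 * n) (K0 * n + κ) p q hq
  have hNNR : ((NN (a0 * n) (b0 * n) (m0 * n) (K0 * n + κ) p q : ℚ) : ℝ) ≠ 0 := by
    rw [hNN]
    exact mul_ne_zero (pow_ne_zero _ (by positivity)) hdet
  have hNN0 : NN (a0 * n) (b0 * n) (m0 * n) (K0 * n + κ) p q ≠ 0 := by
    exact_mod_cast hNNR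
  have h3 := log_NN_ge _ _ _ _ p q hNN0
  have h4 := sum_bad_le K0 a0 b0 m0 n κ hn13 hκ
  have h5 := T5_le K0 a0 b0 m0 n κ
  have h6 := T2_le K0 b0 m0 n κ hκ
  have h7 := rng_le K0 a0 b0 m0 n κ hn13 hκ
  have hrng1 : (1 : ℝ) ≤ rng (a0 * n) (b0 * n) (m0 * n) (K0 * n + κ) := by
    have : 1 ≤ rng (a0 * n) (b0 * n) (m0 * n) (K0 * n + κ) := by unfold rng; omega
    exact_mod_cast this
  have hXR : 2 * ((m0 : ℝ) + 2 * K0 + a0 + 2 * b0) + 1 = X := rfl
  rw [hXR] at h4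
  rw [← hM] at h5
  rw [← hXdef] at h7
  have h12 : ((K0 * n + κ : ℕ) : ℝ) ≤ (K0 + 2) * n := by
    push_cast
    nlinarith
  have h8 : (Real.sqrt (rng (a0 * n) (b0 * n) (m0 * n) (K0 * n + κ)) + 7) *
      (((K0 * n + κ : ℕ) : ℝ) * Real.log (rng (a0 * n) (b0 * n) (m0 * n) (K0 * n + κ))) ≤
      ε / 4 * n ^ 2 := by
    have h13 := mid_le hrng1 h7 (Nat.cast_nonneg (K0 * n + κ)) h12 hn2
    have h14 : ((K0 : ℝ) + 2) * n * (η * (X * n)) = ((K0 + 2) * (η * X)) * n ^ 2 := by ring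
    rw [h14, hη1] at h13
    exact h13
  have h9 : (n : ℝ) * psum (badR a0 b0 m0 K0) n X ≤
      (∫ y in (0 : ℝ)..X, badR a0 b0 m0 K0 y) * n ^ 2 + ε / 4 * n ^ 2 := by
    have := mul_le_mul_of_nonneg_left hn1 (by linarith : (0 : ℝ) ≤ n)
    calc _ ≤ _ := this
      _ = _ := by ring
  have hlogeq := log_NN_eq (a0 * n) (b0 * n) (m0 * n) (K0 * n + κ) p q hq hdet
  have hfin : -(cwin K0 a0 b0 m0 + ε) * (n : ℝ) ^ 2 ≤ Real.log ((q : ℝ) ^ (K0 * n + κ) *
          |(HM ((p : ℝ) / q) (a0 * n) (b0 * n) (m0 * n) (K0 * n + κ)).det|) := by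
    have e1 : cwin K0 a0 b0 m0 * (n : ℝ) ^ 2 = (∫ y in (0 : ℝ)..X, badR a0 b0 m0 K0 y) * n ^ 2 +
      M ^ 2 / 2 * Real.log 5 * n ^ 2 +
      -(5 / 2 * K0 * (2 * (b0 : ℝ) + K0 - m0) * Real.log 2) * n ^ 2 := by
      rw [cwin, hXR, ← hM]; ring
    have e2 : 12 * (Real.log 4 * (X * n)) + (M * n + 1) * Real.log 5 +
        5 / 2 * Real.log 2 * ((2 * m0 + K0) * n + 2) +
        ((K0 * n + κ : ℕ) : ℝ) * Real.log 2 ≤ B * n := by
      rw [hB]
      exact lin_le hnR hl2.le hl5.le h12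
    have e6 : -(cwin K0 a0 b0 m0 + ε) * (n : ℝ) ^ 2 = -(cwin K0 a0 b0 m0 * (n : ℝ) ^ 2) -
      ε * n ^ 2 := by ring
    rw [e6, e1]
    rw [hlogeq] at h3
    have e7 : 0 ≤ ε * (n : ℝ) ^ 2 := by positivity
    linarith
  have hpos : 0 < (q : ℝ) ^ (K0 * n + κ) *
      |(HM ((p : ℝ) / q) (a0 * n) (b0 * n) (m0 * n) (K0 * n + κ)).det| := by
    have := abs_pos.2 hdet
    positivity
  exact (Real.le_log_iff_exp_le hpos).1 hfin

end Vale.Agent.P021.Det
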