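import Vale.Agent.P021.Det.Rec

/-! P021, determinant method: the coefficient functional `Bet` as an integral along a polygon in
the closed upper half plane, from a point `x2 > 5` to a point `x1 ∈ (-5,5)`. -/

open Polynomial Filter Topology

namespace Vale.Agent.P021.Det

/-- the closed upper half plane without `±5` -/
def BP_U : Set ℂ := {s : ℂ | 0 ≤ s.im ∧ s ≠ 5 ∧ s ≠ -5}

theorem BP_tau_ne {s : ℂ} (hs : s ∈ BP_U) : tau s ≠ 0 := by
  intro h
  have h1 : (s - 5) * (s + 5) = 0 := by unfold tau at h; linear_combination h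
  rcases mul_eq_zero.1 h1 with h2 | h2
  · exact hs.2.1 (by linear_combination h2)
  · exact hs.2.2 (by linear_combination h2)

/-- the fundamental theorem of calculus on a segment in `U` -/
theorem BP_segI_prim {U : Set ℂ} {f G : ℂ → ℂ} (hG : ∀ s ∈ U, HasDerivAt G (f s) s)
    (hf : ∀ s ∈ U, ContinuousAt f s) {u v : ℂ} (hU : segment ℝ u v ⊆ U) :
    segI f u v = G v - G u := by
  have hγ : ∀ t : ℝ, HasDerivAt (fun t : ℝ => u + (t : ℂ) * (v - u)) (v - u) t := by
    intro t
    have h1 : HasDerivAt (fun t : ℝ => (t : ℂ)) 1 t := Complex.ofRealCLM.hasDerivAt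
    simpa using (h1.mul_const (v - u)).const_add u
  have hder : ∀ t ∈ Set.uIcc (0 : ℝ) 1, HasDerivAt (fun t : ℝ => G (u + (t : ℂ) * (v - u)))
      (f (u + (t : ℂ) * (v - u)) * (v - u)) t := by
    intro t ht
    rw [Set.uIcc_of_le zero_le_one] at ht
    exact (hG _ (hU (Path_seg_mem u v ht.1 ht.2))).comp t (hγ t)
  have hcont : ContinuousOn (fun t : ℝ => f (u + (t : ℂ) * (v - u)) * (v - u))
      (Set.uIcc (0 : ℝ) 1) := by
    intro t ht
    rw [Set.uIcc_of_le zero_le_one] at ht
    apply ContinuousAt.continuousWithinAt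
    apply ContinuousAt.mul _ continuousAt_const
    exact ContinuousAt.comp (f := fun t : ℝ => u + (t : ℂ) * (v - u))
      (hf _ (hU (Path_seg_mem u v ht.1 ht.2))) (hγ t).continuousAt
  have h := intervalIntegral.integral_eq_sub_of_hasDerivAt hder hcont.intervalIntegrable
  unfold segI
  rw [intervalIntegral.integral_mul_const] at h
  rw [mul_comm, h]
  simp

theorem BP_pathI_prim {U : Set ℂ} {f G : ℂ → ℂ} (hG : ∀ s ∈ U, HasDerivAt G (f s) s)
    (hf : ∀ s ∈ U, ContinuousAt f s) (l : List ℂ) (hs : PathIn U l)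
    {u w : ℂ} (hh : l.head? = some u) (hl : l.getLast? = some w) : pathI f l = G w - G u := by
  induction l generalizing u with
  | nil => simp at hh
  | cons a l ih =>
    cases l with
    | nil =>
      simp at hh hl
      subst hh; subst hl
      simp [pathI]
    | cons b l =>
      have hau : a = u := by simpa using hh
      have h1 := ih hs.2 (u := b) (by simp) (by simpa using hl)
      show segI f a b + pathI f (b :: l) = _
      rw [h1, BP_segI_prim hG hf hs.1, ← hau]
      ring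

theorem BP_segI_add {U : Set ℂ} {f g : ℂ → ℂ} (hf : ∀ s ∈ U, ContinuousAt f s)
    (hg : ∀ s ∈ U, ContinuousAt g s) {u v : ℂ} (hU : segment ℝ u v ⊆ U) :
    segI (fun s => f s + g s) u v = segI f u v + segI g u v := by
  have hint : ∀ f : ℂ → ℂ, (∀ s ∈ U, ContinuousAt f s) →
      IntervalIntegrable (fun t : ℝ => f (u + (t : ℂ) * (v - u))) MeasureTheory.volume 0 1 := by
    intro f hf
    apply ContinuousOn.intervalIntegrable
    intro t ht
    rw [Set.uIcc_of_le zero_le_one] at ht
    apply ContinuousAt.continuousWithinAt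
    exact ContinuousAt.comp (f := fun t : ℝ => u + (t : ℂ) * (v - u))
      (hf _ (hU (Path_seg_mem u v ht.1 ht.2))) (by fun_prop)
  unfold segI
  rw [intervalIntegral.integral_add (hint f hf) (hint g hg)]
  ring

theorem BP_pathI_add {U : Set ℂ} {f g : ℂ → ℂ} (hf : ∀ s ∈ U, ContinuousAt f s)
    (hg : ∀ s ∈ U, ContinuousAt g s) (l : List ℂ) (hs : PathIn U l) :
    pathI (fun s => f s + g s) l = pathI f l + pathI g l := by
  induction l with
  | nil => simp [pathI]
  | cons a l ih =>
    cases l with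
    | nil => simp [pathI]
    | cons b l =>
      show segI _ a b + pathI _ (b :: l) = (segI f a b + pathI f (b :: l)) +
        (segI g a b + pathI g (b :: l))
      rw [ih hs.2, BP_segI_add hf hg hs.1]
      ring

theorem BP_pathI_sum {U : Set ℂ} {ι : Type} (t : Finset ι) (f : ι → ℂ → ℂ)
    (hf : ∀ i ∈ t, ∀ s ∈ U, ContinuousAt (f i) s) (l : List ℂ)
    (hs : PathIn U l) :
    pathI (fun s => ∑ i ∈ t, f i s) l = ∑ i ∈ t, pathI (f i) l := by
  classical
  induction t using Finset.induction_on with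
  | empty => simpa using Path_pathI_zero l
  | insert i t hi ih =>
    have h1 : (fun s => ∑ j ∈ insert i t, f j s) = fun s => f i s + ∑ j ∈ t, f j s := by
      funext s; rw [Finset.sum_insert hi]
    rw [h1, Finset.sum_insert hi, BP_pathI_add (hf i (Finset.mem_insert_self i t)) _ l hs,
      ih (fun j hj => hf j (Finset.mem_insert_of_mem hj))]
    intro s hs'
    exact tendsto_finsetSum t (fun j hj => hf j (Finset.mem_insert_of_mem hj) s hs')

theorem BP_cont_zpow (k : ℤ) {s : ℂ} (hs : s ∈ BP_U) :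
    ContinuousAt (fun s => tau s ^ k) s := by
  apply ContinuousAt.zpow₀
  · unfold tau; fun_prop
  · left; exact BP_tau_ne hs

theorem BP_rec (l : List ℂ) (x1 x2 : ℝ) (hh : l.head? = some (x2 : ℂ))
    (hl : l.getLast? = some (x1 : ℂ)) (hs : PathIn BP_U l) (k : ℤ) :
    (2 * (k : ℝ) + 1) * (pathI (fun s => (tau s) ^ k) l).im +
      50 * (k : ℝ) * (pathI (fun s => (tau s) ^ (k - 1)) l).im = 0 := by
  have h1 := BP_pathI_prim (f := fun s => (2 * (k : ℂ) + 1) * tau s ^ k +
    50 * (k : ℂ) * tau s ^ (k - 1)) (G := fun s => s * tau s ^ k)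
    (fun s hs => CI_hasDerivAt k (BP_tau_ne hs))
    (fun s hs => ((BP_cont_zpow k hs).const_mul _).add ((BP_cont_zpow (k - 1) hs).const_mul _))
    l hs hh hl
  rw [BP_pathI_add (fun s hs => (BP_cont_zpow k hs).const_mul _)
    (fun s hs => (BP_cont_zpow (k - 1) hs).const_mul _) l hs, Path_pathI_smul,
    Path_pathI_smul] at h1
  have h2 := congrArg Complex.im h1
  have h4 : ∀ x : ℝ, ((x : ℂ) * tau (x : ℂ) ^ k).im = 0 := by
    intro x
    have : (x : ℂ) * tau (x : ℂ) ^ k = ((x * (x ^ 2 - 25) ^ k : ℝ) : ℂ) := by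
      unfold tau; push_cast; rfl
    rw [this, Complex.ofReal_im]
  have h5 : ((2 * (k : ℂ) + 1) * pathI (fun s => tau s ^ k) l).im =
      (2 * (k : ℝ) + 1) * (pathI (fun s => tau s ^ k) l).im := by
    have : (2 * (k : ℂ) + 1) = ((2 * (k : ℝ) + 1 : ℝ) : ℂ) := by push_cast; rfl
    rw [this, Complex.im_ofReal_mul]
  have h6 : ((50 * (k : ℂ)) * pathI (fun s => tau s ^ (k - 1)) l).im =
      (50 * (k : ℝ)) * (pathI (fun s => tau s ^ (k - 1)) l).im := by
    have : (50 * (k : ℂ)) = ((50 * (k : ℝ) : ℝ) : ℂ) := by push_cast; rfl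
    rw [this, Complex.im_ofReal_mul]
  rw [Complex.add_im, h5, h6, Complex.sub_im, h4, h4] at h2
  linarith

theorem BP_slit {a : ℝ} {s : ℂ} (h0 : 0 ≤ s.im) (hne : s ≠ (a : ℂ)) :
    -Complex.I * (s - a) ∈ Complex.slitPlane := by
  rw [Complex.mem_slitPlane_iff]
  have hre : (-Complex.I * (s - a)).re = s.im := by simp
  have him : (-Complex.I * (s - a)).im = -(s.re - a) := by simp
  rw [hre, him]
  rcases h0.lt_or_eq with h | h
  · exact Or.inl h
  · right
    intro h2
    apply hne
    apply Complex.ext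
    · simp; linarith
    · simp [← h]

theorem BP_log_deriv {s : ℂ} (hs : s ∈ BP_U) :
    HasDerivAt (fun s => (1 / 10 : ℂ) * (Complex.log (-Complex.I * (s - ((5 : ℝ) : ℂ))) -
      Complex.log (-Complex.I * (s - ((-5 : ℝ) : ℂ))))) (tau s ^ (-1 : ℤ)) s := by
  have e1 : s ≠ ((5 : ℝ) : ℂ) := by
    intro h; apply hs.2.1; rw [h]; norm_num
  have e2 : s ≠ ((-5 : ℝ) : ℂ) := by
    intro h; apply hs.2.2; rw [h]; norm_num
  have hd : ∀ a : ℝ, HasDerivAt (fun s : ℂ => -Complex.I * (s - (a : ℂ))) (-Complex.I) s := by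
    intro a
    simpa using ((hasDerivAt_id s).sub_const (a : ℂ)).const_mul (-Complex.I)
  have h1 := (hd 5).clog (BP_slit hs.1 e1)
  have h2 := (hd (-5)).clog (BP_slit hs.1 e2)
  have h3 := (h1.sub h2).const_mul (1 / 10 : ℂ)
  refine h3.congr_deriv ?_
  have h6 := BP_tau_ne hs
  have h7 : s - 5 ≠ 0 := by
    intro h; apply hs.2.1; linear_combination h
  have h8 : s + 5 ≠ 0 := by
    intro h; apply hs.2.2; linear_combination h
  have h9 : tau s = (s - 5) * (s + 5) := by unfold tau; ring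
  rw [zpow_neg_one, h9]
  push_cast
  have hI := Complex.I_ne_zero
  rw [sub_neg_eq_add]
  field_simp
  ring

theorem BP_log_im_pos {a x : ℝ} (h : a < x) :
    (Complex.log (-Complex.I * ((x : ℂ) - (a : ℂ)))).im = -(Real.pi / 2) := by
  have h1 : -Complex.I * ((x : ℂ) - (a : ℂ)) = ((x - a : ℝ) : ℂ) * (-Complex.I) := by
    push_cast; ring
  rw [h1, Complex.log_im, Complex.arg_real_mul _ (by linarith), Complex.arg_neg_I]

theorem BP_log_im_neg {a x : ℝ} (h : x < a) :
    (Complex.log (-Complex.I * ((x : ℂ) - (a : ℂ)))).im = Real.pi / 2 := by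
  have h1 : -Complex.I * ((x : ℂ) - (a : ℂ)) = ((a - x : ℝ) : ℂ) * Complex.I := by
    push_cast; ring
  rw [h1, Complex.log_im, Complex.arg_real_mul _ (by linarith), Complex.arg_I]

theorem BP_neg_one (l : List ℂ) (x1 x2 : ℝ) (hh : l.head? = some (x2 : ℂ))
    (hl : l.getLast? = some (x1 : ℂ)) (h2 : 5 < x2) (h1 : -5 < x1) (h1' : x1 < 5)
    (hs : PathIn BP_U l) :
    (pathI (fun s => (tau s) ^ (-1 : ℤ)) l).im = Real.pi / 10 := by
  rw [BP_pathI_prim (fun s hs => BP_log_deriv hs) (fun s hs => BP_cont_zpow (-1) hs) l hs hh hl]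
  have h9 : (1 / 10 : ℂ) = ((1 / 10 : ℝ) : ℂ) := by push_cast; rfl
  rw [Complex.sub_im, h9, Complex.im_ofReal_mul, Complex.im_ofReal_mul, Complex.sub_im,
    Complex.sub_im, BP_log_im_neg h1', BP_log_im_pos h1, BP_log_im_pos h2,
    BP_log_im_pos (show (-5 : ℝ) < x2 by linarith)]
  ring

theorem BP_aco (l : List ℂ) (x1 x2 : ℝ) (hh : l.head? = some (x2 : ℂ))
    (hl : l.getLast? = some (x1 : ℂ)) (h2 : 5 < x2) (h1 : -5 < x1) (h1' : x1 < 5)
    (hs : PathIn BP_U l) (k : ℤ) :
    (pathI (fun s => (tau s) ^ k) l).im = -Real.pi * (aco k : ℝ) := by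
  have h := Path_unique (fun k => lam 0 k + (pathI (fun s => (tau s) ^ k) l).im)
    (fun k => lam 0 k + -Real.pi * (aco k : ℝ)) ?_ ?_ ?_ k
  · simpa using h
  · intro k
    have e1 := lam_rec 0 k
    have e2 := BP_rec l x1 x2 hh hl hs k
    linear_combination e1 + e2
  · intro k
    have e1 := lam_rec 0 k
    have e2 := Rec_aco k
    linear_combination e1 - Real.pi * e2
  · have e1 := BP_neg_one l x1 x2 hh hl h2 h1 h1' hs
    have e2 : (aco (-1) : ℝ) = -(1 / 10) := by
      have : aco (-1) = -(1 / 10) := by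
        rw [aco]; norm_num
      rw [this]; push_cast; ring
    simp only [e1, e2]
    ring

theorem BP_norm_pathI_le (f : ℂ → ℂ) (M : ℝ) (S : Set ℂ) (l : List ℂ)
    (hS : PathIn S l) (hf : ∀ s ∈ S, ‖f s‖ ≤ M) : ‖pathI f l‖ ≤ Path_len l * M := by
  induction l with
  | nil => simp [pathI, Path_len]
  | cons a l ih =>
    cases l with
    | nil => simp [pathI, Path_len]
    | cons b l =>
      have h1 := ih hS.2
      show ‖segI f a b + pathI f (b :: l)‖ ≤ (‖b - a‖ + Path_len (b :: l)) * M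
      have h2 : ‖segI f a b‖ ≤ ‖b - a‖ * M := by
        unfold segI
        rw [norm_mul]
        apply mul_le_mul_of_nonneg_left _ (norm_nonneg _)
        have h3 := intervalIntegral.norm_integral_le_of_norm_le_const (a := (0 : ℝ)) (b := 1)
          (f := fun t : ℝ => f (a + (t : ℂ) * (b - a))) (C := M) ?_
        · simpa using h3
        · intro t ht
          rw [Set.uIoc_of_le zero_le_one] at ht
          exact hf _ (hS.1 (Path_seg_mem a b ht.1.le ht.2))
      calc ‖segI f a b + pathI f (b :: l)‖ ≤ ‖segI f a b‖ + ‖pathI f (b :: l)‖ := norm_add_le _ _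
        _ ≤ ‖b - a‖ * M + Path_len (b :: l) * M := add_le_add h2 h1
        _ = _ := by ring

theorem BP_PathIn_inter {S T : Set ℂ} (l : List ℂ) (h1 : PathIn S l) (h2 : PathIn T l) :
    PathIn (S ∩ T) l := by
  induction l with
  | nil => trivial
  | cons a l ih =>
    cases l with
    | nil => trivial
    | cons b l => exact ⟨Set.subset_inter h1.1 h2.1, ih h1.2 h2.2⟩

theorem BP_Bet_eq (l : List ℂ) (x1 x2 : ℝ) (hh : l.head? = some (x2 : ℂ))
    (hl : l.getLast? = some (x1 : ℂ)) (h2 : 5 < x2) (h1 : -5 < x1) (h1' : x1 < 5)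
    (hs : PathIn BP_U l) (m : ℕ) (F : ℝ[X]) :
    (2 * Real.pi) * Bet m F = -(pathI (fun s => ∑ j ∈ Finset.range (F.natDegree + 1),
        ((F.coeff j : ℝ) : ℂ) * tau s ^ ((j : ℤ) - m)) l).im := by
  rw [Bet_eq_sum m F (Nat.lt_succ_self _), BP_pathI_sum (U := BP_U) _ _ _ l hs, Complex.im_sum,
    Finset.mul_sum, ← Finset.sum_neg_distrib]
  · apply Finset.sum_congr rfl
    intro j _
    rw [Path_pathI_smul, Complex.im_ofReal_mul, BP_aco l x1 x2 hh hl h2 h1 h1' hs]
    ring
  · intro j _ s hs'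
    exact (BP_cont_zpow _ hs').const_mul _

theorem betBound_polygon (l : List ℂ) (x1 x2 : ℝ) (hh : l.head? = some (x2 : ℂ))
    (hl : l.getLast? = some (x1 : ℂ)) (h2 : 5 < x2) (h1 : -5 < x1) (h1' : x1 < 5)
    (T : Set ℂ) (hT : PathIn T l)
    (hpos : PathIn {s : ℂ | 0 ≤ s.im ∧ s ≠ 5 ∧ s ≠ -5} l) : BetBound T := by
  refine ⟨Path_len l + 1, by have := Path_len_nonneg l; linarith, ?_⟩
  intro m F M hM
  have hpos' : PathIn BP_U l := hpos
  -- nonnegativity of `M`
  have hM0 : 0 ≤ M := by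
    cases l with
    | nil => simp at hh
    | cons a l =>
      cases l with
      | nil =>
        exfalso
        simp at hh hl
        rw [hh] at hl
        have : x2 = x1 := by exact_mod_cast hl
        linarith
      | cons b l =>
        have h3 : a ∈ T := hT.1 (left_mem_segment ℝ a b)
        have h4 : a ∈ BP_U := hpos'.1 (left_mem_segment ℝ a b)
        have h5 := hM a h3
        have h6 : 0 < ‖tau a‖ ^ m := pow_pos (norm_pos_iff.2 (BP_tau_ne h4)) m
        by_contra h
        push Not at h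
        have := mul_neg_of_neg_of_pos h h6
        linarith [norm_nonneg (ev F a)]
  have e1 := BP_Bet_eq l x1 x2 hh hl h2 h1 h1' hpos' m F
  have e2 := BP_norm_pathI_le (fun s => ∑ j ∈ Finset.range (F.natDegree + 1),
        ((F.coeff j : ℝ) : ℂ) * tau s ^ ((j : ℤ) - m)) M (T ∩ BP_U) l
        (BP_PathIn_inter l hT hpos') ?_
  · have e3 := Complex.abs_im_le_norm (pathI (fun s => ∑ j ∈ Finset.range (F.natDegree + 1),
        ((F.coeff j : ℝ) : ℂ) * tau s ^ ((j : ℤ) - m)) l)
    have e4 : |(2 * Real.pi) * Bet m F| ≤ Path_len l * M := by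
      rw [e1, abs_neg]
      exact e3.trans e2
    rw [abs_mul, abs_of_pos (by positivity)] at e4
    have hpi := Real.pi_gt_three
    have hB := abs_nonneg (Bet m F)
    have h7 : |Bet m F| ≤ 2 * Real.pi * |Bet m F| := by nlinarith
    nlinarith
  · intro s hs
    have h0 := BP_tau_ne hs.2
    have h3 : ∑ j ∈ Finset.range (F.natDegree + 1), ((F.coeff j : ℝ) : ℂ) * tau s ^ ((j : ℤ) - m)
        = ev F s * (tau s ^ m)⁻¹ := by
      unfold ev
      rw [Polynomial.aeval_eq_sum_range, Finset.sum_mul]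
      apply Finset.sum_congr rfl
      intro j _
      rw [zpow_sub₀ h0, zpow_natCast, zpow_natCast, Complex.real_smul]
      rw [div_eq_mul_inv]
      ring
    simp only [h3]
    rw [norm_mul, norm_inv, norm_pow]
    rw [← div_eq_mul_inv, div_le_iff₀ (pow_pos (norm_pos_iff.2 h0) m)]
    exact hM s hs.1

end Vale.Agent.P021.Det
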