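import Vale.Agent.P021.Det.ChordCert
import Vale.Agent.P021.Det.CertData

open Polynomial

namespace Vale.Agent.P021.Det

/-- the path for the integral -/
noncomputable def S1 : Set ℂ :=
  segment ℝ (pnt10 (0, 0)) (pnt10 (0, 1331)) ∪ segment ℝ (pnt10 (0, 1331)) (pnt10 (-1024, 2048))

/-- the polygon around the pole -/
noncomputable def T1 : Set ℂ :=
  segment ℝ (pnt10 (8704, 0)) (pnt10 (7680, 2560)) ∪
    (segment ℝ (pnt10 (7680, 2560)) (pnt10 (3072, 4608)) ∪
      segment ℝ (pnt10 (3072, 4608)) (pnt10 (-2048, 0)))

/-- the vertices of the path -/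
noncomputable def l1 : List ℂ := [pnt10 (0, 0), pnt10 (0, 1331), pnt10 (-1024, 2048)]

/-- the vertices of the polygon around the pole -/
noncomputable def l2 : List ℂ :=
  [pnt10 (8704, 0), pnt10 (7680, 2560), pnt10 (3072, 4608), pnt10 (-2048, 0)]

theorem l1_path : PathIn S1 l1 :=
  ⟨Set.subset_union_left, Set.subset_union_right, trivial⟩

theorem l2_path : PathIn T1 l2 :=
  ⟨Set.subset_union_left, Set.subset_union_left.trans Set.subset_union_right,
    Set.subset_union_right.trans Set.subset_union_right, trivial⟩

theorem segment_bounded (x y : ℂ) : Bornology.IsBounded (segment ℝ x y) := by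
  rw [segment_eq_image']
  exact (isCompact_Icc.image (by fun_prop)).isBounded

theorem S1_bounded : Bornology.IsBounded S1 := (segment_bounded _ _).union (segment_bounded _ _)

theorem T1_bounded : Bornology.IsBounded T1 :=
  (segment_bounded _ _).union ((segment_bounded _ _).union (segment_bounded _ _))

theorem good_S1 : ∀ s ∈ S1, GoodC cfs 600 1300 2600 clev 0 s := by
  rintro s (hs | hs)
  · exact okSegm_segment (by decide) (by decide) chk0 s hs
  · exact okSegm_segment (by decide) (by decide) chk1 s hs

theorem good_T1 : ∀ s ∈ T1, GoodC cfs 600 1300 2600 clev 34717302784 s := by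
  rintro s (hs | hs | hs)
  · exact okSegm_segment (by decide) (by decide) chk2 s hs
  · exact okSegm_segment (by decide) (by decide) chk3 s hs
  · exact okSegm_segment (by decide) (by decide) chk4 s hs

theorem clev_mem (j : ℕ) (hj : j ≤ 10) : clev.getD j ([], 0) ∈ clev := by
  have h : j < clev.length := by
    have : clev.length = 11 := by decide
    omega
  rw [List.getD_eq_getElem _ _ h]
  exact List.getElem_mem h

theorem clev_len (j : ℕ) (hj : j ≤ 10) : (clev.getD j ([], 0)).1.length ≤ cfs.length := by
  interval_cases j <;> decide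

/-- the certificate -/
noncomputable def cert1 : Cert 1000 1200 2600 5200 10 (33109 * Real.log 2) S1 T1 where
  F j := prodF cfs (clev.getD j ([], 0)).1
  d j := cdeg.getD j 0
  L j := ((clev.getD j ([], 0)).2 : ℝ) * cu
  monic j _ := prodF_monic _ _
  deg j hj := by
    rw [prodF_natDegree]
    interval_cases j <;> decide
  d_zero := by decide
  d_last := by decide
  d_lt j hj := by
    interval_cases j <;> decide
  path j hj s hs := by
    have h := good_S1 s hs _ (clev_mem j hj) (clev_len j hj)
    simpa using h
  circ j hj s hs := by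
    have h := good_T1 s hs _ (clev_mem j hj) (clev_len j hj)
    have e : ((clev.getD j ([], 0)).2 : ℝ) * cu + 33109 * Real.log 2 =
        (((clev.getD j ([], 0)).2 : ℝ) + ((34717302784 : ℤ) : ℝ)) * cu := by
      unfold cu
      push_cast
      ring
    rw [e]
    exact h

theorem cert1_total : cert1.total = -12587990 * Real.log 2 := by
  unfold Cert.total
  simp only [cert1, Finset.sum_range_succ, Finset.sum_range_zero, cdeg, clev, List.getD_cons_zero,
    List.getD_cons_succ, cu]
  push_cast
  ring

end Vale.Agent.P021.Det
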