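import Vale.Agent.P021.Det.BetPoly
import Vale.Agent.P021.Det.Cert1

namespace Vale.Agent.P021.Det

theorem BT_seg {u v : ℂ} (h1 : 0 ≤ u.im) (h2 : 0 ≤ v.im) (h3 : -5 < u.re) (h4 : -5 < v.re)
    (h : (5 < u.re ∧ 5 < v.re) ∨ (0 < u.im ∧ 0 < v.im) ∨ (u.re < 5 ∧ v.re < 5)) :
    segment ℝ u v ⊆ {s : ℂ | 0 ≤ s.im ∧ s ≠ 5 ∧ s ≠ -5} := by
  rintro s ⟨a, b, ha, hb, hab, rfl⟩
  have hre : (a • u + b • v).re = a * u.re + b * v.re := by simp
  have him : (a • u + b • v).im = a * u.im + b * v.im := by simp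
  have key : ∀ x y c : ℝ, c < x → c < y → c < a * x + b * y := by
    intro x y c hx hy
    have : a = 1 - b := by linarith
    subst this
    rcases hb.eq_or_lt with hb0 | hb0
    · subst hb0; linarith
    · nlinarith
  refine ⟨?_, ?_, ?_⟩
  · rw [him]; positivity
  · intro h5
    have e1 := congrArg Complex.re h5
    have e2 := congrArg Complex.im h5
    rw [hre] at e1
    rw [him] at e2
    have e3 : ((5 : ℂ)).re = 5 := rfl
    have e4 : ((5 : ℂ)).im = 0 := rfl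
    rw [e3] at e1
    rw [e4] at e2
    rcases h with ⟨p, q⟩ | ⟨p, q⟩ | ⟨p, q⟩
    · have := key _ _ _ p q; linarith
    · have := key _ _ _ p q; linarith
    · have := key (-u.re) (-v.re) (-5) (by linarith) (by linarith); linarith
  · intro h5
    have e1 := congrArg Complex.re h5
    rw [hre] at e1
    have e3 : (-(5 : ℂ)).re = -5 := rfl
    rw [e3] at e1
    have := key _ _ _ h3 h4
    linarith

theorem betBound_T1 : BetBound T1 := by
  refine betBound_polygon l2 (-2) (17 / 2) ?_ ?_ (by norm_num) (by norm_num) (by norm_num) T1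
    l2_path ⟨?_, ?_, ?_, trivial⟩
  · simp [l2, pnt10]
    norm_num
  · simp [l2, pnt10]
    norm_num
  · refine BT_seg ?_ ?_ ?_ ?_ (Or.inl ⟨?_, ?_⟩) <;> simp [pnt10] <;> norm_num
  · refine BT_seg ?_ ?_ ?_ ?_ (Or.inr (Or.inl ⟨?_, ?_⟩)) <;> simp [pnt10] <;> norm_num
  · refine BT_seg ?_ ?_ ?_ ?_ (Or.inr (Or.inr ⟨?_, ?_⟩)) <;> simp [pnt10] <;> norm_num

end Vale.Agent.P021.Det
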