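import Vale.Agent.P021.Det.Cert1
import Vale.Agent.P021.Det.CertData2

open Polynomial

namespace Vale.Agent.P021.Det

theorem good2_S1 : ∀ s ∈ S1, GoodC B.cfs 1200 2600 5200 B.clev 0 s := by
  rintro s (hs | hs)
  · exact runSegm_segment (by decide) (by decide) B.chk0 s hs
  · exact runSegm_segment (by decide) (by decide) B.chk1 s hs

theorem good2_T1 : ∀ s ∈ T1, GoodC B.cfs 1200 2600 5200 B.clev 68981620736 s := by
  rintro s (hs | hs | hs)
  · exact runSegm_segment (by decide) (by decide) B.chk2 s hs
  · exact runSegm_segment (by decide) (by decide) B.chk3 s hs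
  · exact runSegm_segment (by decide) (by decide) B.chk4 s hs

theorem clev2_mem (j : ℕ) (hj : j ≤ 23) : B.clev.getD j ([], 0) ∈ B.clev := by
  have h : j < B.clev.length := by
    have : B.clev.length = 24 := by decide
    omega
  rw [List.getD_eq_getElem _ _ h]
  exact List.getElem_mem h

theorem clev2_len (j : ℕ) (hj : j ≤ 23) :
    (B.clev.getD j ([], 0)).1.length ≤ B.cfs.length := by
  interval_cases j <;> decide

/-- the second certificate -/
noncomputable def cert2 : Cert 2000 2400 5200 10400 23 (65786 * Real.log 2) S1 T1 where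
  F j := prodF B.cfs (B.clev.getD j ([], 0)).1
  d j := B.cdeg.getD j 0
  L j := ((B.clev.getD j ([], 0)).2 : ℝ) * cu
  monic j _ := prodF_monic _ _
  deg j hj := by
    rw [prodF_natDegree]
    interval_cases j <;> decide
  d_zero := by decide
  d_last := by decide
  d_lt j hj := by
    interval_cases j <;> decide
  path j hj s hs := by
    have h := good2_S1 s hs _ (clev2_mem j hj) (clev2_len j hj)
    simpa using h
  circ j hj s hs := by
    have h := good2_T1 s hs _ (clev2_mem j hj) (clev2_len j hj)
    have e : ((B.clev.getD j ([], 0)).2 : ℝ) * cu + 65786 * Real.log 2 =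
        (((B.clev.getD j ([], 0)).2 : ℝ) + ((68981620736 : ℤ) : ℝ)) * cu := by
      unfold cu
      push_cast
      ring
    rw [e]
    exact h

theorem cert2_total : cert2.total = -50311780 * Real.log 2 := by
  unfold Cert.total
  simp only [cert2, Finset.sum_range_succ, Finset.sum_range_zero, B.cdeg, B.clev,
    List.getD_cons_zero, List.getD_cons_succ, cu]
  push_cast
  ring

end Vale.Agent.P021.Det
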