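import Vale.Agent.P021.Det.Defs

open Polynomial

namespace Vale.Agent.P021.Det

/-- a box in the `s`-plane, coordinates scaled by `2^k` -/
structure Box where
  x1 : ℤ
  x2 : ℤ
  y1 : ℤ
  y2 : ℤ

/-- membership in the scaled box -/
def Box.Mem (k : ℕ) (B : Box) (s : ℂ) : Prop :=
  (B.x1 : ℝ) ≤ s.re * 2 ^ k ∧ s.re * 2 ^ k ≤ B.x2 ∧ (B.y1 : ℝ) ≤ s.im * 2 ^ k ∧
    s.im * 2 ^ k ≤ B.y2

/-- upper bound of `4^k |s - (a+bi)/2^k|^2` on the box -/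
def Box.sup (B : Box) (a b : ℤ) : ℕ :=
  (max (B.x1 - a).natAbs (B.x2 - a).natAbs) ^ 2 + (max (B.y1 - b).natAbs (B.y2 - b).natAbs) ^ 2

/-- distance of the integer `a` to the interval `[x1,x2]` -/
def gap (x1 x2 a : ℤ) : ℕ := max (x1 - a).toNat (a - x2).toNat

/-- lower bound of `4^k |s - a/2^k|^2` on the box -/
def Box.inf (B : Box) (a : ℤ) : ℕ := gap B.x1 B.x2 a ^ 2 + gap B.y1 B.y2 0 ^ 2

theorem Chk_abs_le {x1 x2 a : ℤ} {x : ℝ} (h1 : (x1 : ℝ) ≤ x) (h2 : x ≤ x2) :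
    |x - a| ≤ ((max (x1 - a).natAbs (x2 - a).natAbs : ℕ) : ℝ) := by
  have e1 : ((x1 - a).natAbs : ℝ) = |(x1 : ℝ) - a| := by
    rw [Nat.cast_natAbs]; push_cast; rfl
  have e2 : ((x2 - a).natAbs : ℝ) = |(x2 : ℝ) - a| := by
    rw [Nat.cast_natAbs]; push_cast; rfl
  rw [Nat.cast_max, e1, e2, abs_le]
  constructor
  · have := neg_abs_le ((x1 : ℝ) - a)
    have h3 := le_max_left |(x1 : ℝ) - a| |(x2 : ℝ) - a|
    linarith
  · have := le_abs_self ((x2 : ℝ) - a)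
    have h3 := le_max_right |(x1 : ℝ) - a| |(x2 : ℝ) - a|
    linarith

theorem Chk_gap_le {x1 x2 a : ℤ} {x : ℝ} (h1 : (x1 : ℝ) ≤ x) (h2 : x ≤ x2) :
    ((gap x1 x2 a : ℕ) : ℝ) ≤ |x - a| := by
  unfold gap
  rw [Nat.cast_max]
  apply max_le
  · have e : (((x1 - a).toNat : ℕ) : ℝ) = max ((x1 : ℝ) - a) 0 := by
      have : (((x1 - a).toNat : ℕ) : ℤ) = max (x1 - a) 0 := Int.toNat_eq_max _
      exact_mod_cast congrArg (Int.cast : ℤ → ℝ) this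
    rw [e]
    apply max_le _ (abs_nonneg _)
    exact le_trans (by linarith) (le_abs_self _)
  · have e : (((a - x2).toNat : ℕ) : ℝ) = max ((a : ℝ) - x2) 0 := by
      have : (((a - x2).toNat : ℕ) : ℤ) = max (a - x2) 0 := Int.toNat_eq_max _
      exact_mod_cast congrArg (Int.cast : ℤ → ℝ) this
    rw [e]
    apply max_le _ (abs_nonneg _)
    rw [abs_sub_comm]
    exact le_trans (by linarith) (le_abs_self _)

theorem Chk_normSq (s : ℂ) (x y : ℝ) :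
    ‖s - (x + y * Complex.I)‖ ^ 2 = (s.re - x) ^ 2 + (s.im - y) ^ 2 := by
  rw [Complex.sq_norm, Complex.normSq_apply]
  simp
  ring

theorem Box.sup_spec {k : ℕ} {B : Box} {s : ℂ} (h : B.Mem k s) (a b : ℤ) :
    ‖s - (((a : ℝ) / 2 ^ k : ℝ) + ((b : ℝ) / 2 ^ k : ℝ) * Complex.I)‖ ^ 2 * 4 ^ k ≤
      (B.sup a b : ℝ) := by
  obtain ⟨h1, h2, h3, h4⟩ := h
  have hx := Chk_abs_le (a := a) h1 h2
  have hy := Chk_abs_le (a := b) h3 h4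
  rw [Chk_normSq]
  unfold Box.sup
  push_cast
  have h2k : (0 : ℝ) < 2 ^ k := by positivity
  have e4 : (4 : ℝ) ^ k = 2 ^ k * 2 ^ k := by rw [← mul_pow]; norm_num
  have e1 : (s.re - a / 2 ^ k) ^ 2 * 4 ^ k = |s.re * 2 ^ k - a| ^ 2 := by
    rw [sq_abs, e4]
    field_simp
  have e2 : (s.im - b / 2 ^ k) ^ 2 * 4 ^ k = |s.im * 2 ^ k - b| ^ 2 := by
    rw [sq_abs, e4]
    field_simp
  rw [add_mul, e1, e2]
  push_cast at hx hy
  gcongr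

theorem Box.inf_spec {k : ℕ} {B : Box} {s : ℂ} (h : B.Mem k s) (a : ℤ) :
    (B.inf a : ℝ) ≤ ‖s - (((a : ℝ) / 2 ^ k : ℝ) + ((0 : ℝ) / 2 ^ k : ℝ) * Complex.I)‖ ^ 2 * 4 ^ k := by
  obtain ⟨h1, h2, h3, h4⟩ := h
  have hx := Chk_gap_le (a := a) h1 h2
  have hy := Chk_gap_le (a := 0) h3 h4
  rw [Chk_normSq]
  unfold Box.inf
  push_cast
  have h2k : (0 : ℝ) < 2 ^ k := by positivity
  have e4 : (4 : ℝ) ^ k = 2 ^ k * 2 ^ k := by rw [← mul_pow]; norm_num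
  have e1 : (s.re - a / 2 ^ k) ^ 2 * 4 ^ k = |s.re * 2 ^ k - a| ^ 2 := by
    rw [sq_abs, e4]
    field_simp
  have e2 : (s.im - 0 / 2 ^ k) ^ 2 * 4 ^ k = |s.im * 2 ^ k - (0 : ℤ)| ^ 2 := by
    rw [sq_abs, e4]
    push_cast
    field_simp
  rw [add_mul, e1, e2]
  gcongr

/-! ### factors -/

/-- a monic factor given by its `s`-plane roots: `quad a b` has the four roots
`(±a ± bi)/2^k`, `re a` the roots `±a/2^k`, `im b` the roots `±bi/2^k`. -/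
inductive Fac
  | quad (a b : ℤ)
  | re (a : ℤ)
  | im (b : ℤ)

/-- the factor as a polynomial in `τ` -/
noncomputable def Fac.poly (k : ℕ) : Fac → ℝ[X]
  | .quad a b => X ^ 2 + (C (50 - 2 * (((a : ℝ) / 2 ^ k) ^ 2 - ((b : ℝ) / 2 ^ k) ^ 2)) * X +
      C (625 - 50 * (((a : ℝ) / 2 ^ k) ^ 2 - ((b : ℝ) / 2 ^ k) ^ 2) +
        (((a : ℝ) / 2 ^ k) ^ 2 + ((b : ℝ) / 2 ^ k) ^ 2) ^ 2))
  | .re a => X + C (25 - ((a : ℝ) / 2 ^ k) ^ 2)
  | .im b => X + C (25 + ((b : ℝ) / 2 ^ k) ^ 2)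

/-- the degree of the factor -/
def Fac.deg : Fac → ℕ
  | .quad _ _ => 2
  | .re _ => 1
  | .im _ => 1

/-- upper bound of `4^(2 k deg) |f|^2` on a box -/
def Fac.sup (B : Box) : Fac → ℕ
  | .quad a b => B.sup a b * B.sup (-a) (-b) * (B.sup a (-b) * B.sup (-a) b)
  | .re a => B.sup a 0 * B.sup (-a) 0
  | .im b => B.sup 0 b * B.sup 0 (-b)

theorem Fac.monic (k : ℕ) (f : Fac) : (f.poly k).Monic := by
  cases f with
  | quad a b =>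
    unfold Fac.poly
    apply Polynomial.monic_X_pow_add
    refine lt_of_le_of_lt (Polynomial.degree_linear_le) ?_
    norm_num
  | re a => exact Polynomial.monic_X_add_C _
  | im b => exact Polynomial.monic_X_add_C _

theorem Fac.natDegree (k : ℕ) (f : Fac) : (f.poly k).natDegree = f.deg := by
  cases f with
  | quad a b =>
    unfold Fac.poly Fac.deg
    apply Polynomial.natDegree_eq_of_degree_eq_some
    rw [Polynomial.degree_add_eq_left_of_degree_lt, Polynomial.degree_X_pow]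
    rw [Polynomial.degree_X_pow]
    refine lt_of_le_of_lt (Polynomial.degree_linear_le) ?_
    norm_num
  | re a => exact Polynomial.natDegree_X_add_C _
  | im b => exact Polynomial.natDegree_X_add_C _

theorem Chk_ev_C (c : ℝ) (s : ℂ) : ev (C c) s = (c : ℂ) := by
  unfold ev
  rw [Polynomial.aeval_C]
  rfl

theorem Chk_ev_X (s : ℂ) : ev X s = s ^ 2 - 25 := by
  unfold ev tau
  rw [Polynomial.aeval_X]

theorem ev_mul (F G : ℝ[X]) (s : ℂ) : ev (F * G) s = ev F s * ev G s := by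
  unfold ev
  rw [map_mul]

theorem ev_add (F G : ℝ[X]) (s : ℂ) : ev (F + G) s = ev F s + ev G s := by
  unfold ev
  rw [map_add]

theorem ev_pow (F : ℝ[X]) (n : ℕ) (s : ℂ) : ev (F ^ n) s = ev F s ^ n := by
  unfold ev
  rw [map_pow]

theorem Fac.ev_quad (k : ℕ) (a b : ℤ) (s : ℂ) :
    ev (Fac.poly k (.quad a b)) s =
      (s - (((a : ℝ) / 2 ^ k : ℝ) + ((b : ℝ) / 2 ^ k : ℝ) * Complex.I)) *
      (s - ((((-a : ℤ) : ℝ) / 2 ^ k : ℝ) + (((-b : ℤ) : ℝ) / 2 ^ k : ℝ) * Complex.I)) *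
      ((s - (((a : ℝ) / 2 ^ k : ℝ) + (((-b : ℤ) : ℝ) / 2 ^ k : ℝ) * Complex.I)) *
      (s - ((((-a : ℤ) : ℝ) / 2 ^ k : ℝ) + ((b : ℝ) / 2 ^ k : ℝ) * Complex.I))) := by
  unfold Fac.poly
  rw [ev_add, ev_pow, ev_add, ev_mul, Chk_ev_C, Chk_ev_C, Chk_ev_X]
  push_cast
  have hI : Complex.I ^ 2 = -1 := Complex.I_sq
  have hI4 : Complex.I ^ 4 = 1 := Complex.I_pow_four
  set A : ℂ := (a : ℂ) / 2 ^ k
  set B : ℂ := (b : ℂ) / 2 ^ k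
  have e1 : (-(a : ℂ)) / 2 ^ k = -A := neg_div _ _
  have e2 : (-(b : ℂ)) / 2 ^ k = -B := neg_div _ _
  rw [e1, e2]
  ring_nf
  rw [hI, hI4]
  ring

theorem Fac.ev_re (k : ℕ) (a : ℤ) (s : ℂ) :
    ev (Fac.poly k (.re a)) s =
      (s - (((a : ℝ) / 2 ^ k : ℝ) + (((0 : ℤ) : ℝ) / 2 ^ k : ℝ) * Complex.I)) *
      (s - ((((-a : ℤ) : ℝ) / 2 ^ k : ℝ) + (((0 : ℤ) : ℝ) / 2 ^ k : ℝ) * Complex.I)) := by
  unfold Fac.poly
  rw [ev_add, Chk_ev_C, Chk_ev_X]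
  push_cast
  have e1 : (-(a : ℂ)) / 2 ^ k = -((a : ℂ) / 2 ^ k) := neg_div _ _
  rw [e1]
  ring

theorem Fac.ev_im (k : ℕ) (b : ℤ) (s : ℂ) :
    ev (Fac.poly k (.im b)) s =
      (s - ((((0 : ℤ) : ℝ) / 2 ^ k : ℝ) + ((b : ℝ) / 2 ^ k : ℝ) * Complex.I)) *
      (s - ((((0 : ℤ) : ℝ) / 2 ^ k : ℝ) + (((-b : ℤ) : ℝ) / 2 ^ k : ℝ) * Complex.I)) := by
  unfold Fac.poly
  rw [ev_add, Chk_ev_C, Chk_ev_X]
  push_cast
  have e1 : (-(b : ℂ)) / 2 ^ k = -((b : ℂ) / 2 ^ k) := neg_div _ _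
  have hI : Complex.I ^ 2 = -1 := Complex.I_sq
  rw [e1]
  ring_nf
  rw [hI]
  ring

theorem Fac.sup_spec {k : ℕ} {B : Box} {s : ℂ} (h : B.Mem k s) (f : Fac) :
    ‖ev (f.poly k) s‖ ^ 2 * 16 ^ (k * f.deg) ≤ (f.sup B : ℝ) := by
  have h16 : (16 : ℝ) ^ k = 4 ^ k * 4 ^ k := by rw [← mul_pow]; norm_num
  cases f with
  | quad a b =>
    rw [Fac.ev_quad, norm_mul, norm_mul, norm_mul]
    have e1 := B.sup_spec h a b
    have e2 := B.sup_spec h (-a) (-b)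
    have e3 := B.sup_spec h a (-b)
    have e4 := B.sup_spec h (-a) b
    unfold Fac.sup Fac.deg
    rw [pow_mul, h16]
    push_cast at e1 e2 e3 e4 ⊢
    calc _ = (‖s - ((a : ℂ) / 2 ^ k + (b : ℂ) / 2 ^ k * Complex.I)‖ ^ 2 * 4 ^ k) *
          (‖s - (-(a : ℂ) / 2 ^ k + -(b : ℂ) / 2 ^ k * Complex.I)‖ ^ 2 * 4 ^ k) *
          ((‖s - ((a : ℂ) / 2 ^ k + -(b : ℂ) / 2 ^ k * Complex.I)‖ ^ 2 * 4 ^ k) *
          (‖s - (-(a : ℂ) / 2 ^ k + (b : ℂ) / 2 ^ k * Complex.I)‖ ^ 2 * 4 ^ k)) := by ring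
      _ ≤ _ := by gcongr
  | re a =>
    rw [Fac.ev_re, norm_mul]
    have e1 := B.sup_spec h a 0
    have e2 := B.sup_spec h (-a) 0
    unfold Fac.sup Fac.deg
    rw [mul_one, h16]
    push_cast at e1 e2 ⊢
    calc _ = (‖s - ((a : ℂ) / 2 ^ k + 0 / 2 ^ k * Complex.I)‖ ^ 2 * 4 ^ k) *
          (‖s - (-(a : ℂ) / 2 ^ k + 0 / 2 ^ k * Complex.I)‖ ^ 2 * 4 ^ k) := by ring
      _ ≤ _ := by gcongr
  | im b =>
    rw [Fac.ev_im, norm_mul]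
    have e1 := B.sup_spec h 0 b
    have e2 := B.sup_spec h 0 (-b)
    unfold Fac.sup Fac.deg
    rw [mul_one, h16]
    push_cast at e1 e2 ⊢
    calc _ = (‖s - (0 / 2 ^ k + (b : ℂ) / 2 ^ k * Complex.I)‖ ^ 2 * 4 ^ k) *
          (‖s - (0 / 2 ^ k + -(b : ℂ) / 2 ^ k * Complex.I)‖ ^ 2 * 4 ^ k) := by ring
      _ ≤ _ := by gcongr

end Vale.Agent.P021.Det
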