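import Vale.Agent.P021.Det.ChordN

open Polynomial

namespace Vale.Agent.P021.Det

theorem frc_eq {α : Type} (n : ℕ) (f : ℕ → α) : frc n f = f n := by
  cases n <;> rfl

theorem frcZ_eq {α : Type} (z : ℤ) (f : ℤ → α) : frcZ z f = f z := by
  cases z with
  | ofNat n => exact frc_eq n (fun n => f (Int.ofNat n))
  | negSucc n => exact frc_eq n (fun n => f (Int.negSucc n))

/-- the polynomial with the given exponents -/
noncomputable def prodF : List Fac → List ℕ → ℝ[X]
  | f :: fs, e :: es => (f.poly 10) ^ e * prodF fs es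
  | _, _ => 1

/-- its degree -/
def degF : List Fac → List ℕ → ℕ
  | f :: fs, e :: es => e * f.deg + degF fs es
  | _, _ => 0

theorem prodF_monic (fs : List Fac) : ∀ es : List ℕ, (prodF fs es).Monic := by
  induction fs with
  | nil => intro es; cases es <;> exact monic_one
  | cons f fs ih =>
    intro es
    cases es with
    | nil => exact monic_one
    | cons e es => exact ((f.monic 10).pow e).mul (ih es)

theorem prodF_natDegree (fs : List Fac) : ∀ es : List ℕ, (prodF fs es).natDegree = degF fs es := by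
  induction fs with
  | nil => intro es; cases es <;> simp [prodF, degF]
  | cons f fs ih =>
    intro es
    cases es with
    | nil => simp [prodF, degF]
    | cons e es =>
      simp only [prodF, degF]
      rw [Polynomial.Monic.natDegree_mul ((f.monic 10).pow e) (prodF_monic fs es),
        (f.monic 10).natDegree_pow, f.natDegree, ih]

theorem dot1_add (es : List ℕ) : ∀ (T : List (ℕ × ℤ × ℤ)) (s : ℤ),
    dot1 es T s = s + dot1 es T 0 := by
  induction es with
  | nil => intro T s; cases T <;> simp [dot1]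
  | cons e es ih =>
    intro T s
    cases T with
    | nil => simp [dot1]
    | cons t ts =>
      simp only [dot1, frcZ_eq]
      rw [ih ts (Int.add s _), ih ts (Int.add 0 _)]
      simp only [Int.add_def, zero_add]
      ring

theorem dot2_add (es : List ℕ) : ∀ (T : List (ℕ × ℤ × ℤ)) (s : ℤ),
    dot2 es T s = s + dot2 es T 0 := by
  induction es with
  | nil => intro T s; cases T <;> simp [dot2]
  | cons e es ih =>
    intro T s
    cases T with
    | nil => simp [dot2]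
    | cons t ts =>
      simp only [dot2, frcZ_eq]
      rw [ih ts (Int.add s _), ih ts (Int.add 0 _)]
      simp only [Int.add_def, zero_add]
      ring

theorem dot1_cons (e : ℕ) (es : List ℕ) (t : ℕ × ℤ × ℤ) (ts : List (ℕ × ℤ × ℤ)) :
    dot1 (e :: es) (t :: ts) 0 = e * t.2.1 + dot1 es ts 0 := by
  simp only [dot1, frcZ_eq]
  rw [dot1_add es ts]
  simp only [Int.add_def, Int.mul_def, zero_add, Int.ofNat_eq_natCast]

theorem dot2_cons (e : ℕ) (es : List ℕ) (t : ℕ × ℤ × ℤ) (ts : List (ℕ × ℤ × ℤ)) :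
    dot2 (e :: es) (t :: ts) 0 = e * t.2.2 + dot2 es ts 0 := by
  simp only [dot2, frcZ_eq]
  rw [dot2_add es ts]
  simp only [Int.add_def, Int.mul_def, zero_add, Int.ofNat_eq_natCast]

/-- the unit of the tables -/
noncomputable def cu : ℝ := Real.log 2 / 2 ^ 20

theorem cu_pos : 0 < cu := by
  unfold cu
  have := Real.log_pos (by norm_num : (1 : ℝ) < 2)
  positivity

theorem okL_spec {u v : ℤ × ℤ} {t : ℝ} (h0 : 0 ≤ t) (h1 : t ≤ 1) (fs : List Fac) :
    ∀ (T : List (ℕ × ℤ × ℤ)) (es : List ℕ), okL u v fs T = true → es.length ≤ fs.length →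
    ‖ev (prodF fs es) ((1 - (t : ℂ)) * pnt u + (t : ℂ) * pnt v)‖ ^ 2 ≤
      Real.exp (((1 - t) * (dot1 es T 0 : ℝ) + t * (dot2 es T 0 : ℝ)) * cu) := by
  induction fs with
  | nil =>
    intro T es _ hl
    have : es = [] := by
      cases es with
      | nil => rfl
      | cons e es => simp at hl
    subst this
    cases T <;> simp [prodF, dot1, dot2, ev]
  | cons f fs ih =>
    intro T es hT hl
    cases es with
    | nil => cases T <;> simp [prodF, dot1, dot2, ev]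
    | cons e es =>
      cases T with
      | nil => simp [okL] at hT
      | cons a T =>
        simp only [okL, Bool.and_eq_true] at hT
        obtain ⟨hN, hT⟩ := hT
        have hf := okN_spec hN h0 h1
        have hr := ih T es hT (by simpa using hl)
        rw [dot1_cons, dot2_cons]
        simp only [prodF]
        rw [ev_mul, ev_pow, norm_mul, norm_pow, mul_pow, ← pow_mul, mul_comm e 2, pow_mul]
        have e1 : ((1 - t) * ((((e : ℤ) * a.2.1 + dot1 es T 0 : ℤ)) : ℝ) +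
            t * ((((e : ℤ) * a.2.2 + dot2 es T 0 : ℤ)) : ℝ)) * cu =
            (e : ℝ) * (((1 - t) * (a.2.1 : ℝ) + t * (a.2.2 : ℝ)) * (Real.log 2 / 2 ^ 20)) +
            ((1 - t) * (dot1 es T 0 : ℝ) + t * (dot2 es T 0 : ℝ)) * cu := by
          unfold cu
          push_cast
          ring
        rw [e1, Real.exp_add, Real.exp_nat_mul]
        exact mul_le_mul (pow_le_pow_left₀ (by positivity) hf e) hr (by positivity)
          (by positivity)

theorem zle_iff {a b : ℤ} : zle a b = true ↔ a ≤ b := by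
  unfold zle
  exact decide_eq_true_iff

theorem okLev_spec {T : List (ℕ × ℤ × ℤ)} {c1 c2 : ℤ} {lev : List (List ℕ × ℤ)}
    (h : okLev T c1 c2 lev = true) : ∀ L ∈ lev, dot1 L.1 T c1 ≤ L.2 ∧ dot2 L.1 T c2 ≤ L.2 := by
  induction lev with
  | nil => intro L hL; simp at hL
  | cons M lev ih =>
    simp only [okLev, Bool.and_eq_true, zle_iff] at h
    intro L hL
    rcases List.mem_cons.mp hL with rfl | hL
    · exact ⟨h.1, h.2.1⟩
    · exact ih h.2.2 L hL

theorem Fac_re0 : (Fac.re 0).poly 10 = X + C 25 := by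
  simp [Fac.poly]

theorem Fac_quadE : (Fac.quad 1024 2048).poly 10 = X ^ 2 + C 56 * X + C 800 := by
  unfold Fac.poly
  rw [add_assoc]
  norm_num

theorem okSub_spec {fs : List Fac} {a b m : ℕ} {lev : List (List ℕ × ℤ)} {ex : ℤ} {u v : ℤ × ℤ}
    {S : Sub} (h : okSub fs a b m lev ex u v S = true) {t : ℝ} (h0 : 0 ≤ t) (h1 : t ≤ 1)
    (L : List ℕ × ℤ) (hL : L ∈ lev) (hlen : L.1.length ≤ fs.length) :
    ‖ev (prodF fs L.1) ((1 - (t : ℂ)) * pnt u + (t : ℂ) * pnt v)‖ ^ 2 *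
      ‖ev (Wp (2 * a) (2 * b)) ((1 - (t : ℂ)) * pnt u + (t : ℂ) * pnt v)‖ ≤
      Real.exp (((L.2 : ℝ) + ex) * cu) *
        ‖tau ((1 - (t : ℂ)) * pnt u + (t : ℂ) * pnt v)‖ ^ (2 * m) := by
  unfold okSub at h
  simp only [frcZ_eq, Bool.and_eq_true] at h
  obtain ⟨hT, hU, hQ, hD, hlev⟩ := h
  set s : ℂ := (1 - (t : ℂ)) * pnt u + (t : ℂ) * pnt v with hs
  have gT := okL_spec h0 h1 fs S.T L.1 hT hlen
  have gU := okN_spec (f := .re 0) (by simpa [Fac.roots] using hU) h0 h1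
  have gQ := okN_spec (f := .quad 1024 2048) (by simpa [Fac.roots] using hQ) h0 h1
  have gD := okD_spec hD h0 h1
  rw [← hs] at gT gU gQ gD
  rw [Fac_re0] at gU
  rw [Fac_quadE] at gQ
  obtain ⟨l1, l2⟩ := okLev_spec hlev L hL
  rw [dot1_add] at l1
  rw [dot2_add] at l2
  have hW : ‖ev (Wp (2 * a) (2 * b)) s‖ =
      (‖ev (X + C 25) s‖ ^ 2) ^ a * (‖ev (X ^ 2 + C 56 * X + C 800) s‖ ^ 2) ^ b := by
    unfold Wp
    rw [ev_mul, ev_pow, ev_pow, norm_mul, norm_pow, norm_pow, pow_mul, pow_mul]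
  rw [hW]
  have l1' : ((dot1 L.1 S.T 0 : ℤ) : ℝ) + (a * (S.tU.2.1 : ℝ) + b * (S.tQ.2.1 : ℝ) +
      m * (S.tT.2.1 : ℝ)) ≤ L.2 + ex := by
    have := (Int.cast_le (R := ℝ)).mpr l1
    push_cast at this
    linarith
  have l2' : ((dot2 L.1 S.T 0 : ℤ) : ℝ) + (a * (S.tU.2.2 : ℝ) + b * (S.tQ.2.2 : ℝ) +
      m * (S.tT.2.2 : ℝ)) ≤ L.2 + ex := by
    have := (Int.cast_le (R := ℝ)).mpr l2
    push_cast at this
    linarith
  have hD' : 1 ≤ Real.exp ((m : ℝ) * (((1 - t) * (S.tT.2.1 : ℝ) + t * (S.tT.2.2 : ℝ)) *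
      (Real.log 2 / 2 ^ 20))) * ‖tau s‖ ^ (2 * m) := by
    rw [Real.exp_nat_mul, pow_mul, ← mul_pow]
    exact one_le_pow₀ gD
  calc ‖ev (prodF fs L.1) s‖ ^ 2 * ((‖ev (X + C 25) s‖ ^ 2) ^ a *
        (‖ev (X ^ 2 + C 56 * X + C 800) s‖ ^ 2) ^ b)
      ≤ Real.exp (((1 - t) * (dot1 L.1 S.T 0 : ℝ) + t * (dot2 L.1 S.T 0 : ℝ)) * cu) *
        (Real.exp (((1 - t) * (S.tU.2.1 : ℝ) + t * (S.tU.2.2 : ℝ)) * (Real.log 2 / 2 ^ 20)) ^ a *
        Real.exp (((1 - t) * (S.tQ.2.1 : ℝ) + t * (S.tQ.2.2 : ℝ)) *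
          (Real.log 2 / 2 ^ 20)) ^ b) := by
        gcongr
    _ = Real.exp ((((1 - t) * (dot1 L.1 S.T 0 : ℝ) + t * (dot2 L.1 S.T 0 : ℝ)) +
          a * ((1 - t) * (S.tU.2.1 : ℝ) + t * (S.tU.2.2 : ℝ)) +
          b * ((1 - t) * (S.tQ.2.1 : ℝ) + t * (S.tQ.2.2 : ℝ))) * cu) * 1 := by
        rw [← Real.exp_nat_mul, ← Real.exp_nat_mul, ← Real.exp_add, ← Real.exp_add, mul_one]
        congr 1
        unfold cu
        ring
    _ ≤ Real.exp ((((1 - t) * (dot1 L.1 S.T 0 : ℝ) + t * (dot2 L.1 S.T 0 : ℝ)) +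
          a * ((1 - t) * (S.tU.2.1 : ℝ) + t * (S.tU.2.2 : ℝ)) +
          b * ((1 - t) * (S.tQ.2.1 : ℝ) + t * (S.tQ.2.2 : ℝ))) * cu) *
          (Real.exp ((m : ℝ) * (((1 - t) * (S.tT.2.1 : ℝ) + t * (S.tT.2.2 : ℝ)) *
            (Real.log 2 / 2 ^ 20))) * ‖tau s‖ ^ (2 * m)) :=
        mul_le_mul_of_nonneg_left hD' (Real.exp_pos _).le
    _ = Real.exp (((1 - t) * ((dot1 L.1 S.T 0 : ℝ) + (a * (S.tU.2.1 : ℝ) + b * (S.tQ.2.1 : ℝ) +
          m * (S.tT.2.1 : ℝ))) + t * ((dot2 L.1 S.T 0 : ℝ) + (a * (S.tU.2.2 : ℝ) +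
          b * (S.tQ.2.2 : ℝ) + m * (S.tT.2.2 : ℝ)))) * cu) * ‖tau s‖ ^ (2 * m) := by
        rw [← mul_assoc, ← Real.exp_add]
        congr 2
        unfold cu
        ring
    _ ≤ _ := by
        refine mul_le_mul_of_nonneg_right (Real.exp_le_exp.mpr ?_) (by positivity)
        refine mul_le_mul_of_nonneg_right ?_ cu_pos.le
        nlinarith

/-- the point with coordinates in units `2^(-10)` -/
noncomputable def pnt10 (u : ℤ × ℤ) : ℂ :=
  (((u.1 : ℝ) / 2 ^ 10 : ℝ) : ℂ) + (((u.2 : ℝ) / 2 ^ 10 : ℝ) : ℂ) * Complex.I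

theorem pnt_cpt (U V : ℤ × ℤ) (i : ℕ) :
    pnt (cpt U V i) = pnt10 U + (pnt10 V - pnt10 U) * ((i : ℂ) / 1024) := by
  unfold pnt pnt10 cpt
  push_cast
  ring

/-- the property to be shown at the point `s` -/
def GoodC (fs : List Fac) (a b m : ℕ) (lev : List (List ℕ × ℤ)) (ex : ℤ) (s : ℂ) : Prop :=
  ∀ L ∈ lev, L.1.length ≤ fs.length →
    ‖ev (prodF fs L.1) s‖ ^ 2 * ‖ev (Wp (2 * a) (2 * b)) s‖ ≤
      Real.exp (((L.2 : ℝ) + ex) * cu) * ‖tau s‖ ^ (2 * m)

theorem okSegm_spec {fs : List Fac} {a b m : ℕ} {lev : List (List ℕ × ℤ)} {ex : ℤ}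
    {U V : ℤ × ℤ} : ∀ (l : List (ℕ × Sub)) (i : ℕ), okSegm fs a b m lev ex U V i l = true →
    ∀ y : ℝ, (i : ℝ) < y → y ≤ lastPt i l →
      GoodC fs a b m lev ex (pnt10 U + (pnt10 V - pnt10 U) * ((y : ℂ) / 1024)) := by
  intro l
  induction l with
  | nil =>
    intro i _ y h1 h2
    simp only [lastPt] at h2
    linarith
  | cons jS l ih =>
    obtain ⟨j, S⟩ := jS
    intro i h y h1 h2
    simp only [okSegm, Bool.and_eq_true] at h
    simp only [lastPt] at h2
    rcases le_or_gt y j with hy | hy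
    · intro L hL hlen
      have hij : (0 : ℝ) < (j : ℝ) - i := by linarith
      have ht0 : 0 ≤ (y - i) / ((j : ℝ) - i) := div_nonneg (by linarith) hij.le
      have ht1 : (y - i) / ((j : ℝ) - i) ≤ 1 := by
        rw [div_le_one hij]
        linarith
      have key := okSub_spec h.1 ht0 ht1 L hL hlen
      have e : (1 - (((y - i) / ((j : ℝ) - i) : ℝ) : ℂ)) * pnt (cpt U V i) +
          (((y - i) / ((j : ℝ) - i) : ℝ) : ℂ) * pnt (cpt U V j) =
          pnt10 U + (pnt10 V - pnt10 U) * ((y : ℂ) / 1024) := by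
        rw [pnt_cpt, pnt_cpt]
        have hij' : ((j : ℂ) - i) ≠ 0 := by
          have : (((j : ℝ) - i : ℝ) : ℂ) ≠ 0 := by exact_mod_cast hij.ne'
          simpa using this
        push_cast
        field_simp
        ring
      rw [e] at key
      exact key
    · exact ih j h.2 y hy h2

theorem okSegm_first {fs : List Fac} {a b m : ℕ} {lev : List (List ℕ × ℤ)} {ex : ℤ}
    {U V : ℤ × ℤ} {l : List (ℕ × Sub)} (hl : l ≠ [])
    (h : okSegm fs a b m lev ex U V 0 l = true) : GoodC fs a b m lev ex (pnt10 U) := by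
  cases l with
  | nil => exact absurd rfl hl
  | cons jS l =>
    obtain ⟨j, S⟩ := jS
    simp only [okSegm, Bool.and_eq_true] at h
    intro L hL hlen
    have key := okSub_spec h.1 le_rfl zero_le_one L hL hlen
    simpa [pnt_cpt] using key

theorem okSegm_segment {fs : List Fac} {a b m : ℕ} {lev : List (List ℕ × ℤ)} {ex : ℤ}
    {U V : ℤ × ℤ} {l : List (ℕ × Sub)} (hl : l ≠ []) (hlast : lastPt 0 l = 1024)
    (h : okSegm fs a b m lev ex U V 0 l = true) :
    ∀ s ∈ segment ℝ (pnt10 U) (pnt10 V), GoodC fs a b m lev ex s := by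
  intro s hs
  rw [segment_eq_image'] at hs
  obtain ⟨θ, ⟨h0, h1⟩, rfl⟩ := hs
  rcases h0.eq_or_lt with h0 | h0
  · subst h0
    simpa using okSegm_first hl h
  · have key := okSegm_spec l 0 h (1024 * θ) (by push_cast; linarith)
      (by rw [hlast]; push_cast; linarith)
    have e : pnt10 U + (pnt10 V - pnt10 U) * (((1024 * θ : ℝ) : ℂ) / 1024) =
        pnt10 U + θ • (pnt10 V - pnt10 U) := by
      rw [Complex.real_smul]
      push_cast
      ring
    rw [e] at key
    exact key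

end Vale.Agent.P021.Det
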