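import Vale.Agent.P021.Det.ChordPnt

/-!
# Soundness of the chord checker, denominator part
-/

namespace Vale.Agent.P021.Det

theorem ChD_frc {α : Type} (n : ℕ) (f : ℕ → α) : frc n f = f n := by
  cases n <;> rfl

theorem ChD_frcZ {α : Type} (z : ℤ) (f : ℤ → α) : frcZ z f = f z := by
  cases z with
  | ofNat n => exact ChD_frc n (fun n => f (Int.ofNat n))
  | negSucc n => exact ChD_frc n (fun n => f (Int.negSucc n))

/-- the scale of the logarithms -/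
noncomputable def ChD_lam : ℝ := Real.log 2 / 2 ^ 20

theorem ChD_lam_pos : 0 < ChD_lam := by
  unfold ChD_lam
  have := Real.log_pos (by norm_num : (1 : ℝ) < 2)
  positivity

theorem ChD_cC {x y : ℕ} (hy : 1 ≤ y) : (x : ℝ) / y - 1 ≤ (cC x y : ℝ) * ChD_lam := by
  have hy0 : (0 : ℝ) < y := by exact_mod_cast hy
  have hl1 := Real.log_two_gt_d9
  have hl2 := Real.log_two_lt_d9
  unfold cC ChD_lam
  rcases Nat.lt_or_ge x y with h | h
  · have hb : Nat.ble y x = false := by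
      rw [Bool.eq_false_iff]
      intro h'
      exact absurd (Nat.le_of_ble_eq_true h') (by omega)
    rw [hb]
    change (x : ℝ) / y - 1 ≤
      ((-(Int.ofNat ((y - x) * 1512775394263040 / (y * 1000000000))) : ℤ) : ℝ) *
        (Real.log 2 / 2 ^ 20)
    set k : ℕ := (y - x) * 1512775394263040 / (y * 1000000000) with hk
    have h1 : k * (y * 1000000000) ≤ (y - x) * 1512775394263040 := Nat.div_mul_le_self _ _
    have h2 : (k : ℝ) * (y * 1000000000) ≤ ((y : ℝ) - x) * 1512775394263040 := by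
      have := (Nat.cast_le (α := ℝ)).2 h1
      push_cast [Nat.cast_sub h.le] at this
      exact this
    have h3 : ((-(Int.ofNat k) : ℤ) : ℝ) = -(k : ℝ) := by simp
    rw [h3]
    have h4 : (x : ℝ) / y - 1 = -(((y : ℝ) - x) / y) := by field_simp; ring
    rw [h4]
    have h5 : (k : ℝ) * (Real.log 2 / 2 ^ 20) ≤ ((y : ℝ) - x) / y := by
      rw [le_div_iff₀ hy0]
      have h6 : (k : ℝ) * y ≤ ((y : ℝ) - x) * (1512775394263040 / 1000000000) := by
        linarith only [h2]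
      have h7 : (0 : ℝ) ≤ (y : ℝ) - x := by
        have : (x : ℝ) < y := by exact_mod_cast h
        linarith only [this]
      calc (k : ℝ) * (Real.log 2 / 2 ^ 20) * y = ((k : ℝ) * y) * (Real.log 2 / 2 ^ 20) := by ring
        _ ≤ (((y : ℝ) - x) * (1512775394263040 / 1000000000)) * (Real.log 2 / 2 ^ 20) := by
            apply mul_le_mul_of_nonneg_right h6
            have := Real.log_pos (by norm_num : (1 : ℝ) < 2)
            positivity
        _ = ((y : ℝ) - x) * ((1512775394263040 / 1000000000 / 2 ^ 20) * Real.log 2) := by ring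
        _ ≤ ((y : ℝ) - x) * 1 := by
            apply mul_le_mul_of_nonneg_left _ h7
            norm_num
            linarith only [hl2]
        _ = (y : ℝ) - x := by ring
    linarith only [h5]
  · have hb : Nat.ble y x = true := Nat.ble_eq_true_of_le h
    rw [hb]
    change (x : ℝ) / y - 1 ≤
      ((Int.ofNat ((x - y) * 1512775397408768 / (y * 1000000000) + 1) : ℤ) : ℝ) *
        (Real.log 2 / 2 ^ 20)
    set k : ℕ := (x - y) * 1512775397408768 / (y * 1000000000) with hk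
    have h1 : (x - y) * 1512775397408768 < (k + 1) * (y * 1000000000) := by
      rw [hk]
      have := Nat.lt_div_mul_add (a := (x - y) * 1512775397408768) (b := y * 1000000000)
        (by omega)
      nlinarith only [this]
    have h2 : ((x : ℝ) - y) * 1512775397408768 ≤ ((k : ℝ) + 1) * (y * 1000000000) := by
      have := (Nat.cast_le (α := ℝ)).2 h1.le
      push_cast [Nat.cast_sub h] at this
      exact this
    have h3 : ((Int.ofNat (k + 1) : ℤ) : ℝ) = (k : ℝ) + 1 := by simp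
    rw [h3]
    have h4 : (x : ℝ) / y - 1 = ((x : ℝ) - y) / y := by field_simp
    rw [h4, div_le_iff₀ hy0]
    have h6 : ((x : ℝ) - y) * (1512775397408768 / 1000000000) ≤ ((k : ℝ) + 1) * y := by
      linarith only [h2]
    have h7 : (0 : ℝ) ≤ (x : ℝ) - y := by
      have : (y : ℝ) ≤ x := by exact_mod_cast h
      linarith only [this]
    calc (x : ℝ) - y = ((x : ℝ) - y) * 1 := by ring
      _ ≤ ((x : ℝ) - y) * ((1512775397408768 / 1000000000 / 2 ^ 20) * Real.log 2) := by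
          apply mul_le_mul_of_nonneg_left _ h7
          norm_num
          linarith only [hl1]
      _ = (((x : ℝ) - y) * (1512775397408768 / 1000000000)) * (Real.log 2 / 2 ^ 20) := by ring
      _ ≤ (((k : ℝ) + 1) * y) * (Real.log 2 / 2 ^ 20) := by
          apply mul_le_mul_of_nonneg_right h6
          have := Real.log_pos (by norm_num : (1 : ℝ) < 2)
          positivity
      _ = ((k : ℝ) + 1) * (Real.log 2 / 2 ^ 20) * y := by ring

/-- one factor of the denominator -/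
theorem ChD_one {x1 x2 y1 y2 r t : ℝ} {a b c : ℕ} {qa qb A : ℝ} (ha : 1 ≤ a) (hb : 1 ≤ b)
    (h0 : 0 ≤ t) (h1 : t ≤ 1)
    (hqa : qa = (2 * x1 - r) ^ 2 + (2 * x2) ^ 2) (hqb : qb = (2 * y1 - r) ^ 2 + (2 * y2) ^ 2)
    (hA : A = (x1 - y1) ^ 2 + (x2 - y2) ^ 2) (hae : (a : ℝ) = qa - A) (hbe : (b : ℝ) = qb - A) :
    (c : ℝ) ≤ ((2 * ((1 - t) * x1 + t * y1) - r) ^ 2 + (2 * ((1 - t) * x2 + t * y2)) ^ 2) *
      Real.exp (((1 - t) * (cC c a : ℝ) + t * (cC c b : ℝ)) * ChD_lam) := by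
  have ha0 : (1 : ℝ) ≤ a := by exact_mod_cast ha
  have hb0 : (1 : ℝ) ≤ b := by exact_mod_cast hb
  have hc0 : (0 : ℝ) ≤ c := Nat.cast_nonneg c
  have hL : (1 - t) * (a : ℝ) + t * b ≤
      (2 * ((1 - t) * x1 + t * y1) - r) ^ 2 + (2 * ((1 - t) * x2 + t * y2)) ^ 2 := by
    rw [hae, hbe, hqa, hqb, hA]
    nlinarith only [mul_nonneg (sq_nonneg (2 * t - 1)) (add_nonneg (sq_nonneg (x1 - y1))
      (sq_nonneg (x2 - y2)))]
  have hLpos : 0 < (1 - t) * (a : ℝ) + t * b := by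
    nlinarith only [mul_nonneg h0 (sub_nonneg.2 hb0),
      mul_nonneg (sub_nonneg.2 h1) (sub_nonneg.2 ha0)]
  have hX : (c : ℝ) ≤ ((1 - t) * (a : ℝ) + t * b) * ((1 - t) * (c / a) + t * (c / b)) := by
    have ha' : (0 : ℝ) < a := by linarith only [ha0]
    have hb' : (0 : ℝ) < b := by linarith only [hb0]
    have h5 : ((1 - t) * (a : ℝ) + t * b) * ((1 - t) * (c / a) + t * (c / b)) - c =
        t * (1 - t) * c * ((a - b) ^ 2 / (a * b)) := by
      field_simp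
      ring
    have h6 : 0 ≤ t * (1 - t) * c * (((a : ℝ) - b) ^ 2 / (a * b)) := by
      have : 0 ≤ 1 - t := by linarith only [h1]
      positivity
    linarith only [h5, h6]
  have hE : (1 - t) * ((c : ℝ) / a) + t * (c / b) ≤
      Real.exp (((1 - t) * (cC c a : ℝ) + t * (cC c b : ℝ)) * ChD_lam) := by
    have h2 := ChD_cC (x := c) ha
    have h3 := ChD_cC (x := c) hb
    have h4 : (1 - t) * ((c : ℝ) / a) + t * (c / b) - 1 ≤
        ((1 - t) * (cC c a : ℝ) + t * (cC c b : ℝ)) * ChD_lam := by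
      have e1 := mul_le_mul_of_nonneg_left h2 (sub_nonneg.2 h1)
      have e2 := mul_le_mul_of_nonneg_left h3 h0
      linarith only [e1, e2]
    have h5 := Real.add_one_le_exp (((1 - t) * (cC c a : ℝ) + t * (cC c b : ℝ)) * ChD_lam)
    linarith only [h4, h5]
  have hXn : 0 ≤ (1 - t) * ((c : ℝ) / a) + t * (c / b) := by
    have : 0 ≤ 1 - t := by linarith only [h1]
    positivity
  calc (c : ℝ) ≤ ((1 - t) * (a : ℝ) + t * b) * ((1 - t) * (c / a) + t * (c / b)) := hX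
    _ ≤ _ := mul_le_mul hL hE hXn (hLpos.le.trans hL)

theorem ChD_sq (z : ℤ) : ((Nat.pow z.natAbs 2 : ℕ) : ℝ) = (z : ℝ) ^ 2 := by
  have h : ((z.natAbs ^ 2 : ℕ) : ℤ) = z ^ 2 := by
    push_cast
    exact sq_abs z
  have h2 : (((z.natAbs ^ 2 : ℕ) : ℤ) : ℝ) = ((z ^ 2 : ℤ) : ℝ) := by rw [h]
  rw [Int.cast_natCast, Int.cast_pow] at h2
  exact h2

theorem ChD_cqe (u : ℤ × ℤ) (r : ℤ) :
    ((cqe u (r, 0) : ℕ) : ℝ) = (2 * (u.1 : ℝ) - 2048 * r) ^ 2 + (2 * (u.2 : ℝ)) ^ 2 := by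
  unfold cqe
  rw [Nat.add_eq, Nat.cast_add, ChD_sq, ChD_sq]
  push_cast
  ring

theorem ChD_cA (u v : ℤ × ℤ) :
    ((cA u v : ℕ) : ℝ) = ((u.1 : ℝ) - v.1) ^ 2 + ((u.2 : ℝ) - v.2) ^ 2 := by
  unfold cA
  rw [Nat.add_eq, Nat.cast_add, ChD_sq, ChD_sq]
  push_cast
  ring

theorem ChD_sub {a b : ℕ} (h : 1 ≤ Nat.sub a b) : ((Nat.sub a b : ℕ) : ℝ) = (a : ℝ) - b := by
  have h' : 1 ≤ a - b := h
  have : b ≤ a := by omega
  exact_mod_cast Nat.cast_sub (R := ℝ) this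

theorem ChD_re (u : ℤ × ℤ) : (pnt u).re = (u.1 : ℝ) / 2 ^ 20 := by
  unfold pnt
  simp only [Complex.add_re, Complex.ofReal_re, Complex.mul_re, Complex.I_re, Complex.ofReal_im,
    Complex.I_im]
  ring

theorem ChD_im (u : ℤ × ℤ) : (pnt u).im = (u.2 : ℝ) / 2 ^ 20 := by
  unfold pnt
  simp only [Complex.add_im, Complex.ofReal_re, Complex.mul_im, Complex.I_re, Complex.ofReal_im,
    Complex.I_im]
  ring

theorem ChD_tau (u v : ℤ × ℤ) (t : ℝ) :
    2 ^ 84 * ‖tau ((1 - (t : ℂ)) * pnt u + (t : ℂ) * pnt v)‖ ^ 2 =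
    ((2 * ((1 - t) * (u.1 : ℝ) + t * v.1) - 2048 * 5120) ^ 2 +
      (2 * ((1 - t) * (u.2 : ℝ) + t * v.2)) ^ 2) *
    ((2 * ((1 - t) * (u.1 : ℝ) + t * v.1) - 2048 * (-5120)) ^ 2 +
      (2 * ((1 - t) * (u.2 : ℝ) + t * v.2)) ^ 2) := by
  set z : ℂ := (1 - (t : ℂ)) * pnt u + (t : ℂ) * pnt v with hz
  have hre : z.re = ((1 - t) * (u.1 : ℝ) + t * v.1) / 2 ^ 20 := by
    rw [hz]
    simp only [Complex.add_re, Complex.mul_re, Complex.sub_re, Complex.one_re, Complex.ofReal_re,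
      Complex.sub_im, Complex.one_im, Complex.ofReal_im, ChD_re, ChD_im]
    ring
  have him : z.im = ((1 - t) * (u.2 : ℝ) + t * v.2) / 2 ^ 20 := by
    rw [hz]
    simp only [Complex.add_im, Complex.mul_im, Complex.sub_re, Complex.one_re, Complex.ofReal_re,
      Complex.sub_im, Complex.one_im, Complex.ofReal_im, ChD_re, ChD_im]
    ring
  have h1 : tau z = (z - ((5 : ℝ) + (0 : ℝ) * Complex.I)) * (z - ((-5 : ℝ) + (0 : ℝ) * Complex.I)) := by
    unfold tau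
    push_cast
    ring
  rw [h1, norm_mul, mul_pow, Chk_normSq, Chk_normSq, hre, him]
  ring

theorem ChD_pow' {a b G n : ℕ} (h : Nat.pow 2 G ≤ Nat.pow (Nat.mul (Nat.mul 1 a) b) n) :
    (2 : ℝ) ^ G ≤ ((a : ℝ) * b) ^ n := by
  have e4 : Nat.mul (Nat.mul 1 a) b = a * b := by
    rw [Nat.mul_eq, Nat.mul_eq, one_mul]
  rw [e4, Nat.pow_eq, Nat.pow_eq] at h
  have h2 := (Nat.cast_le (α := ℝ)).2 h
  rw [Nat.cast_pow, Nat.cast_pow, Nat.cast_mul] at h2
  exact h2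

theorem ChD_lam_mul : ChD_lam * 2 ^ 20 = Real.log 2 := by
  unfold ChD_lam
  field_simp

theorem ChD_root' {G n : ℕ} {p m : ℝ} (hn : n ≠ 0) (hm : (n : ℝ) * m = 2 ^ 20) (hp : 0 < p)
    (h : (2 : ℝ) ^ G ≤ p ^ n) : Real.exp (m * (G : ℝ) * ChD_lam) ≤ p := by
  have e5 : (2 : ℝ) ^ G = Real.exp (m * (G : ℝ) * ChD_lam) ^ n := by
    rw [← Real.exp_nat_mul]
    have : (n : ℝ) * (m * (G : ℝ) * ChD_lam) = (G : ℝ) * Real.log 2 := by
      rw [← ChD_lam_mul, ← hm]; ring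
    rw [this, Real.exp_nat_mul, Real.exp_log (by norm_num)]
  rw [e5] at h
  exact (pow_le_pow_iff_left₀ (Real.exp_pos _).le hp.le hn).1 h

theorem ChD_root {a b G : ℕ} (ha : 1 ≤ a) (hb : 1 ≤ b)
    (h : Nat.pow 2 G ≤ Nat.pow (Nat.mul (Nat.mul 1 a) b) 2048) :
    Real.exp (512 * (G : ℝ) * ChD_lam) ≤ (a : ℝ) * b := by
  have hp0 : (0 : ℝ) < (a : ℝ) * b := by
    have e1 : (0 : ℝ) < a := by exact_mod_cast ha
    have e2 : (0 : ℝ) < b := by exact_mod_cast hb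
    positivity
  exact ChD_root' (by omega) (by norm_num) hp0 (ChD_pow' h)

theorem ChD_ia {a b c d : ℤ} (h : Int.add a (Int.add (Int.add 0 b) c) ≤ d) :
    (a : ℝ) + ((b : ℝ) + (c : ℝ)) ≤ (d : ℝ) := by
  have h1 : a + (0 + b + c) ≤ d := h
  rw [zero_add] at h1
  exact_mod_cast h1

/-- the denominator `τ` -/
theorem okD_spec {u v : ℤ × ℤ} {e : ℕ × ℤ × ℤ}
    (h : okD u v (Fac.roots (.re 5120)) 88080384 e = true) {t : ℝ} (h0 : 0 ≤ t) (h1 : t ≤ 1) :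
    1 ≤ Real.exp (((1 - t) * (e.2.1 : ℝ) + t * (e.2.2 : ℝ)) * (Real.log 2 / 2 ^ 20)) *
      ‖tau ((1 - (t : ℂ)) * pnt u + (t : ℂ) * pnt v)‖ ^ 2 := by
  obtain ⟨G, E1, E2⟩ := e
  simp only [okD, Fac.roots, goD, ChD_frc, ChD_frcZ, Bool.and_eq_true] at h
  obtain ⟨⟨ha1, hb1, hc1⟩, ⟨ha2, hb2, hc2⟩, hP, hz1, hz2⟩ := h
  have ha1' := Nat.le_of_ble_eq_true ha1
  have hb1' := Nat.le_of_ble_eq_true hb1
  have ha2' := Nat.le_of_ble_eq_true ha2
  have hb2' := Nat.le_of_ble_eq_true hb2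
  have hc1' := Nat.le_of_ble_eq_true hc1
  have hc2' := Nat.le_of_ble_eq_true hc2
  have hP' := Nat.le_of_ble_eq_true hP
  simp only [zle, decide_eq_true_eq] at hz1 hz2
  set c1 : ℕ := cqm u v (5120, 0) with hc1d
  set c2 : ℕ := cqm u v (-5120, 0) with hc2d
  set a1 : ℕ := Nat.sub (cqe u (5120, 0)) (cA u v) with ha1d
  set b1 : ℕ := Nat.sub (cqe v (5120, 0)) (cA u v) with hb1d
  set a2 : ℕ := Nat.sub (cqe u (-5120, 0)) (cA u v) with ha2d
  set b2 : ℕ := Nat.sub (cqe v (-5120, 0)) (cA u v) with hb2d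
  have k1 := ChD_one (x1 := (u.1 : ℝ)) (x2 := (u.2 : ℝ)) (y1 := (v.1 : ℝ)) (y2 := (v.2 : ℝ))
    (r := 2048 * ((5120 : ℤ) : ℝ)) (t := t) (c := c1) ha1' hb1' h0 h1
    (ChD_cqe u 5120) (ChD_cqe v 5120) (ChD_cA u v) (ChD_sub ha1') (ChD_sub hb1')
  have k2 := ChD_one (x1 := (u.1 : ℝ)) (x2 := (u.2 : ℝ)) (y1 := (v.1 : ℝ)) (y2 := (v.2 : ℝ))
    (r := 2048 * ((-5120 : ℤ) : ℝ)) (t := t) (c := c2) ha2' hb2' h0 h1
    (ChD_cqe u (-5120)) (ChD_cqe v (-5120)) (ChD_cA u v) (ChD_sub ha2') (ChD_sub hb2')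
  have hT := ChD_tau u v t
  push_cast at k1 k2
  have hprod : ((c1 : ℝ) * c2) ≤ 2 ^ 84 * ‖tau ((1 - (t : ℂ)) * pnt u + (t : ℂ) * pnt v)‖ ^ 2 *
      Real.exp ((((1 - t) * (cC c1 a1 : ℝ) + t * (cC c1 b1 : ℝ)) +
        ((1 - t) * (cC c2 a2 : ℝ) + t * (cC c2 b2 : ℝ))) * ChD_lam) := by
    rw [hT, show ∀ A B : ℝ, Real.exp ((A + B) * ChD_lam) = Real.exp (A * ChD_lam) *
      Real.exp (B * ChD_lam) from fun A B => by rw [add_mul, Real.exp_add]]
    calc (c1 : ℝ) * c2 ≤ _ := mul_le_mul k1 k2 (Nat.cast_nonneg _) ((Nat.cast_nonneg _).trans k1)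
      _ = _ := by ring
  have hexpn : (2 : ℝ) ^ 84 = Real.exp (88080384 * ChD_lam) := by
    have : (88080384 : ℝ) * ChD_lam = (84 : ℕ) * Real.log 2 := by
      rw [← ChD_lam_mul]; push_cast; ring
    rw [this, Real.exp_nat_mul, Real.exp_log (by norm_num)]
  have hPG : Real.exp (512 * (G : ℝ) * ChD_lam) ≤ (c1 : ℝ) * c2 := by
    exact ChD_root hc1' hc2' hP'
  have hz1' : (88080384 : ℝ) - 512 * G + ((cC c1 a1 : ℝ) + (cC c2 a2 : ℝ)) ≤ (E1 : ℝ) := by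
    have e7 := ChD_ia hz1
    push_cast at e7
    exact e7
  have hz2' : (88080384 : ℝ) - 512 * G + ((cC c1 b1 : ℝ) + (cC c2 b2 : ℝ)) ≤ (E2 : ℝ) := by
    have e7 := ChD_ia hz2
    push_cast at e7
    exact e7
  change 1 ≤ Real.exp (((1 - t) * (E1 : ℝ) + t * (E2 : ℝ)) * ChD_lam) * _
  have hfin : Real.exp (512 * (G : ℝ) * ChD_lam) ≤ Real.exp (88080384 * ChD_lam) *
      ‖tau ((1 - (t : ℂ)) * pnt u + (t : ℂ) * pnt v)‖ ^ 2 *
      Real.exp ((((1 - t) * (cC c1 a1 : ℝ) + t * (cC c1 b1 : ℝ)) +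
        ((1 - t) * (cC c2 a2 : ℝ) + t * (cC c2 b2 : ℝ))) * ChD_lam) := by
    rw [← hexpn]
    exact hPG.trans hprod
  have hmul := mul_le_mul_of_nonneg_left hfin (Real.exp_pos (-(512 * (G : ℝ) * ChD_lam))).le
  rw [← Real.exp_add, neg_add_cancel, Real.exp_zero] at hmul
  refine hmul.trans ?_
  have e8 : Real.exp (-(512 * (G : ℝ) * ChD_lam)) * (Real.exp (88080384 * ChD_lam) *
      ‖tau ((1 - (t : ℂ)) * pnt u + (t : ℂ) * pnt v)‖ ^ 2 *
      Real.exp ((((1 - t) * (cC c1 a1 : ℝ) + t * (cC c1 b1 : ℝ)) +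
        ((1 - t) * (cC c2 a2 : ℝ) + t * (cC c2 b2 : ℝ))) * ChD_lam)) =
      (Real.exp (-(512 * (G : ℝ) * ChD_lam)) * Real.exp (88080384 * ChD_lam) *
      Real.exp ((((1 - t) * (cC c1 a1 : ℝ) + t * (cC c1 b1 : ℝ)) +
        ((1 - t) * (cC c2 a2 : ℝ) + t * (cC c2 b2 : ℝ))) * ChD_lam)) *
      ‖tau ((1 - (t : ℂ)) * pnt u + (t : ℂ) * pnt v)‖ ^ 2 := by ring
  rw [e8]
  apply mul_le_mul_of_nonneg_right _ (by positivity)
  rw [← Real.exp_add, ← Real.exp_add]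
  apply Real.exp_le_exp.2
  have g1 := mul_le_mul_of_nonneg_left hz1' (sub_nonneg.2 h1)
  have g2 := mul_le_mul_of_nonneg_left hz2' h0
  have g3 : (88080384 : ℝ) - 512 * G + (((1 - t) * (cC c1 a1 : ℝ) + t * (cC c1 b1 : ℝ)) +
      ((1 - t) * (cC c2 a2 : ℝ) + t * (cC c2 b2 : ℝ))) ≤ (1 - t) * (E1 : ℝ) + t * (E2 : ℝ) := by
    linarith only [g1, g2]
  have g4 := mul_le_mul_of_nonneg_right g3 ChD_lam_pos.le
  linarith only [g4]

end Vale.Agent.P021.Det
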