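import Vale.Agent.P021.Det.Checker

/-!
# Second order interval checker for the Archimedean certificate

Roots `r` are given in units `2^(-10)`, points of subsegments in units `2^(-20)`.
All squared distances are scaled by `2^42`.  Logarithms are to base `2`, scaled by `2^20`.
-/

namespace Vale.Agent.P021.Det

/-- force the evaluation of `n` in the kernel -/
def frc {α : Type} (n : ℕ) (f : ℕ → α) : α := Nat.casesOn n (f 0) (fun k => f (Nat.succ k))

/-- force the evaluation of `z` in the kernel -/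
def frcZ {α : Type} (z : ℤ) (f : ℤ → α) : α :=
  Int.casesOn z (fun n => frc n fun n => f (Int.ofNat n)) (fun n => frc n fun n => f (Int.negSucc n))

/-- roots of a factor in units `2^(-10)` -/
def Fac.roots : Fac → List (ℤ × ℤ)
  | .quad a b => [(a, b), (-a, -b), (a, -b), (-a, b)]
  | .re a => [(a, 0), (-a, 0)]
  | .im b => [(0, b), (0, -b)]

/-- `2^42 |u - r|^2` -/
def cqe (u r : ℤ × ℤ) : ℕ :=
  Nat.add (Nat.pow (2 * u.1 - 2048 * r.1).natAbs 2) (Nat.pow (2 * u.2 - 2048 * r.2).natAbs 2)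

/-- `2^42 |(u+v)/2 - r|^2` -/
def cqm (u v r : ℤ × ℤ) : ℕ :=
  Nat.add (Nat.pow (u.1 + v.1 - 2048 * r.1).natAbs 2) (Nat.pow (u.2 + v.2 - 2048 * r.2).natAbs 2)

/-- `2^40 |u - v|^2` -/
def cA (u v : ℤ × ℤ) : ℕ := Nat.add (Nat.pow (u.1 - v.1).natAbs 2) (Nat.pow (u.2 - v.2).natAbs 2)

/-- maximum -/
def nmax (a b : ℕ) : ℕ := Nat.add a (Nat.sub b a)

/-- reference value for the linearisation of the logarithm -/
def clam (a b c : ℕ) : ℕ := nmax c (Nat.div (Nat.add (nmax a b) 1) 2)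

/-- upper bound of `2^20 (x / y - 1) / log 2` -/
def cC (x y : ℕ) : ℤ :=
  Bool.casesOn (Nat.ble y x)
    (Int.neg (Int.ofNat (Nat.div (Nat.mul (Nat.sub y x) 1512775394263040) (Nat.mul y 1000000000))))
    (Int.ofNat (Nat.succ (Nat.div (Nat.mul (Nat.sub x y) 1512775397408768)
      (Nat.mul y 1000000000))))

/-- accumulate over the roots -/
def goN (u v : ℤ × ℤ) (k : ℕ → ℤ → ℤ → Bool) : List (ℤ × ℤ) → ℕ → ℤ → ℤ → Bool
  | [], P, s, t => k P s t
  | r :: l, P, s, t =>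
    frc (cqe u r) fun a => frc (cqe v r) fun b => frc (clam a b (cqm u v r)) fun L =>
    frc (Nat.mul P L) fun P' => frcZ (Int.add s (cC a L)) fun s' =>
    frcZ (Int.add t (cC b L)) fun t' => and (Nat.ble 1 L) (goN u v k l P' s' t')

/-- accumulate over the roots -/
def goD (u v : ℤ × ℤ) (A : ℕ) (k : ℕ → ℤ → ℤ → Bool) : List (ℤ × ℤ) → ℕ → ℤ → ℤ → Bool
  | [], P, s, t => k P s t
  | r :: l, P, s, t =>
    frc (Nat.sub (cqe u r) A) fun a => frc (Nat.sub (cqe v r) A) fun b => frc (cqm u v r) fun c =>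
    frc (Nat.mul P c) fun P' => frcZ (Int.add s (cC c a)) fun s' =>
    frcZ (Int.add t (cC c b)) fun t' => and (and (Nat.ble 1 a) (and (Nat.ble 1 b) (Nat.ble 1 c)))
      (goD u v A k l P' s' t')

/-- comparison of integers -/
def zle (a b : ℤ) : Bool := decide (a ≤ b)

/-- an entry of the table: `(G, t, t')` with `P ≤ 2^(G/2048)`, and the two chord values. -/
def okN (u v : ℤ × ℤ) (l : List (ℤ × ℤ)) (n : ℤ) (e : ℕ × ℤ × ℤ) : Bool :=
  goN u v (fun P s t => and (Nat.ble (Nat.pow P 2048) (Nat.pow 2 e.1))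
    (and (zle (Int.add (512 * (e.1 : ℤ) - n) s) e.2.1)
      (zle (Int.add (512 * (e.1 : ℤ) - n) t) e.2.2))) l 1 0 0

/-- an entry of the table for the denominator: `2^(G/2048) ≤ P` -/
def okD (u v : ℤ × ℤ) (l : List (ℤ × ℤ)) (n : ℤ) (e : ℕ × ℤ × ℤ) : Bool :=
  frc (cA u v) fun A => goD u v A (fun P s t => and (Nat.ble (Nat.pow 2 e.1) (Nat.pow P 2048))
    (and (zle (Int.add (n - 512 * (e.1 : ℤ)) s) e.2.1)
      (zle (Int.add (n - 512 * (e.1 : ℤ)) t) e.2.2))) l 1 0 0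

/-- check a list of factors against a list of entries -/
def okL (u v : ℤ × ℤ) : List Fac → List (ℕ × ℤ × ℤ) → Bool
  | [], _ => true
  | _ :: _, [] => false
  | f :: fs, e :: es =>
    and (okN u v f.roots (44040192 * (f.roots.length : ℤ)) e) (okL u v fs es)

/-- `∑ e_j T_j` -/
def dot1 : List ℕ → List (ℕ × ℤ × ℤ) → ℤ → ℤ
  | e :: es, t :: ts, s => frcZ (Int.add s (Int.mul (Int.ofNat e) t.2.1)) fun s => dot1 es ts s
  | _, _, s => s

/-- `∑ e_j T_j` -/
def dot2 : List ℕ → List (ℕ × ℤ × ℤ) → ℤ → ℤ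
  | e :: es, t :: ts, s => frcZ (Int.add s (Int.mul (Int.ofNat e) t.2.2)) fun s => dot2 es ts s
  | _, _, s => s

/-- check the levels -/
def okLev (T : List (ℕ × ℤ × ℤ)) (c1 c2 : ℤ) : List (List ℕ × ℤ) → Bool
  | [] => true
  | L :: ls => and (zle (dot1 L.1 T c1) L.2) (and (zle (dot2 L.1 T c2) L.2) (okLev T c1 c2 ls))

/-- the data of one subsegment -/
structure Sub where
  tU : ℕ × ℤ × ℤ
  tQ : ℕ × ℤ × ℤ
  tT : ℕ × ℤ × ℤ
  T : List (ℕ × ℤ × ℤ)

/-- check of one subsegment: `fs` the factors, `a,b,m` half exponents of `u`, `Q`, `τ`,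
`lev` the list of levels (exponents and bound in units `2^20`) -/
def okSub (fs : List Fac) (a b m : ℕ) (lev : List (List ℕ × ℤ)) (ex : ℤ) (u v : ℤ × ℤ) (S : Sub) :
    Bool :=
  and (okL u v fs S.T) <| and (okN u v (Fac.roots (.re 0)) 88080384 S.tU) <|
  and (okN u v (Fac.roots (.quad 1024 2048)) 176160768 S.tQ) <|
  and (okD u v (Fac.roots (.re 5120)) 88080384 S.tT) <|
  frcZ ((a : ℤ) * S.tU.2.1 + (b : ℤ) * S.tQ.2.1 + (m : ℤ) * S.tT.2.1 - ex) fun c1 =>
  frcZ ((a : ℤ) * S.tU.2.2 + (b : ℤ) * S.tQ.2.2 + (m : ℤ) * S.tT.2.2 - ex) fun c2 =>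
  okLev S.T c1 c2 lev

/-- the point `U + (V-U) i / 1024` in units `2^(-20)`, `U`, `V` in units `2^(-10)` -/
def cpt (U V : ℤ × ℤ) (i : ℕ) : ℤ × ℤ :=
  (1024 * U.1 + (V.1 - U.1) * i, 1024 * U.2 + (V.2 - U.2) * i)

/-- check of the segment `[U,V]` with subdivision points `i/1024` -/
def okSegm (fs : List Fac) (a b m : ℕ) (lev : List (List ℕ × ℤ)) (ex : ℤ) (U V : ℤ × ℤ) :
    ℕ → List (ℕ × Sub) → Bool
  | _, [] => true
  | i, (j, S) :: l =>
    and (okSub fs a b m lev ex (cpt U V i) (cpt U V j) S) (okSegm fs a b m lev ex U V j l)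

/-- last subdivision point -/
def lastPt : ℕ → List (ℕ × Sub) → ℕ
  | i, [] => i
  | _, (j, _) :: l => lastPt j l

end Vale.Agent.P021.Det
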