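import Vale.Agent.P021.Det.ChordD

/-!
# Soundness of the chord checker, numerator part
-/

namespace Vale.Agent.P021.Det

theorem ChN_cqe (u r : ℤ × ℤ) :
    ((cqe u r : ℕ) : ℝ) = (2 * (u.1 : ℝ) - 2048 * r.1) ^ 2 + (2 * (u.2 : ℝ) - 2048 * r.2) ^ 2 := by
  unfold cqe
  rw [Nat.add_eq, Nat.cast_add, ChD_sq, ChD_sq]
  push_cast
  ring

/-- one factor of the numerator -/
theorem ChN_one {x1 x2 y1 y2 r1 r2 t : ℝ} {a b L : ℕ} (hL : 1 ≤ L) (h0 : 0 ≤ t) (h1 : t ≤ 1)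
    (ha : (a : ℝ) = (2 * x1 - r1) ^ 2 + (2 * x2 - r2) ^ 2)
    (hb : (b : ℝ) = (2 * y1 - r1) ^ 2 + (2 * y2 - r2) ^ 2) :
    (2 * ((1 - t) * x1 + t * y1) - r1) ^ 2 + (2 * ((1 - t) * x2 + t * y2) - r2) ^ 2 ≤
      (L : ℝ) * Real.exp (((1 - t) * (cC a L : ℝ) + t * (cC b L : ℝ)) * ChD_lam) := by
  have hL0 : (0 : ℝ) < L := by exact_mod_cast hL
  have hq : (2 * ((1 - t) * x1 + t * y1) - r1) ^ 2 + (2 * ((1 - t) * x2 + t * y2) - r2) ^ 2 ≤
      (1 - t) * (a : ℝ) + t * b := by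
    rw [ha, hb]
    have : 0 ≤ t * (1 - t) * ((2 * (x1 - y1)) ^ 2 + (2 * (x2 - y2)) ^ 2) := by
      have : 0 ≤ 1 - t := by linarith only [h1]
      positivity
    linarith only [this]
  have h2 := ChD_cC (x := a) hL
  have h3 := ChD_cC (x := b) hL
  have h4 : (1 - t) * ((a : ℝ) / L) + t * (b / L) - 1 ≤
      ((1 - t) * (cC a L : ℝ) + t * (cC b L : ℝ)) * ChD_lam := by
    have e1 := mul_le_mul_of_nonneg_left h2 (sub_nonneg.2 h1)
    have e2 := mul_le_mul_of_nonneg_left h3 h0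
    linarith only [e1, e2]
  have h5 := Real.add_one_le_exp (((1 - t) * (cC a L : ℝ) + t * (cC b L : ℝ)) * ChD_lam)
  have h6 : (1 - t) * ((a : ℝ) / L) + t * (b / L) ≤
      Real.exp (((1 - t) * (cC a L : ℝ) + t * (cC b L : ℝ)) * ChD_lam) := by
    linarith only [h4, h5]
  refine hq.trans ?_
  have h7 : (1 - t) * (a : ℝ) + t * b = L * ((1 - t) * ((a : ℝ) / L) + t * (b / L)) := by
    field_simp
  rw [h7]
  exact mul_le_mul_of_nonneg_left h6 hL0.le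

/-- `2^42 |w - r|^2` for the point with parameter `t` -/
noncomputable def ChN_q (u v : ℤ × ℤ) (t : ℝ) (r : ℤ × ℤ) : ℝ :=
  (2 * ((1 - t) * (u.1 : ℝ) + t * v.1) - 2048 * r.1) ^ 2 +
    (2 * ((1 - t) * (u.2 : ℝ) + t * v.2) - 2048 * r.2) ^ 2

theorem ChN_q_nonneg (u v : ℤ × ℤ) (t : ℝ) (r : ℤ × ℤ) : 0 ≤ ChN_q u v t r := by
  unfold ChN_q; positivity

theorem ChN_add (a b : ℤ) : ((Int.add a b : ℤ) : ℝ) = (a : ℝ) + b := by
  change ((a + b : ℤ) : ℝ) = _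
  push_cast
  rfl

theorem ChN_mul (a b : ℕ) : ((Nat.mul a b : ℕ) : ℝ) = (a : ℝ) * b := by
  rw [Nat.mul_eq, Nat.cast_mul]

theorem ChN_cons (u v : ℤ × ℤ) (k : ℕ → ℤ → ℤ → Bool) (r : ℤ × ℤ) (l : List (ℤ × ℤ)) (P : ℕ)
    (s t : ℤ) : goN u v k (r :: l) P s t =
      (frc (cqe u r) fun a => frc (cqe v r) fun b => frc (clam a b (cqm u v r)) fun L =>
      frc (Nat.mul P L) fun P' => frcZ (Int.add s (cC a L)) fun s' =>
      frcZ (Int.add t (cC b L)) fun t' => and (Nat.ble 1 L) (goN u v k l P' s' t')) := rfl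

theorem ChN_go {u v : ℤ × ℤ} (k : ℕ → ℤ → ℤ → Bool) {t : ℝ} (h0 : 0 ≤ t) (h1 : t ≤ 1) :
    ∀ (l : List (ℤ × ℤ)) (P : ℕ) (s s' : ℤ), goN u v k l P s s' = true →
      ∃ (P2 : ℕ) (z z' : ℤ), k P2 z z' = true ∧
        (P : ℝ) * Real.exp (((1 - t) * (s : ℝ) + t * (s' : ℝ)) * ChD_lam) *
          (l.map (ChN_q u v t)).prod ≤
        (P2 : ℝ) * Real.exp (((1 - t) * (z : ℝ) + t * (z' : ℝ)) * ChD_lam) := by
  intro l
  induction l with
  | nil =>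
    intro P s s' h
    refine ⟨P, s, s', h, ?_⟩
    rw [List.map_nil, List.prod_nil, mul_one]
  | cons r l ih =>
    intro P s s' h
    rw [ChN_cons] at h
    simp only [ChD_frc, ChD_frcZ, Bool.and_eq_true] at h
    obtain ⟨hL, h⟩ := h
    have hL' := Nat.le_of_ble_eq_true hL
    obtain ⟨P2, z, z', hk, hle⟩ := ih _ _ _ h
    refine ⟨P2, z, z', hk, ?_⟩
    refine le_trans ?_ hle
    have key := ChN_one (x1 := (u.1 : ℝ)) (x2 := (u.2 : ℝ)) (y1 := (v.1 : ℝ)) (y2 := (v.2 : ℝ))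
      (r1 := 2048 * (r.1 : ℝ)) (r2 := 2048 * (r.2 : ℝ)) (t := t) hL' h0 h1
      (ChN_cqe u r) (ChN_cqe v r)
    rw [List.map_cons, List.prod_cons, ChN_mul, ChN_add, ChN_add]
    change ChN_q u v t r ≤ _ at key
    have hp : 0 ≤ (l.map (ChN_q u v t)).prod := by
      apply List.prod_nonneg
      intro x hx
      obtain ⟨y, _, rfl⟩ := List.mem_map.1 hx
      exact ChN_q_nonneg u v t y
    have hP : 0 ≤ (P : ℝ) * Real.exp (((1 - t) * (s : ℝ) + t * (s' : ℝ)) * ChD_lam) := by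
      positivity
    set L : ℕ := clam (cqe u r) (cqe v r) (cqm u v r) with hLd
    have e1 : Real.exp (((1 - t) * ((s : ℝ) + (cC (cqe u r) L : ℝ)) +
        t * ((s' : ℝ) + (cC (cqe v r) L : ℝ))) * ChD_lam) =
        Real.exp (((1 - t) * (s : ℝ) + t * (s' : ℝ)) * ChD_lam) *
        Real.exp (((1 - t) * (cC (cqe u r) L : ℝ) + t * (cC (cqe v r) L : ℝ)) * ChD_lam) := by
      rw [← Real.exp_add]
      congr 1
      ring
    rw [e1]
    calc (P : ℝ) * Real.exp (((1 - t) * (s : ℝ) + t * (s' : ℝ)) * ChD_lam) *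
          (ChN_q u v t r * (l.map (ChN_q u v t)).prod)
        = ((P : ℝ) * Real.exp (((1 - t) * (s : ℝ) + t * (s' : ℝ)) * ChD_lam) * ChN_q u v t r) *
          (l.map (ChN_q u v t)).prod := by ring
      _ ≤ ((P : ℝ) * Real.exp (((1 - t) * (s : ℝ) + t * (s' : ℝ)) * ChD_lam) * ((L : ℝ) *
          Real.exp (((1 - t) * (cC (cqe u r) L : ℝ) + t * (cC (cqe v r) L : ℝ)) * ChD_lam))) *
          (l.map (ChN_q u v t)).prod :=
        mul_le_mul_of_nonneg_right (mul_le_mul_of_nonneg_left key hP) hp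
      _ = _ := by ring

theorem ChN_root' {G n : ℕ} {p m : ℝ} (hn : n ≠ 0) (hm : (n : ℝ) * m = 2 ^ 20) (hp : 0 ≤ p)
    (h : p ^ n ≤ (2 : ℝ) ^ G) : p ≤ Real.exp (m * (G : ℝ) * ChD_lam) := by
  have e5 : (2 : ℝ) ^ G = Real.exp (m * (G : ℝ) * ChD_lam) ^ n := by
    rw [← Real.exp_nat_mul]
    have : (n : ℝ) * (m * (G : ℝ) * ChD_lam) = (G : ℝ) * Real.log 2 := by
      rw [← ChD_lam_mul, ← hm]; ring
    rw [this, Real.exp_nat_mul, Real.exp_log (by norm_num)]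
  rw [e5] at h
  exact (pow_le_pow_iff_left₀ hp (Real.exp_pos _).le hn).1 h

theorem ChN_pow' {a G n : ℕ} (h : Nat.pow a n ≤ Nat.pow 2 G) : (a : ℝ) ^ n ≤ (2 : ℝ) ^ G := by
  rw [Nat.pow_eq, Nat.pow_eq] at h
  have h2 := (Nat.cast_le (α := ℝ)).2 h
  rw [Nat.cast_pow, Nat.cast_pow] at h2
  exact h2

theorem ChN_root {P G : ℕ} (h : Nat.pow P 2048 ≤ Nat.pow 2 G) :
    (P : ℝ) ≤ Real.exp (512 * (G : ℝ) * ChD_lam) :=
  ChN_root' (by omega) (by norm_num) (Nat.cast_nonneg _) (ChN_pow' h)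

theorem ChN_pt (u v : ℤ × ℤ) (t : ℝ) (r : ℤ × ℤ) :
    ChN_q u v t r = 2 ^ 42 * ‖((1 - (t : ℂ)) * pnt u + (t : ℂ) * pnt v) -
      ((((r.1 : ℝ) / 2 ^ 10 : ℝ)) + (((r.2 : ℝ) / 2 ^ 10 : ℝ)) * Complex.I)‖ ^ 2 := by
  set z : ℂ := (1 - (t : ℂ)) * pnt u + (t : ℂ) * pnt v with hz
  have hre : z.re = ((1 - t) * (u.1 : ℝ) + t * v.1) / 2 ^ 20 := by
    rw [hz]
    simp only [Complex.add_re, Complex.mul_re, Complex.sub_re, Complex.one_re, Complex.ofReal_re,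
      Complex.sub_im, Complex.one_im, Complex.ofReal_im, ChD_re, ChD_im]
    ring
  have him : z.im = ((1 - t) * (u.2 : ℝ) + t * v.2) / 2 ^ 20 := by
    rw [hz]
    simp only [Complex.add_im, Complex.mul_im, Complex.sub_re, Complex.one_re, Complex.ofReal_re,
      Complex.sub_im, Complex.one_im, Complex.ofReal_im, ChD_re, ChD_im]
    ring
  rw [Chk_normSq, hre, him]
  unfold ChN_q
  ring

theorem ChN_ev_re (a : ℤ) (s : ℂ) :
    ev (Fac.poly 10 (.re a)) s =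
      (s - (((a : ℝ) / 2 ^ 10 : ℝ) + (((0 : ℤ) : ℝ) / 2 ^ 10 : ℝ) * Complex.I)) *
      (s - ((((-a : ℤ) : ℝ) / 2 ^ 10 : ℝ) + (((0 : ℤ) : ℝ) / 2 ^ 10 : ℝ) * Complex.I)) := by
  unfold Fac.poly
  rw [ev_add, Chk_ev_C, Chk_ev_X]
  push_cast
  ring

theorem ChN_ev_im (b : ℤ) (s : ℂ) :
    ev (Fac.poly 10 (.im b)) s =
      (s - ((((0 : ℤ) : ℝ) / 2 ^ 10 : ℝ) + (((b : ℤ) : ℝ) / 2 ^ 10 : ℝ) * Complex.I)) *
      (s - ((((0 : ℤ) : ℝ) / 2 ^ 10 : ℝ) + (((-b : ℤ) : ℝ) / 2 ^ 10 : ℝ) * Complex.I)) := by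
  unfold Fac.poly
  rw [ev_add, Chk_ev_C, Chk_ev_X]
  push_cast
  have hI : Complex.I ^ 2 = -1 := Complex.I_sq
  linear_combination (((b : ℂ) / 2 ^ 10) ^ 2) * hI

theorem ChN_prod (u v : ℤ × ℤ) (t : ℝ) (f : Fac) :
    (f.roots.map (ChN_q u v t)).prod = (2 ^ 42) ^ f.roots.length *
      ‖ev (f.poly 10) ((1 - (t : ℂ)) * pnt u + (t : ℂ) * pnt v)‖ ^ 2 := by
  cases f with
  | quad a b =>
    rw [Fac.ev_quad]
    simp only [Fac.roots, List.map_cons, List.map_nil, List.prod_cons, List.prod_nil,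
      List.length_cons, List.length_nil, ChN_pt, norm_mul]
    ring
  | re a =>
    rw [ChN_ev_re]
    simp only [Fac.roots, List.map_cons, List.map_nil, List.prod_cons, List.prod_nil,
      List.length_cons, List.length_nil, ChN_pt, norm_mul]
    ring
  | im b =>
    rw [ChN_ev_im]
    simp only [Fac.roots, List.map_cons, List.map_nil, List.prod_cons, List.prod_nil,
      List.length_cons, List.length_nil, ChN_pt, norm_mul]
    ring

theorem ChN_scale (n : ℕ) : ((2 : ℝ) ^ 42) ^ n = Real.exp (44040192 * (n : ℝ) * ChD_lam) := by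
  have : (44040192 : ℝ) * (n : ℝ) * ChD_lam = ((42 * n : ℕ) : ℝ) * Real.log 2 := by
    rw [← ChD_lam_mul]; push_cast; ring
  rw [this, Real.exp_nat_mul, Real.exp_log (by norm_num), pow_mul]

/-- numerator factors -/
theorem okN_spec {u v : ℤ × ℤ} {f : Fac} {e : ℕ × ℤ × ℤ}
    (h : okN u v f.roots (44040192 * (f.roots.length : ℤ)) e = true) {t : ℝ} (h0 : 0 ≤ t)
    (h1 : t ≤ 1) :
    ‖ev (f.poly 10) ((1 - (t : ℂ)) * pnt u + (t : ℂ) * pnt v)‖ ^ 2 ≤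
      Real.exp (((1 - t) * (e.2.1 : ℝ) + t * (e.2.2 : ℝ)) * (Real.log 2 / 2 ^ 20)) := by
  obtain ⟨G, E1, E2⟩ := e
  unfold okN at h
  obtain ⟨P, z, z', hk, hle⟩ := ChN_go _ h0 h1 _ _ _ _ h
  rw [Bool.and_eq_true, Bool.and_eq_true] at hk
  obtain ⟨hP, hz1, hz2⟩ := hk
  have hP' := ChN_root (Nat.le_of_ble_eq_true hP)
  simp only [zle, decide_eq_true_eq] at hz1 hz2
  rw [ChN_prod, ChN_scale] at hle
  rw [Int.cast_zero, mul_zero, mul_zero, add_zero, zero_mul, Real.exp_zero, mul_one, Nat.cast_one,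
    one_mul] at hle
  set n : ℕ := f.roots.length with hn
  have hz1' : (512 : ℝ) * G - 44040192 * n + z ≤ E1 := by
    have e7 := (Int.cast_le (R := ℝ)).2 hz1
    rw [ChN_add] at e7
    push_cast at e7
    exact e7
  have hz2' : (512 : ℝ) * G - 44040192 * n + z' ≤ E2 := by
    have e7 := (Int.cast_le (R := ℝ)).2 hz2
    rw [ChN_add] at e7
    push_cast at e7
    exact e7
  change _ ≤ Real.exp (((1 - t) * (E1 : ℝ) + t * (E2 : ℝ)) * ChD_lam)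
  set N : ℝ := ‖ev (f.poly 10) ((1 - (t : ℂ)) * pnt u + (t : ℂ) * pnt v)‖ ^ 2 with hN
  have h2 : Real.exp (44040192 * (n : ℝ) * ChD_lam) * N ≤
      Real.exp (512 * (G : ℝ) * ChD_lam) *
        Real.exp (((1 - t) * (z : ℝ) + t * (z' : ℝ)) * ChD_lam) :=
    hle.trans (mul_le_mul_of_nonneg_right hP' (Real.exp_pos _).le)
  have h3 := mul_le_mul_of_nonneg_left h2 (Real.exp_pos (-(44040192 * (n : ℝ) * ChD_lam))).le
  rw [← mul_assoc, ← Real.exp_add, neg_add_cancel, Real.exp_zero, one_mul, ← Real.exp_add,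
    ← Real.exp_add] at h3
  refine h3.trans (Real.exp_le_exp.2 ?_)
  have g1 := mul_le_mul_of_nonneg_left hz1' (sub_nonneg.2 h1)
  have g2 := mul_le_mul_of_nonneg_left hz2' h0
  have g3 : (512 : ℝ) * G - 44040192 * n + ((1 - t) * (z : ℝ) + t * (z' : ℝ)) ≤
      (1 - t) * (E1 : ℝ) + t * (E2 : ℝ) := by
    linarith only [g1, g2]
  have g4 := mul_le_mul_of_nonneg_right g3 ChD_lam_pos.le
  linarith only [g4]

end Vale.Agent.P021.Det
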