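import Vale.Agent.P021.Det.ChordDefs

namespace Vale.Agent.P021.Det

/-- the complex point with coordinates in units `2^(-20)` -/
noncomputable def pnt (u : ℤ × ℤ) : ℂ :=
  (((u.1 : ℝ) / 2 ^ 20 : ℝ) : ℂ) + (((u.2 : ℝ) / 2 ^ 20 : ℝ) : ℂ) * Complex.I

end Vale.Agent.P021.Det
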