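import Vale.Agent.P021.Det.ChordCert

/-!
# Table-free version of the chord checker: all entries are computed by the kernel
-/

namespace Vale.Agent.P021.Det

/-- binary search for the binary logarithm of `Q` (no property of the result is used) -/
def lgB (Q : ℕ) (k : ℕ → Bool) : List ℕ → ℕ → Bool
  | [], acc => k acc
  | b :: l, acc => frc (Nat.add acc b) fun c =>
    Bool.casesOn (Nat.ble (Nat.pow 2 c) Q) (lgB Q k l acc) (lgB Q k l c)

/-- repeated squaring with truncation, rounding up: keeps `P ^ (2 ^ i) ≤ m * 2 ^ s` -/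
def sqU : ℕ → ℕ → ℕ → (ℕ → ℕ → Bool) → Bool
  | 0, m, s, k => k m s
  | j + 1, m, s, k =>
    frc (Nat.mul m m) fun y =>
    Bool.casesOn (Nat.ble 170141183460469231731687303715884105728 y)
      (frc (Nat.div (Nat.add y 9223372036854775807) 9223372036854775808) fun m' =>
        frc (Nat.add (Nat.mul 2 s) 63) fun s' => sqU j m' s' k)
      (frc (Nat.div (Nat.add y 18446744073709551615) 18446744073709551616) fun m' =>
        frc (Nat.add (Nat.mul 2 s) 64) fun s' => sqU j m' s' k)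

/-- repeated squaring with truncation, rounding down -/
def sqL : ℕ → ℕ → ℕ → (ℕ → ℕ → Bool) → Bool
  | 0, m, s, k => k m s
  | j + 1, m, s, k =>
    frc (Nat.mul m m) fun y =>
    Bool.casesOn (Nat.ble 170141183460469231731687303715884105728 y)
      (frc (Nat.div y 9223372036854775808) fun m' =>
        frc (Nat.add (Nat.mul 2 s) 63) fun s' => sqL j m' s' k)
      (frc (Nat.div y 18446744073709551616) fun m' =>
        frc (Nat.add (Nat.mul 2 s) 64) fun s' => sqL j m' s' k)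

/-- an integer `G` with `P ^ 2048 ≤ 2 ^ G` -/
def lgU (P : ℕ) (k : ℕ → Bool) : Bool :=
  frc (Nat.mul P 4294967296) fun Q => lgB Q (fun g => frc (Nat.sub g 63) fun r =>
    frc (Nat.pow 2 r) fun c => frc (Nat.div (Nat.add Q (Nat.sub c 1)) c) fun m0 =>
    sqU 11 m0 r fun m s => and (Nat.ble m 18446744073709551616) (and (Nat.ble 65472 s)
      (frc (Nat.sub s 65472) k))) [128, 64, 32, 16, 8, 4, 2, 1] 0

/-- an integer `G` with `2 ^ G ≤ P ^ 2048` -/
def lgL (P : ℕ) (k : ℕ → Bool) : Bool :=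
  frc (Nat.mul P 4294967296) fun Q => lgB Q (fun g => frc (Nat.sub g 63) fun r =>
    frc (Nat.pow 2 r) fun c => frc (Nat.div Q c) fun m0 =>
    sqL 11 m0 r fun m s => and (Nat.ble 9223372036854775808 m) (and (Nat.ble 65473 s)
      (frc (Nat.sub s 65473) k))) [128, 64, 32, 16, 8, 4, 2, 1] 0

/-- compute the entry of a numerator factor -/
def entN (u v : ℤ × ℤ) (l : List (ℤ × ℤ)) (n : ℤ) (k : ℕ × ℤ × ℤ → Bool) : Bool :=
  goN u v (fun P s t => lgU P fun G =>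
    frcZ (Int.add (512 * (G : ℤ) - n) s) fun a => frcZ (Int.add (512 * (G : ℤ) - n) t) fun b =>
    k (G, a, b)) l 1 0 0

/-- compute the entry of the denominator -/
def entD (u v : ℤ × ℤ) (l : List (ℤ × ℤ)) (n : ℤ) (k : ℕ × ℤ × ℤ → Bool) : Bool :=
  frc (cA u v) fun A => goD u v A (fun P s t => lgL P fun g =>
    frcZ (Int.add (n - 512 * (g : ℤ)) s) fun a => frcZ (Int.add (n - 512 * (g : ℤ)) t) fun b =>
    k (g, a, b)) l 1 0 0

/-- the entries of a list of factors -/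
def runL (u v : ℤ × ℤ) : List Fac → (List (ℕ × ℤ × ℤ) → Bool) → Bool
  | [], k => k []
  | f :: fs, k =>
    entN u v f.roots (44040192 * (f.roots.length : ℤ)) fun e => runL u v fs fun T => k (e :: T)

/-- check of one subsegment -/
def runSub (fs : List Fac) (a b m : ℕ) (lev : List (List ℕ × ℤ)) (ex : ℤ) (u v : ℤ × ℤ) : Bool :=
  runL u v fs fun T => entN u v (Fac.roots (.re 0)) 88080384 fun tU =>
  entN u v (Fac.roots (.quad 1024 2048)) 176160768 fun tQ =>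
  entD u v (Fac.roots (.re 5120)) 88080384 fun tT =>
  frcZ ((a : ℤ) * tU.2.1 + (b : ℤ) * tQ.2.1 + (m : ℤ) * tT.2.1 - ex) fun c1 =>
  frcZ ((a : ℤ) * tU.2.2 + (b : ℤ) * tQ.2.2 + (m : ℤ) * tT.2.2 - ex) fun c2 =>
  okLev T c1 c2 lev

/-- force a point -/
def frcP (u : ℤ × ℤ) (k : ℤ × ℤ → Bool) : Bool := frcZ u.1 fun x => frcZ u.2 fun y => k (x, y)

/-- check of a segment -/
def runSegm (fs : List Fac) (a b m : ℕ) (lev : List (List ℕ × ℤ)) (ex : ℤ) (U V : ℤ × ℤ) :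
    ℕ → List ℕ → Bool
  | _, [] => true
  | i, j :: l => and (frcP (cpt U V i) fun u => frcP (cpt U V j) fun v =>
      runSub fs a b m lev ex u v) (runSegm fs a b m lev ex U V j l)

/-- last subdivision point -/
def lastN : ℕ → List ℕ → ℕ
  | i, [] => i
  | _, j :: l => lastN j l

/-! ### soundness -/

theorem Run_goN_nil (u v : ℤ × ℤ) (k : ℕ → ℤ → ℤ → Bool) (P : ℕ) (s t : ℤ) :
    goN u v k [] P s t = k P s t := rfl

theorem Run_goN_cons (u v : ℤ × ℤ) (k : ℕ → ℤ → ℤ → Bool) (r : ℤ × ℤ) (l : List (ℤ × ℤ))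
    (P : ℕ) (s t : ℤ) : goN u v k (r :: l) P s t =
    frc (cqe u r) fun a => frc (cqe v r) fun b => frc (clam a b (cqm u v r)) fun L =>
    frc (Nat.mul P L) fun P' => frcZ (Int.add s (cC a L)) fun s' =>
    frcZ (Int.add t (cC b L)) fun t' => and (Nat.ble 1 L) (goN u v k l P' s' t') := rfl

theorem Run_goD_nil (u v : ℤ × ℤ) (A : ℕ) (k : ℕ → ℤ → ℤ → Bool) (P : ℕ) (s t : ℤ) :
    goD u v A k [] P s t = k P s t := rfl

theorem Run_goD_cons (u v : ℤ × ℤ) (A : ℕ) (k : ℕ → ℤ → ℤ → Bool) (r : ℤ × ℤ)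
    (l : List (ℤ × ℤ)) (P : ℕ) (s t : ℤ) : goD u v A k (r :: l) P s t =
    frc (Nat.sub (cqe u r) A) fun a => frc (Nat.sub (cqe v r) A) fun b => frc (cqm u v r) fun c =>
    frc (Nat.mul P c) fun P' => frcZ (Int.add s (cC c a)) fun s' =>
    frcZ (Int.add t (cC c b)) fun t' => and (and (Nat.ble 1 a) (and (Nat.ble 1 b) (Nat.ble 1 c)))
      (goD u v A k l P' s' t') := rfl

theorem Run_okL_cons (u v : ℤ × ℤ) (f : Fac) (fs : List Fac) (e : ℕ × ℤ × ℤ)
    (es : List (ℕ × ℤ × ℤ)) : okL u v (f :: fs) (e :: es) =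
    and (okN u v f.roots (44040192 * (f.roots.length : ℤ)) e) (okL u v fs es) := rfl

theorem Run_okSegm_cons (fs : List Fac) (a b m : ℕ) (lev : List (List ℕ × ℤ)) (ex : ℤ)
    (U V : ℤ × ℤ) (i j : ℕ) (S : Sub) (l : List (ℕ × Sub)) :
    okSegm fs a b m lev ex U V i ((j, S) :: l) =
    and (okSub fs a b m lev ex (cpt U V i) (cpt U V j) S)
      (okSegm fs a b m lev ex U V j l) := rfl

theorem Run_goN_ex (u v : ℤ × ℤ) (l : List (ℤ × ℤ)) : ∀ (P : ℕ) (s t : ℤ),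
    ∃ (c : Bool) (P' : ℕ) (s' t' : ℤ), ∀ k, goN u v k l P s t = (c && k P' s' t') := by
  induction l with
  | nil => intro P s t; exact ⟨true, P, s, t, fun k => by rw [Run_goN_nil, Bool.true_and]⟩
  | cons r l ih =>
    intro P s t
    obtain ⟨c, P', s', t', h⟩ := ih (Nat.mul P (clam (cqe u r) (cqe v r) (cqm u v r)))
      (Int.add s (cC (cqe u r) (clam (cqe u r) (cqe v r) (cqm u v r))))
      (Int.add t (cC (cqe v r) (clam (cqe u r) (cqe v r) (cqm u v r))))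
    refine ⟨Nat.ble 1 (clam (cqe u r) (cqe v r) (cqm u v r)) && c, P', s', t', fun k => ?_⟩
    rw [Run_goN_cons]
    simp only [frc_eq, frcZ_eq, h k, Bool.and_assoc]

theorem Run_goD_ex (u v : ℤ × ℤ) (A : ℕ) (l : List (ℤ × ℤ)) : ∀ (P : ℕ) (s t : ℤ),
    ∃ (c : Bool) (P' : ℕ) (s' t' : ℤ), ∀ k, goD u v A k l P s t = (c && k P' s' t') := by
  induction l with
  | nil => intro P s t; exact ⟨true, P, s, t, fun k => by rw [Run_goD_nil, Bool.true_and]⟩
  | cons r l ih =>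
    intro P s t
    obtain ⟨c, P', s', t', h⟩ := ih (Nat.mul P (cqm u v r))
      (Int.add s (cC (cqm u v r) (Nat.sub (cqe u r) A)))
      (Int.add t (cC (cqm u v r) (Nat.sub (cqe v r) A)))
    refine ⟨(Nat.ble 1 (Nat.sub (cqe u r) A) && (Nat.ble 1 (Nat.sub (cqe v r) A) &&
      Nat.ble 1 (cqm u v r))) && c, P', s', t', fun k => ?_⟩
    rw [Run_goD_cons]
    simp only [frc_eq, frcZ_eq, h k, Bool.and_assoc]

theorem Run_lgB_ex (Q : ℕ) (l : List ℕ) : ∀ acc : ℕ, ∃ g : ℕ, ∀ k, lgB Q k l acc = k g := by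
  induction l with
  | nil => intro acc; exact ⟨acc, fun k => rfl⟩
  | cons b l ih =>
    intro acc
    cases h : Nat.ble (Nat.pow 2 (Nat.add acc b)) Q with
    | false =>
      obtain ⟨g, hg⟩ := ih acc
      refine ⟨g, fun k => ?_⟩
      rw [← hg k]
      simp only [lgB, frc_eq, h]
    | true =>
      obtain ⟨g, hg⟩ := ih (Nat.add acc b)
      refine ⟨g, fun k => ?_⟩
      rw [← hg k]
      simp only [lgB, frc_eq, h]

theorem Run_sqU_ex (j : ℕ) : ∀ m s : ℕ, ∃ m' s' : ℕ, (∀ k, sqU j m s k = k m' s') ∧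
    (m * 2 ^ s) ^ (2 ^ j) ≤ m' * 2 ^ s' := by
  induction j with
  | zero => intro m s; exact ⟨m, s, fun k => rfl, by simp⟩
  | succ j ih =>
    intro m s
    have key : ∀ (c r m1 : ℕ), c = 2 ^ r → m * m ≤ m1 * c →
        (m * 2 ^ s) ^ (2 ^ (j + 1)) ≤ (m1 * 2 ^ (2 * s + r)) ^ (2 ^ j) := by
      intro c r m1 hc h
      rw [pow_succ', pow_mul]
      refine Nat.pow_le_pow_left ?_ _
      calc (m * 2 ^ s) ^ 2 = m * m * 2 ^ (2 * s) := by ring
        _ ≤ (m1 * c) * 2 ^ (2 * s) := Nat.mul_le_mul_right _ h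
        _ = _ := by rw [hc]; ring
    cases h : Nat.ble 170141183460469231731687303715884105728 (Nat.mul m m) with
    | false =>
      obtain ⟨m', s', h1, h2⟩ := ih
        ((m * m + 9223372036854775807) / 9223372036854775808) (2 * s + 63)
      refine ⟨m', s', fun k => ?_, le_trans ?_ h2⟩
      · rw [← h1 k]
        simp only [sqU, frc_eq, h]
        rfl
      · exact key 9223372036854775808 63 _ (by norm_num) (by omega)
    | true =>
      obtain ⟨m', s', h1, h2⟩ := ih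
        ((m * m + 18446744073709551615) / 18446744073709551616) (2 * s + 64)
      refine ⟨m', s', fun k => ?_, le_trans ?_ h2⟩
      · rw [← h1 k]
        simp only [sqU, frc_eq, h]
        rfl
      · exact key 18446744073709551616 64 _ (by norm_num) (by omega)

theorem Run_sqL_ex (j : ℕ) : ∀ m s : ℕ, ∃ m' s' : ℕ, (∀ k, sqL j m s k = k m' s') ∧
    m' * 2 ^ s' ≤ (m * 2 ^ s) ^ (2 ^ j) := by
  induction j with
  | zero => intro m s; exact ⟨m, s, fun k => rfl, by simp⟩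
  | succ j ih =>
    intro m s
    have key : ∀ (c r m1 : ℕ), c = 2 ^ r → m1 * c ≤ m * m →
        (m1 * 2 ^ (2 * s + r)) ^ (2 ^ j) ≤ (m * 2 ^ s) ^ (2 ^ (j + 1)) := by
      intro c r m1 hc h
      rw [pow_succ' 2 j, pow_mul (m * 2 ^ s)]
      refine Nat.pow_le_pow_left ?_ _
      calc m1 * 2 ^ (2 * s + r) = (m1 * c) * 2 ^ (2 * s) := by rw [hc]; ring
        _ ≤ m * m * 2 ^ (2 * s) := Nat.mul_le_mul_right _ h
        _ = _ := by ring
    cases h : Nat.ble 170141183460469231731687303715884105728 (Nat.mul m m) with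
    | false =>
      obtain ⟨m', s', h1, h2⟩ := ih (m * m / 9223372036854775808) (2 * s + 63)
      refine ⟨m', s', fun k => ?_, le_trans h2 ?_⟩
      · rw [← h1 k]
        simp only [sqL, frc_eq, h]
        rfl
      · exact key 9223372036854775808 63 _ (by norm_num) (by omega)
    | true =>
      obtain ⟨m', s', h1, h2⟩ := ih (m * m / 18446744073709551616) (2 * s + 64)
      refine ⟨m', s', fun k => ?_, le_trans h2 ?_⟩
      · rw [← h1 k]
        simp only [sqL, frc_eq, h]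
        rfl
      · exact key 18446744073709551616 64 _ (by norm_num) (by omega)

theorem Run_pow_le {a b x : ℕ} (hx : a * 2 ^ 32 ≤ x)
    (h : x ^ 2048 ≤ 2 ^ (b + 65536)) : a ^ 2048 ≤ 2 ^ b := by
  have h1 : (a * 2 ^ 32) ^ 2048 ≤ 2 ^ (b + 65536) := (Nat.pow_le_pow_left hx _).trans h
  rw [mul_pow, ← pow_mul, pow_add] at h1
  exact Nat.le_of_mul_le_mul_right h1 (Nat.two_pow_pos _)

theorem lgU_ex {P : ℕ} {k : ℕ → Bool} (h : lgU P k = true) :
    ∃ G, P ^ 2048 ≤ 2 ^ G ∧ k G = true := by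
  unfold lgU at h
  rw [frc_eq] at h
  obtain ⟨g, hg⟩ := Run_lgB_ex (Nat.mul P 4294967296) [128, 64, 32, 16, 8, 4, 2, 1] 0
  rw [hg] at h
  simp only [frc_eq] at h
  set r := Nat.sub g 63 with hr
  set Q := Nat.mul P 4294967296 with hQ
  set m0 := Nat.div (Nat.add Q (Nat.sub (Nat.pow 2 r) 1)) (Nat.pow 2 r) with hm0
  obtain ⟨m, s, hs, hle⟩ := Run_sqU_ex 11 m0 r
  rw [hs] at h
  simp only [Bool.and_eq_true, Nat.ble_eq] at h
  refine ⟨_, ?_, h.2.2⟩
  have h0 : Q ≤ m0 * 2 ^ r := by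
    have h1 : m0 = (Q + (2 ^ r - 1)) / 2 ^ r := rfl
    rw [h1]
    have h2 := Nat.div_add_mod (Q + (2 ^ r - 1)) (2 ^ r)
    have h3 := Nat.mod_lt (Q + (2 ^ r - 1)) (Nat.two_pow_pos r)
    rw [mul_comm]
    omega
  have h4 : P * 2 ^ 32 ≤ m0 * 2 ^ r := by
    refine le_trans (le_of_eq ?_) h0
    show P * 2 ^ 32 = P * 4294967296
    norm_num
  refine Run_pow_le h4 ?_
  have h5 : (m0 * 2 ^ r) ^ 2048 ≤ m * 2 ^ s := by simpa using hle
  refine h5.trans ?_
  have h6 : s - 65472 + 65536 = 64 + s := by omega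
  calc m * 2 ^ s ≤ 18446744073709551616 * 2 ^ s := Nat.mul_le_mul_right _ h.1
    _ = 2 ^ (64 + s) := by rw [pow_add]; norm_num
    _ = 2 ^ (s - 65472 + 65536) := by rw [h6]

theorem lgL_ex {P : ℕ} {k : ℕ → Bool} (h : lgL P k = true) :
    ∃ G, 2 ^ G ≤ P ^ 2048 ∧ k G = true := by
  unfold lgL at h
  rw [frc_eq] at h
  obtain ⟨g, hg⟩ := Run_lgB_ex (Nat.mul P 4294967296) [128, 64, 32, 16, 8, 4, 2, 1] 0
  rw [hg] at h
  simp only [frc_eq] at h
  set r := Nat.sub g 63 with hr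
  set Q := Nat.mul P 4294967296 with hQ
  set m0 := Nat.div Q (Nat.pow 2 r) with hm0
  obtain ⟨m, s, hs, hle⟩ := Run_sqL_ex 11 m0 r
  rw [hs] at h
  simp only [Bool.and_eq_true, Nat.ble_eq] at h
  refine ⟨_, ?_, h.2.2⟩
  have h0 : m0 * 2 ^ r ≤ Q := Nat.div_mul_le_self _ _
  have h4 : m0 * 2 ^ r ≤ P * 2 ^ 32 := by
    refine h0.trans (le_of_eq ?_)
    show P * 4294967296 = P * 2 ^ 32
    norm_num
  have h5 : m * 2 ^ s ≤ (m0 * 2 ^ r) ^ 2048 := by simpa using hle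
  have h6 : s - 65473 + 65536 = 63 + s := by omega
  have h7 : 2 ^ (s - 65473) * 2 ^ 65536 ≤ P ^ 2048 * 2 ^ 65536 := by
    calc 2 ^ (s - 65473) * 2 ^ 65536 = 2 ^ (63 + s) := by rw [← pow_add, h6]
      _ = 9223372036854775808 * 2 ^ s := by rw [pow_add]; norm_num
      _ ≤ m * 2 ^ s := Nat.mul_le_mul_right _ h.1
      _ ≤ (m0 * 2 ^ r) ^ 2048 := h5
      _ ≤ (P * 2 ^ 32) ^ 2048 := Nat.pow_le_pow_left h4 _
      _ = P ^ 2048 * 2 ^ 65536 := by rw [mul_pow, ← pow_mul]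
  exact Nat.le_of_mul_le_mul_right h7 (Nat.two_pow_pos _)

theorem entN_spec {u v : ℤ × ℤ} {l : List (ℤ × ℤ)} {n : ℤ} {k : ℕ × ℤ × ℤ → Bool}
    (h : entN u v l n k = true) : ∃ e, okN u v l n e = true ∧ k e = true := by
  obtain ⟨c, P, s, t, hg⟩ := Run_goN_ex u v l 1 0 0
  unfold entN at h
  rw [hg] at h
  rw [Bool.and_eq_true] at h
  obtain ⟨G, hG, h2⟩ := lgU_ex h.2
  simp only [frcZ_eq] at h2
  refine ⟨_, ?_, h2⟩
  unfold okN
  rw [hg]
  simp only [Bool.and_eq_true, zle_iff]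
  exact ⟨h.1, Nat.ble_eq.mpr hG, le_rfl, le_rfl⟩

theorem entD_spec {u v : ℤ × ℤ} {l : List (ℤ × ℤ)} {n : ℤ} {k : ℕ × ℤ × ℤ → Bool}
    (h : entD u v l n k = true) : ∃ e, okD u v l n e = true ∧ k e = true := by
  obtain ⟨c, P, s, t, hg⟩ := Run_goD_ex u v (cA u v) l 1 0 0
  unfold entD at h
  rw [frc_eq, hg] at h
  rw [Bool.and_eq_true] at h
  obtain ⟨G, hG, h2⟩ := lgL_ex h.2
  simp only [frcZ_eq] at h2
  refine ⟨_, ?_, h2⟩
  unfold okD
  rw [frc_eq, hg]
  simp only [Bool.and_eq_true, zle_iff]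
  exact ⟨h.1, Nat.ble_eq.mpr hG, le_rfl, le_rfl⟩

theorem runL_spec {u v : ℤ × ℤ} (fs : List Fac) : ∀ {k : List (ℕ × ℤ × ℤ) → Bool},
    runL u v fs k = true → ∃ T, okL u v fs T = true ∧ k T = true := by
  induction fs with
  | nil => intro k h; exact ⟨[], rfl, h⟩
  | cons f fs ih =>
    intro k h
    simp only [runL] at h
    obtain ⟨e, he, h⟩ := entN_spec h
    obtain ⟨T, hT, h⟩ := ih h
    refine ⟨e :: T, ?_, h⟩
    rw [Run_okL_cons, he, hT, Bool.and_true]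

theorem runSub_spec {fs : List Fac} {a b m : ℕ} {lev : List (List ℕ × ℤ)} {ex : ℤ}
    {u v : ℤ × ℤ} (h : runSub fs a b m lev ex u v = true) :
    ∃ S, okSub fs a b m lev ex u v S = true := by
  unfold runSub at h
  obtain ⟨T, hT, h⟩ := runL_spec fs h
  obtain ⟨tU, hU, h⟩ := entN_spec h
  obtain ⟨tQ, hQ, h⟩ := entN_spec h
  obtain ⟨tT, hD, h⟩ := entD_spec h
  refine ⟨⟨tU, tQ, tT, T⟩, ?_⟩
  unfold okSub
  simp only [hT, hU, hQ, hD, Bool.true_and]
  exact h

theorem frcP_eq (u : ℤ × ℤ) (k : ℤ × ℤ → Bool) : frcP u k = k u := by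
  unfold frcP
  rw [frcZ_eq, frcZ_eq]

theorem runSegm_spec {fs : List Fac} {a b m : ℕ} {lev : List (List ℕ × ℤ)} {ex : ℤ}
    {U V : ℤ × ℤ} : ∀ (l : List ℕ) (i : ℕ), runSegm fs a b m lev ex U V i l = true →
    ∃ tab : List (ℕ × Sub), okSegm fs a b m lev ex U V i tab = true ∧
      lastPt i tab = lastN i l ∧ (l ≠ [] → tab ≠ []) := by
  intro l
  induction l with
  | nil => intro i _; exact ⟨[], rfl, rfl, fun h => absurd rfl h⟩
  | cons j l ih =>
    intro i h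
    simp only [runSegm, Bool.and_eq_true, frcP_eq] at h
    obtain ⟨S, hS⟩ := runSub_spec h.1
    obtain ⟨tab, h1, h2, _⟩ := ih j h.2
    refine ⟨(j, S) :: tab, ?_, h2, fun _ => by simp⟩
    rw [Run_okSegm_cons, hS, h1, Bool.and_self]

theorem runSegm_segment {fs : List Fac} {a b m : ℕ} {lev : List (List ℕ × ℤ)} {ex : ℤ}
    {U V : ℤ × ℤ} {l : List ℕ} (hl : l ≠ []) (hlast : lastN 0 l = 1024)
    (h : runSegm fs a b m lev ex U V 0 l = true) :
    ∀ s ∈ segment ℝ (pnt10 U) (pnt10 V), GoodC fs a b m lev ex s := by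
  obtain ⟨tab, h1, h2, h3⟩ := runSegm_spec l 0 h
  exact okSegm_segment (h3 hl) (h2.trans hlast) h1

theorem runSegm_app {fs : List Fac} {a b m : ℕ} {lev : List (List ℕ × ℤ)} {ex : ℤ}
    {U V : ℤ × ℤ} {j : ℕ} {l2 : List ℕ} : ∀ {l1 : List ℕ} {i : ℕ},
    runSegm fs a b m lev ex U V i l1 = true → lastN i l1 = j →
    runSegm fs a b m lev ex U V j l2 = true →
    runSegm fs a b m lev ex U V i (l1 ++ l2) = true := by
  intro l1
  induction l1 with
  | nil =>
    intro i _ hj h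
    simp only [lastN] at hj
    subst hj
    exact h
  | cons j l ih =>
    intro i h1 hj h2
    simp only [runSegm, Bool.and_eq_true] at h1
    simp only [lastN] at hj
    simp only [List.cons_append, runSegm, Bool.and_eq_true]
    exact ⟨h1.1, ih h1.2 hj h2⟩

end Vale.Agent.P021.Det
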