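import Vale.Agent.P021.Det.ChordPnt

/-!
# Soundness statements of the chord checker (to be proved in ChordN.lean, ChordD.lean)
-/

namespace Vale.Agent.P021.Det


/-- numerator factors (helper65: ChordN.lean) -/
theorem okN_spec {u v : ℤ × ℤ} {f : Fac} {e : ℕ × ℤ × ℤ}
    (h : okN u v f.roots (44040192 * (f.roots.length : ℤ)) e = true) {t : ℝ} (h0 : 0 ≤ t)
    (h1 : t ≤ 1) :
    ‖ev (f.poly 10) ((1 - (t : ℂ)) * pnt u + (t : ℂ) * pnt v)‖ ^ 2 ≤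
      Real.exp (((1 - t) * (e.2.1 : ℝ) + t * (e.2.2 : ℝ)) * (Real.log 2 / 2 ^ 20)) := by
  sorry

/-- the denominator `τ` (helper210: ChordD.lean) -/
theorem okD_spec {u v : ℤ × ℤ} {e : ℕ × ℤ × ℤ}
    (h : okD u v (Fac.roots (.re 5120)) 88080384 e = true) {t : ℝ} (h0 : 0 ≤ t) (h1 : t ≤ 1) :
    1 ≤ Real.exp (((1 - t) * (e.2.1 : ℝ) + t * (e.2.2 : ℝ)) * (Real.log 2 / 2 ^ 20)) *
      ‖tau ((1 - (t : ℂ)) * pnt u + (t : ℂ) * pnt v)‖ ^ 2 := by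
  sorry

end Vale.Agent.P021.Det
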