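import Vale.Agent.P021.Det.Defs

open Polynomial

namespace Vale.Agent.P021.Det

theorem CI_tau_ne {c r : ℝ} (h1 : |5 - c| < r) (h2 : r < 5 + c) {s : ℂ}
    (hs : s ∈ Metric.sphere (c : ℂ) r) : tau s ≠ 0 := by
  intro h
  have h3 : (s - 5) * (s + 5) = 0 := by
    rw [← h]; unfold tau; ring
  rw [mem_sphere_iff_norm] at hs
  rcases mul_eq_zero.1 h3 with h4 | h4
  · have h5 : s = ((5 : ℝ) : ℂ) := by
      have := sub_eq_zero.1 h4
      rw [this]; norm_num
    rw [h5, ← Complex.ofReal_sub, Complex.norm_real, Real.norm_eq_abs] at hs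
    exact h1.ne hs
  · have h5 : s = ((-5 : ℝ) : ℂ) := by
      have := eq_neg_of_add_eq_zero_left h4
      rw [this]; norm_num
    rw [h5, ← Complex.ofReal_sub, Complex.norm_real, Real.norm_eq_abs] at hs
    have h6 : 5 + c ≤ |(-5 : ℝ) - c| := by
      have := neg_le_abs ((-5 : ℝ) - c)
      linarith
    linarith

theorem CI_hasDerivAt (k : ℤ) {s : ℂ} (hs : tau s ≠ 0) :
    HasDerivAt (fun s => s * (tau s) ^ k)
      ((2 * (k : ℂ) + 1) * (tau s) ^ k + 50 * (k : ℂ) * (tau s) ^ (k - 1)) s := by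
  have h1 : HasDerivAt tau (2 * s) s := by
    have h0 : HasDerivAt (fun s : ℂ => s ^ 2 - 25) (2 * s) s := by
      have := (hasDerivAt_pow 2 s).sub_const (25 : ℂ)
      refine this.congr_deriv ?_
      norm_num
    exact h0
  have h2 : HasDerivAt (fun s => (tau s) ^ k) ((k : ℂ) * (tau s) ^ (k - 1) * (2 * s)) s :=
    (hasDerivAt_zpow k (tau s) (Or.inl hs)).comp s h1
  have h3 := (hasDerivAt_id s).fun_mul h2
  refine h3.congr_deriv ?_
  have h4 : (tau s) ^ k = (tau s) ^ (k - 1) * tau s := by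
    rw [← zpow_add_one₀ hs, sub_add_cancel]
  have h5 : s * s = tau s + 25 := by unfold tau; ring
  simp only [id]
  rw [h4]
  linear_combination (2 * (k : ℂ) * (tau s) ^ (k - 1)) * h5

theorem CI_continuousOn {c r : ℝ} (h1 : |5 - c| < r) (h2 : r < 5 + c) (k : ℤ) :
    ContinuousOn (fun s => (tau s) ^ k) (Metric.sphere (c : ℂ) r) := by
  have h3 : Continuous tau := by unfold tau; fun_prop
  exact h3.continuousOn.zpow₀ k (fun s hs => Or.inl (CI_tau_ne h1 h2 hs))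

theorem CI_integrable {c r : ℝ} (h1 : |5 - c| < r) (h2 : r < 5 + c) (k : ℤ) :
    CircleIntegrable (fun s => (tau s) ^ k) (c : ℂ) r :=
  ContinuousOn.circleIntegrable ((abs_nonneg _).trans h1.le) (CI_continuousOn h1 h2 k)

theorem CI_integrable_mul {c r : ℝ} (h1 : |5 - c| < r) (h2 : r < 5 + c) (a : ℂ) (k : ℤ) :
    CircleIntegrable (fun s => a * (tau s) ^ k) (c : ℂ) r :=
  ContinuousOn.circleIntegrable ((abs_nonneg _).trans h1.le)
    (continuousOn_const.mul (CI_continuousOn h1 h2 k))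

theorem CI_rec {c r : ℝ} (h1 : |5 - c| < r) (h2 : r < 5 + c) (k : ℤ) :
    (2 * (k : ℂ) + 1) * (∮ s in C((c : ℂ), r), (tau s) ^ k) +
      50 * (k : ℂ) * (∮ s in C((c : ℂ), r), (tau s) ^ (k - 1)) = 0 := by
  have h3 := circleIntegral.integral_eq_zero_of_hasDerivWithinAt (c := (c : ℂ)) (R := r)
    ((abs_nonneg _).trans h1.le)
    (fun z hz => (CI_hasDerivAt k (CI_tau_ne h1 h2 hz)).hasDerivWithinAt)
  have h4 := circleIntegral.integral_add (CI_integrable_mul h1 h2 (2 * (k : ℂ) + 1) k)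
    (CI_integrable_mul h1 h2 (50 * (k : ℂ)) (k - 1))
  rw [circleIntegral.integral_const_mul, circleIntegral.integral_const_mul] at h4
  rw [← h4]
  exact h3

theorem CI_neg_one {c r : ℝ} (h1 : |5 - c| < r) (h2 : r < 5 + c) :
    (∮ s in C((c : ℂ), r), (tau s) ^ (-1 : ℤ)) = (2 * Real.pi * Complex.I) * (1 / 10) := by
  have hw : (5 : ℂ) ∈ Metric.ball (c : ℂ) r := by
    rw [mem_ball_iff_norm]
    have : (5 : ℂ) - (c : ℂ) = ((5 - c : ℝ) : ℂ) := by push_cast; ring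
    rw [this, Complex.norm_real, Real.norm_eq_abs]
    exact h1
  have hd : DifferentiableOn ℂ (fun s : ℂ => (s + 5)⁻¹) (Metric.closedBall (c : ℂ) r) := by
    intro s hs
    have hne : s + 5 ≠ 0 := by
      intro h4
      have h5 : s = ((-5 : ℝ) : ℂ) := by
        have := eq_neg_of_add_eq_zero_left h4
        rw [this]; norm_num
      rw [mem_closedBall_iff_norm, h5, ← Complex.ofReal_sub, Complex.norm_real,
        Real.norm_eq_abs] at hs
      have h6 : 5 + c ≤ |(-5 : ℝ) - c| := by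
        have := neg_le_abs ((-5 : ℝ) - c)
        linarith
      linarith
    have hda : DifferentiableAt ℂ (fun s : ℂ => s + 5) s := by fun_prop
    exact (hda.inv hne).differentiableWithinAt
  have h3 := hd.circleIntegral_sub_inv_smul hw
  have h4 : (∮ s in C((c : ℂ), r), (tau s) ^ (-1 : ℤ)) =
      ∮ s in C((c : ℂ), r), (s - 5)⁻¹ • (fun s : ℂ => (s + 5)⁻¹) s := by
    congr 1
    funext s
    simp only [smul_eq_mul, zpow_neg_one]
    rw [← mul_inv]
    congr 1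
    unfold tau
    ring
  rw [h4, h3]
  simp only [smul_eq_mul]
  norm_num

theorem CI_nonneg {c r : ℝ} (h1 : |5 - c| < r) (h2 : r < 5 + c) (n : ℕ) :
    (∮ s in C((c : ℂ), r), (tau s) ^ (n : ℤ)) = 0 := by
  have h3 : ∀ n : ℕ, (2 * ((n : ℤ) : ℂ) + 1) ≠ 0 := by
    intro n h
    have : ((2 * n + 1 : ℕ) : ℂ) = 0 := by push_cast at h ⊢; exact h
    exact absurd (Nat.cast_eq_zero.1 this) (by omega)
  induction n with
  | zero =>
    have := CI_rec h1 h2 0
    simpa using this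
  | succ n ih =>
    have h4 := CI_rec h1 h2 ((n + 1 : ℕ) : ℤ)
    have h5 : (((n + 1 : ℕ) : ℤ) - 1) = (n : ℤ) := by push_cast; ring
    rw [h5, ih, mul_zero, add_zero] at h4
    exact (mul_eq_zero.1 h4).resolve_left (h3 _)

theorem CI_aco_step (n : ℕ) :
    (50 * ((n : ℚ) + 1)) * aco (-((n + 2 : ℕ) : ℤ)) =
      -(2 * (n : ℚ) + 1) * aco (-((n + 1 : ℕ) : ℤ)) := by
  have e1 : ¬ (0 : ℤ) ≤ -((n + 2 : ℕ) : ℤ) := by omega
  have e2 : ¬ (0 : ℤ) ≤ -((n + 1 : ℕ) : ℤ) := by omega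
  rw [aco, if_neg e1, aco, if_neg e2, Int.natAbs_neg, Int.natAbs_natCast, Int.natAbs_neg,
    Int.natAbs_natCast]
  have e3 : 2 * (n + 2) - 2 = 2 * (n + 1) := by omega
  have e4 : n + 2 - 1 = n + 1 := by omega
  have e5 : 2 * (n + 2) - 1 = 2 * n + 1 + 2 := by omega
  have e6 : 2 * (n + 1) - 2 = 2 * n := by omega
  have e7 : n + 1 - 1 = n := by omega
  have e8 : 2 * (n + 1) - 1 = 2 * n + 1 := by omega
  rw [e3, e4, e5, e6, e7, e8]
  have h := Nat.succ_mul_centralBinom_succ n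
  rw [Nat.centralBinom, Nat.centralBinom] at h
  have h' : ((n : ℚ) + 1) * ((2 * (n + 1)).choose (n + 1) : ℚ) =
      2 * (2 * n + 1) * ((2 * n).choose n : ℚ) := by exact_mod_cast h
  rw [pow_add (10 : ℚ), pow_succ (-1 : ℚ) (n + 1)]
  have h10 : (10 : ℚ) ^ (2 * n + 1) ≠ 0 := by positivity
  field_simp
  linear_combination (-50 * h')

theorem CI_neg {c r : ℝ} (h1 : |5 - c| < r) (h2 : r < 5 + c) (n : ℕ) :
    (∮ s in C((c : ℂ), r), (tau s) ^ (-((n + 1 : ℕ) : ℤ))) =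
      -(2 * Real.pi * Complex.I) * (aco (-((n + 1 : ℕ) : ℤ)) : ℂ) := by
  induction n with
  | zero =>
    have h3 := CI_neg_one h1 h2
    have h4 : aco (-((0 + 1 : ℕ) : ℤ)) = -(1 / 10) := by
      rw [aco]; norm_num
    rw [h4]
    have h5 : (-((0 + 1 : ℕ) : ℤ)) = -1 := by norm_num
    rw [h5, h3]
    push_cast
    ring
  | succ n ih =>
    have h4 := CI_rec h1 h2 (-((n + 1 : ℕ) : ℤ))
    have h5 : (-((n + 1 : ℕ) : ℤ) - 1) = -((n + 1 + 1 : ℕ) : ℤ) := by push_cast; ring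
    rw [h5, ih] at h4
    have h6 := CI_aco_step n
    have h6' : (50 * ((n : ℂ) + 1)) * (aco (-((n + 1 + 1 : ℕ) : ℤ)) : ℂ) =
      -(2 * (n : ℂ) + 1) * (aco (-((n + 1 : ℕ) : ℤ)) : ℂ) := by exact_mod_cast h6
    have h7 : (50 * ((n : ℂ) + 1)) ≠ 0 :=
      mul_ne_zero (by norm_num) (Nat.cast_add_one_ne_zero n)
    apply mul_left_cancel₀ h7
    push_cast at h4 h6' ⊢
    linear_combination -h4 + (2 * Real.pi * Complex.I) * h6'

theorem aco_circle (c r : ℝ) (h1 : |5 - c| < r) (h2 : r < 5 + c) (k : ℤ) :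
    (∮ s in C((c : ℂ), r), (tau s) ^ k) = -(2 * Real.pi * Complex.I) * (aco k : ℂ) := by
  rcases le_or_gt 0 k with hk | hk
  · obtain ⟨n, rfl⟩ := Int.eq_ofNat_of_zero_le hk
    rw [CI_nonneg h1 h2, aco, if_pos hk]
    simp
  · obtain ⟨n, rfl⟩ : ∃ n : ℕ, k = -((n + 1 : ℕ) : ℤ) := ⟨k.natAbs - 1, by omega⟩
    exact CI_neg h1 h2 n

theorem abs_Bet_le (c r : ℝ) (h1 : |5 - c| < r) (h2 : r < 5 + c) :
    ∃ C : ℝ, 0 < C ∧ ∀ (m : ℕ) (F : ℝ[X]) (M : ℝ),
      (∀ s ∈ Metric.sphere (c : ℂ) r, ‖ev F s‖ ≤ M * ‖tau s‖ ^ m) → |Bet m F| ≤ C * M := by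
  have hr : 0 < r := (abs_nonneg _).trans_lt h1
  refine ⟨r / 2, by positivity, ?_⟩
  intro m F M hM
  have key : ((Bet m F : ℝ) : ℂ) * (-(4 * Real.pi * Complex.I)) =
      ∮ s in C((c : ℂ), r), ev F s * (tau s) ^ (-(m : ℤ)) := by
    have h3 : (∮ s in C((c : ℂ), r), ev F s * (tau s) ^ (-(m : ℤ))) =
        ∮ s in C((c : ℂ), r), ∑ j ∈ Finset.range (F.natDegree + 1),
          (F.coeff j : ℂ) * (tau s) ^ ((j : ℤ) - m) := by
      apply circleIntegral.integral_congr hr.le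
      intro s hs
      simp only [ev]
      rw [Polynomial.aeval_eq_sum_range, Finset.sum_mul]
      apply Finset.sum_congr rfl
      intro j _
      rw [sub_eq_add_neg, zpow_add₀ (CI_tau_ne h1 h2 hs), zpow_natCast, Complex.real_smul]
      ring
    rw [h3, circleIntegral.integral_fun_sum]
    · rw [Bet_eq_sum m F (Nat.lt_succ_self _)]
      push_cast
      rw [Finset.sum_mul]
      apply Finset.sum_congr rfl
      intro j _
      rw [circleIntegral.integral_const_mul, aco_circle c r h1 h2]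
      ring
    · intro j _
      exact CI_integrable_mul h1 h2 _ _
  have hb : ‖∮ s in C((c : ℂ), r), ev F s * (tau s) ^ (-(m : ℤ))‖ ≤ 2 * Real.pi * r * M := by
    apply circleIntegral.norm_integral_le_of_norm_le_const hr.le
    intro s hs
    have h4 : 0 < ‖tau s‖ := norm_pos_iff.2 (CI_tau_ne h1 h2 hs)
    rw [norm_mul, norm_zpow, zpow_neg, zpow_natCast, ← div_eq_mul_inv, div_le_iff₀ (by positivity)]
    exact hM s hs
  rw [← key, norm_mul, Complex.norm_real, Real.norm_eq_abs] at hb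
  have h5 : ‖-(4 * (Real.pi : ℂ) * Complex.I)‖ = 4 * Real.pi := by
    rw [norm_neg, norm_mul, norm_mul, Complex.norm_I, Complex.norm_real, Real.norm_eq_abs,
      abs_of_pos Real.pi_pos]
    norm_num
  rw [h5] at hb
  have hpi := Real.pi_pos
  have h6 : (4 * Real.pi) * |Bet m F| ≤ (4 * Real.pi) * (r / 2 * M) := by
    calc (4 * Real.pi) * |Bet m F| = |Bet m F| * (4 * Real.pi) := by ring
      _ ≤ 2 * Real.pi * r * M := hb
      _ = (4 * Real.pi) * (r / 2 * M) := by ring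
  exact le_of_mul_le_mul_left h6 (by positivity)

end Vale.Agent.P021.Det
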