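import Vale.Agent.P021.Det.Defs

open Filter Topology

namespace Vale.Agent.P021.Det

/-- pairs with bounded denominator are finitely many -/
theorem Core_finite (ν : ℝ) (hν : 0 < ν) (Q : ℤ) :
    {pq : ℤ × ℤ | IsCoprime pq.1 pq.2 ∧ 2 ≤ pq.2 ∧ 0 < |Real.pi - (pq.1 : ℝ) / (pq.2 : ℝ)| ∧
      |Real.pi - (pq.1 : ℝ) / (pq.2 : ℝ)| < (pq.2 : ℝ) ^ (-ν) ∧ pq.2 ≤ Q}.Finite := by
  refine ((Set.finite_Icc (-(5 * Q)) (5 * Q)).prod (Set.finite_Icc 2 Q)).subset ?_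
  rintro ⟨p, q⟩ ⟨_, hq, _, hlt, hQ⟩
  simp only at hq hlt hQ
  have hq0 : (0 : ℝ) < q := by
    have : (0 : ℤ) < q := by omega
    exact_mod_cast this
  have h1 : (q : ℝ) ^ (-ν) ≤ 1 := by
    apply Real.rpow_le_one_of_one_le_of_nonpos
    · have : (1 : ℤ) ≤ q := by omega
      exact_mod_cast this
    · linarith
  have h2 : |Real.pi - (p : ℝ) / q| < 1 := lt_of_lt_of_le hlt h1
  have h3 : |(p : ℝ) / q| < 5 := by
    have h4 := abs_sub_abs_le_abs_sub ((p : ℝ) / q) Real.pi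
    rw [abs_sub_comm ((p : ℝ) / q) Real.pi, abs_of_pos Real.pi_pos] at h4
    have := Real.pi_lt_four
    linarith
  rw [abs_div, abs_of_pos hq0, div_lt_iff₀ hq0] at h3
  have h5 : |p| < 5 * q := by exact_mod_cast h3
  rw [abs_lt] at h5
  simp only [Set.mem_prod, Set.mem_Icc]
  constructor
  · constructor <;> linarith
  · exact ⟨hq, hQ⟩

/-- The abstract conclusion: lower bound at rational points, upper bound near `π`, non-vanishing. -/
theorem core_bound (D : ℕ → ℕ → ℝ → ℝ) (K0 : ℕ) (hK0 : 0 < K0) (w c T μ0 : ℝ) (hw : 0 < w)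
    (h1 : ∀ ε : ℝ, 0 < ε → ∀ᶠ n : ℕ in atTop, ∀ κ ≤ 2, ∀ p q : ℤ, 0 < q →
      D n κ ((p : ℝ) / q) ≠ 0 →
      Real.exp (-(c + ε) * (n : ℝ) ^ 2) ≤ (q : ℝ) ^ (K0 * n + κ) * |D n κ ((p : ℝ) / q)|)
    (h2 : ∀ ε : ℝ, 0 < ε → ∀ᶠ n : ℕ in atTop, ∀ κ ≤ 2, ∀ x : ℝ,
      |x - Real.pi| ≤ Real.exp (-w * n) → |D n κ x| ≤ Real.exp ((T + ε) * (n : ℝ) ^ 2))
    (h3 : ∀ n x, ∃ κ ≤ 2, D n κ x ≠ 0)
    (hδ : 0 < -T - c) (hμ : w * K0 ≤ μ0 * (-T - c)) :
    irrationalityExponent Real.pi ≤ (μ0 : EReal) := by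
  unfold irrationalityExponent
  refine iSup₂_le fun ν hν => ?_
  rw [EReal.coe_le_coe_iff]
  by_contra hlt
  push Not at hlt
  obtain ⟨hν0, hinf⟩ := hν
  set δ : ℝ := -T - c with hδdef
  have hKpos : (0 : ℝ) < K0 := by exact_mod_cast hK0
  have hk : w * K0 / ν < δ := by
    rw [div_lt_iff₀ hν0]
    calc w * K0 ≤ μ0 * δ := hμ
      _ < ν * δ := mul_lt_mul_of_pos_right hlt hδ
      _ = δ * ν := mul_comm _ _
  set ε : ℝ := (δ - w * K0 / ν) / 4 with hεdef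
  have hε : 0 < ε := by rw [hεdef]; linarith
  -- elementary inequality for large n
  have hA : ∀ᶠ n : ℕ in atTop, ((K0 : ℝ) * n + 2) * (w * (n + 1) / ν) < (δ - 2 * ε) * (n : ℝ) ^ 2 := by
    have hlim : Tendsto (fun n : ℕ => ((K0 : ℝ) + 2 * (1 / (n : ℝ))) * (w * (1 + 1 / (n : ℝ)) / ν))
        atTop (𝓝 (((K0 : ℝ) + 2 * 0) * (w * (1 + 0) / ν))) := by
      have h0 := tendsto_one_div_atTop_nhds_zero_nat (𝕜 := ℝ)
      exact (tendsto_const_nhds.add (h0.const_mul 2)).mul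
        (((tendsto_const_nhds.add h0).const_mul w).div_const ν)
    have hlt2 : ((K0 : ℝ) + 2 * 0) * (w * (1 + 0) / ν) < δ - 2 * ε := by
      have : ((K0 : ℝ) + 2 * 0) * (w * (1 + 0) / ν) = w * K0 / ν := by ring
      rw [this, hεdef]
      linarith
    filter_upwards [hlim.eventually (gt_mem_nhds hlt2), eventually_gt_atTop 0] with n hn hn0
    have hnR : (0 : ℝ) < n := by exact_mod_cast hn0
    have e : ((K0 : ℝ) * n + 2) * (w * (n + 1) / ν)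
        = (((K0 : ℝ) + 2 * (1 / (n : ℝ))) * (w * (1 + 1 / (n : ℝ)) / ν)) * (n : ℝ) ^ 2 := by
      field_simp
    rw [e]
    exact mul_lt_mul_of_pos_right hn (by positivity)
  obtain ⟨N1, hN1⟩ := eventually_atTop.mp (hA.and ((h1 ε hε).and (h2 ε hε)))
  -- choose a pair with large denominator
  set Q : ℤ := ⌈Real.exp (w * (N1 + 1) / ν)⌉ with hQdef
  have hex : ∃ pq ∈ {pq : ℤ × ℤ | IsCoprime pq.1 pq.2 ∧ 2 ≤ pq.2 ∧
      0 < |Real.pi - (pq.1 : ℝ) / (pq.2 : ℝ)| ∧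
      |Real.pi - (pq.1 : ℝ) / (pq.2 : ℝ)| < (pq.2 : ℝ) ^ (-ν)}, Q < pq.2 := by
    by_contra hcon
    push Not at hcon
    apply hinf
    refine (Core_finite ν hν0 Q).subset ?_
    intro pq hpq
    exact ⟨hpq.1, hpq.2.1, hpq.2.2.1, hpq.2.2.2, hcon pq hpq⟩
  obtain ⟨⟨p, q⟩, ⟨_, hq2, _, hpq⟩, hQq⟩ := hex
  simp only at hq2 hpq hQq
  have hqZ : (0 : ℤ) < q := by omega
  have hq0 : (0 : ℝ) < q := by exact_mod_cast hqZ
  have hqQ : Real.exp (w * (N1 + 1) / ν) < q := by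
    have ha : Real.exp (w * (N1 + 1) / ν) ≤ (Q : ℝ) := Int.le_ceil _
    have hb : (Q : ℝ) < q := by exact_mod_cast hQq
    linarith
  have hlog : w * (N1 + 1) / ν < Real.log q := (Real.lt_log_iff_exp_lt hq0).mpr hqQ
  set n : ℕ := ⌊ν * Real.log q / w⌋₊ with hndef
  have hlogpos : 0 < Real.log q := lt_of_le_of_lt (by positivity) hlog
  have hn1 : (n : ℝ) ≤ ν * Real.log q / w := Nat.floor_le (by positivity)
  have hn2 : ν * Real.log q / w < n + 1 := Nat.lt_floor_add_one _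
  have hnN : N1 ≤ n := by
    rw [div_lt_iff₀ hν0] at hlog
    apply Nat.le_floor
    rw [le_div_iff₀ hw]
    nlinarith
  obtain ⟨hA', hB', hC'⟩ := hN1 n hnN
  obtain ⟨κ, hκ, hne⟩ := h3 n ((p : ℝ) / q)
  have hclose : |(p : ℝ) / q - Real.pi| ≤ Real.exp (-w * n) := by
    rw [abs_sub_comm]
    refine hpq.le.trans ?_
    rw [Real.rpow_def_of_pos hq0]
    apply Real.exp_le_exp.mpr
    rw [le_div_iff₀ hw] at hn1
    nlinarith
  have hlow := hB' κ hκ p q hqZ hne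
  have hup := hC' κ hκ _ hclose
  have hq1 : (1 : ℝ) ≤ q := by
    have : (1 : ℤ) ≤ q := by omega
    exact_mod_cast this
  have h5 : Real.exp (-(c + ε) * (n : ℝ) ^ 2) ≤
      Real.exp (((K0 : ℝ) * n + 2) * Real.log q) * Real.exp ((T + ε) * (n : ℝ) ^ 2) := by
    refine hlow.trans (mul_le_mul ?_ hup (abs_nonneg _) (Real.exp_pos _).le)
    calc (q : ℝ) ^ (K0 * n + κ) ≤ (q : ℝ) ^ (K0 * n + 2) := pow_le_pow_right₀ hq1 (by omega)
      _ = Real.exp (((K0 : ℝ) * n + 2) * Real.log q) := by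
        rw [← Real.exp_log (pow_pos hq0 (K0 * n + 2)), Real.log_pow]
        push_cast
        rfl
  rw [← Real.exp_add, Real.exp_le_exp] at h5
  have h6 : Real.log q ≤ w * (n + 1) / ν := by
    rw [le_div_iff₀ hν0]
    rw [div_lt_iff₀ hw] at hn2
    linarith
  have h7 : ((K0 : ℝ) * n + 2) * Real.log q ≤ ((K0 : ℝ) * n + 2) * (w * (n + 1) / ν) :=
    mul_le_mul_of_nonneg_left h6 (by positivity)
  have h8 : (δ - 2 * ε) * (n : ℝ) ^ 2 ≤ ((K0 : ℝ) * n + 2) * Real.log q := by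
    rw [hδdef]
    nlinarith
  linarith

end Vale.Agent.P021.Det
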