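import Vale.Agent.P021.Det.CwinInt

/-!
# The constant for the shape `(5 s, 6 s, 13 s, 26 s)`
-/

namespace Vale.Agent.P021.Det

lemma plainR_scale (a b m K y s : ℝ) (hs : 0 ≤ s) :
    plainR (a * s) (b * s) (m * s) (K * s) (y * s) = s * plainR a b m K y := by
  unfold plainR
  have e1 : m * s - y * s = s * (m - y) := by ring
  have e2 : 2 * (a * s) + 4 * (b * s) - 2 * (m * s) + 4 * (K * s) - y * s =
    s * (2 * a + 4 * b - 2 * m + 4 * K - y) := by ring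
  rw [e1, e2, mul_max_zero hs, mul_max_zero hs]
  ring

lemma winR_scale (a b m K y s : ℝ) (hs : 0 ≤ s) :
    winR (a * s) (b * s) (m * s) (K * s) (y * s) = s * winR a b m K y := by
  unfold winR
  have e1 : y * s - b * s = s * (y - b) := by ring
  have e2 : y * s - 2 * (a * s) = s * (y - 2 * a) := by ring
  have e3 : m * s - 2 * (y * s) = s * (m - 2 * y) := by ring
  have e4 : 2 * (a * s) + 4 * (b * s) - 2 * (m * s) + 4 * (K * s) - 3 * (y * s) =
    s * (2 * a + 4 * b - 2 * m + 4 * K - 3 * y) := by ring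
  rw [e1, e2, e3, e4, mul_max_zero hs, mul_max_zero hs, mul_max_zero hs, mul_max_zero hs]
  ring

lemma win5_val : winR 6 13 26 5 (74 / 7) = 5 ∧ winR 6 13 26 5 (32 / 3) = 14 / 3 ∧
    winR 6 13 26 5 12 = 2 ∧ winR 6 13 26 5 13 = 1 / 2 ∧ winR 6 13 26 5 (74 / 5) = 5 := by
  unfold winR
  refine ⟨?_, ?_, ?_, ?_, ?_⟩ <;> norm_num [max_def]

lemma plain5_val : plainR 6 13 26 5 (74 / 3) = 5 ∧ plainR 6 13 26 5 26 = 3 ∧
    plainR 6 13 26 5 32 = 0 := by
  unfold plainR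
  refine ⟨?_, ?_, ?_⟩ <;> norm_num [max_def]

theorem cwin_five (s : ℕ) (hs : 1 ≤ s) : cwin (5 * s) (6 * s) (13 * s) (26 * s) ≤
    (s : ℝ) ^ 2 * (4467 / 35 + 49 / 2 * Real.log 5 - 125 / 2 * Real.log 2) := by
  have hs0 : (1 : ℝ) ≤ s := by exact_mod_cast hs
  have hs' : (0 : ℝ) ≤ s := by linarith
  obtain ⟨w1, w2, w3, w4, w5⟩ := win5_val
  obtain ⟨p1, p2, p3⟩ := plain5_val
  have hw : ∀ y : ℝ, winR ((6 * s : ℕ) : ℝ) ((13 * s : ℕ) : ℝ) ((26 * s : ℕ) : ℝ)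
      ((5 * s : ℕ) : ℝ) (y * s) = s * winR 6 13 26 5 y := by
    intro y
    push_cast
    exact winR_scale 6 13 26 5 y s hs'
  have hp : ∀ y : ℝ, plainR ((6 * s : ℕ) : ℝ) ((13 * s : ℕ) : ℝ) ((26 * s : ℕ) : ℝ)
      ((5 * s : ℕ) : ℝ) (y * s) = s * plainR 6 13 26 5 y := by
    intro y
    push_cast
    exact plainR_scale 6 13 26 5 y s hs'
  have hX : plainR ((6 * s : ℕ) : ℝ) ((13 * s : ℕ) : ℝ) ((26 * s : ℕ) : ℝ) ((5 * s : ℕ) : ℝ)
      (2 * (((26 * s : ℕ) : ℝ) + 2 * ((5 * s : ℕ) : ℝ) + ((6 * s : ℕ) : ℝ) +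
        2 * ((13 * s : ℕ) : ℝ)) + 1) = 0 := by
    unfold plainR
    push_cast
    rw [max_eq_right (by linarith), max_eq_right (by linarith)]
    norm_num
  have h := cwin_le (5 * s) (6 * s) (13 * s) (26 * s) (y1 := 74 / 7 * s) (x1 := 32 / 3 * s)
    (x2 := 12 * s) (x3 := 13 * s) (y2 := 74 / 5 * s) (y3 := 74 / 3 * s) (x4 := 26 * s)
    (X1 := 32 * s) (by linarith) (by linarith) (by linarith) (by linarith) (by linarith)
    (by linarith) (by linarith) (by linarith) (by push_cast; linarith)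
    (by rw [hp, p3, mul_zero]) hX
  rw [hw, hw, hw, hw, hw, hp, hp, w1, w2, w3, w4, w5, p1, p2] at h
  refine h.trans (le_of_eq ?_)
  have e1 : 26 * s - (6 * s + 13 * s) = 7 * s := by omega
  rw [e1]
  push_cast
  ring

end Vale.Agent.P021.Det
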