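import Vale.Agent.P021.Det.ArithWin

/-!
# Evaluation of the constant `cwin`
-/

namespace Vale.Agent.P021.Det

open Filter Topology Finset

lemma continuous_badR (a b m K : ℝ) : Continuous (badR a b m K) := by
  unfold badR plainR winR
  fun_prop

lemma continuous_plainR (a b m K : ℝ) : Continuous (plainR a b m K) := by
  unfold plainR
  fun_prop

lemma continuous_winR (a b m K : ℝ) : Continuous (winR a b m K) := by
  unfold winR
  fun_prop

/-- a function below its chord has integral at most the trapezoid -/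
lemma int_le_trap {f : ℝ → ℝ} (hf : Continuous f) {u v A B : ℝ} (huv : u < v)
    (h : ∀ y ∈ Set.Icc u v, f y * (v - u) ≤ A * (v - y) + B * (y - u)) :
    ∫ y in u..v, f y ≤ (v - u) * (A + B) / 2 := by
  have huv0 : 0 < v - u := by linarith
  have h1 : ∫ y in u..v, f y ≤ ∫ y in u..v, ((A * v - B * u) / (v - u) + (B - A) / (v - u) * y) := by
    refine intervalIntegral.integral_mono_on huv.le (hf.intervalIntegrable _ _)
      (Continuous.intervalIntegrable (by fun_prop) _ _) fun y hy => ?_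
    have h2 := h y hy
    rw [← le_div_iff₀ huv0] at h2
    refine h2.trans_eq ?_
    field_simp
    ring
  refine h1.trans_eq ?_
  rw [intervalIntegral.integral_add (by simp) (Continuous.intervalIntegrable (by fun_prop) _ _),
    intervalIntegral.integral_const, intervalIntegral.integral_const_mul, integral_id, smul_eq_mul]
  field_simp
  ring

lemma max_chord {c d u v y : ℝ} (huv : u ≤ v) (hy : y ∈ Set.Icc u v) :
    max (c + d * y) 0 * (v - u) ≤ max (c + d * u) 0 * (v - y) + max (c + d * v) 0 * (y - u) := by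
  obtain ⟨h1, h2⟩ := hy
  rw [max_mul_of_nonneg _ _ (by linarith), zero_mul]
  refine max_le ?_ ?_
  · have h3 := mul_le_mul_of_nonneg_right (le_max_left (c + d * u) 0) (by linarith : 0 ≤ v - y)
    have h4 := mul_le_mul_of_nonneg_right (le_max_left (c + d * v) 0) (by linarith : 0 ≤ y - u)
    nlinarith
  · have h3 := mul_nonneg (le_max_right (c + d * u) 0) (by linarith : 0 ≤ v - y)
    have h4 := mul_nonneg (le_max_right (c + d * v) 0) (by linarith : 0 ≤ y - u)
    linarith

lemma plainR_chord (a b m K : ℝ) {u v y : ℝ} (huv : u ≤ v) (hy : y ∈ Set.Icc u v) :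
    plainR a b m K y * (v - u) ≤ plainR a b m K u * (v - y) + plainR a b m K v * (y - u) := by
  have h1 := max_chord (c := m) (d := -1) huv hy
  have h2 := max_chord (c := 2 * a + 4 * b - 2 * m + 4 * K) (d := -1) huv hy
  simp only [neg_one_mul, ← sub_eq_add_neg] at h1 h2
  unfold plainR
  nlinarith

lemma winR_chord (a b m K : ℝ) {u v y : ℝ} (huv : u ≤ v) (hy : y ∈ Set.Icc u v) :
    winR a b m K y * (v - u) ≤ winR a b m K u * (v - y) + winR a b m K v * (y - u) := by
  have h1 := max_chord (c := -b) (d := 1) huv hy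
  have h2 := max_chord (c := -(2 * a)) (d := 1) huv hy
  have h3 := max_chord (c := m) (d := -2) huv hy
  have h4 := max_chord (c := 2 * a + 4 * b - 2 * m + 4 * K) (d := -3) huv hy
  simp only [one_mul, neg_mul, ← sub_eq_add_neg, neg_add_eq_sub] at h1 h2 h3 h4
  unfold winR
  nlinarith

/-- the bound on one interval; `c` is the choice of the piece -/
lemma int_badR_plain (a b m K : ℝ) {u v : ℝ} (huv : u < v) :
    ∫ y in u..v, badR a b m K y ≤ (v - u) * (plainR a b m K u + plainR a b m K v) / 2 :=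
  int_le_trap (continuous_badR a b m K) huv fun y hy =>
    (mul_le_mul_of_nonneg_right ((min_le_right _ _).trans (min_le_left _ _))
      (by linarith [hy.1, hy.2])).trans (plainR_chord a b m K huv.le hy)

lemma int_badR_win (a b m K : ℝ) {u v : ℝ} (huv : u < v) :
    ∫ y in u..v, badR a b m K y ≤ (v - u) * (winR a b m K u + winR a b m K v) / 2 :=
  int_le_trap (continuous_badR a b m K) huv fun y hy =>
    (mul_le_mul_of_nonneg_right ((min_le_right _ _).trans (min_le_right _ _))
      (by linarith [hy.1, hy.2])).trans (winR_chord a b m K huv.le hy)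

lemma int_badR_K (a b m K : ℝ) {u v : ℝ} (huv : u < v) :
    ∫ y in u..v, badR a b m K y ≤ (v - u) * K := by
  have h := int_le_trap (continuous_badR a b m K) huv (A := K) (B := K) fun y hy => by
    have h1 : badR a b m K y ≤ K := min_le_left _ _
    have h2 := mul_le_mul_of_nonneg_right h1 (by linarith [hy.1, hy.2] : 0 ≤ v - u)
    linarith
  linarith

/-- splitting of the integral at consecutive points -/
lemma int_badR_add (a b m K : ℝ) (u v w : ℝ) :
    ∫ y in u..w, badR a b m K y = (∫ y in u..v, badR a b m K y) + ∫ y in v..w, badR a b m K y :=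
  (intervalIntegral.integral_add_adjacent_intervals
    ((continuous_badR a b m K).intervalIntegrable _ _)
    ((continuous_badR a b m K).intervalIntegrable _ _)).symm

/-- the general shape: full rows up to `y1`, window between `y1` and `y2` with the intermediate
points `x1, x2, x3`, full rows up to `y3`, then the plain bound with intermediate point `m`,
until `X1`. -/
theorem cwin_le (K0 a0 b0 m0 : ℕ) {y1 x1 x2 x3 y2 y3 x4 X1 : ℝ} (h0 : 0 < y1) (h1 : y1 < x1)
    (h2 : x1 < x2) (h3 : x2 < x3) (h4 : x3 < y2) (h5 : y2 < y3) (h6 : y3 < x4) (h7 : x4 < X1)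
    (h8 : X1 < 2 * (m0 + 2 * K0 + a0 + 2 * b0) + 1)
    (h9 : plainR a0 b0 m0 K0 X1 = 0)
    (h10 : plainR a0 b0 m0 K0 (2 * (m0 + 2 * K0 + a0 + 2 * b0) + 1) = 0) :
    cwin K0 a0 b0 m0 ≤ y1 * K0 +
      (x1 - y1) * (winR a0 b0 m0 K0 y1 + winR a0 b0 m0 K0 x1) / 2 +
      (x2 - x1) * (winR a0 b0 m0 K0 x1 + winR a0 b0 m0 K0 x2) / 2 +
      (x3 - x2) * (winR a0 b0 m0 K0 x2 + winR a0 b0 m0 K0 x3) / 2 +
      (y2 - x3) * (winR a0 b0 m0 K0 x3 + winR a0 b0 m0 K0 y2) / 2 +
      (y3 - y2) * K0 +
      (x4 - y3) * (plainR a0 b0 m0 K0 y3 + plainR a0 b0 m0 K0 x4) / 2 +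
      (X1 - x4) * plainR a0 b0 m0 K0 x4 / 2 +
      ((m0 - (a0 + b0) : ℕ) : ℝ) ^ 2 / 2 * Real.log 5 -
      5 / 2 * K0 * (2 * (b0 : ℝ) + K0 - m0) * Real.log 2 := by
  unfold cwin
  set Z : ℝ := 2 * (m0 + 2 * K0 + a0 + 2 * b0) + 1 with hZ
  have e := int_badR_add a0 b0 m0 K0 0 y1 Z
  have e1 := int_badR_add a0 b0 m0 K0 y1 x1 Z
  have e2 := int_badR_add a0 b0 m0 K0 x1 x2 Z
  have e3 := int_badR_add a0 b0 m0 K0 x2 x3 Z
  have e4 := int_badR_add a0 b0 m0 K0 x3 y2 Z
  have e5 := int_badR_add a0 b0 m0 K0 y2 y3 Z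
  have e6 := int_badR_add a0 b0 m0 K0 y3 x4 Z
  have e7 := int_badR_add a0 b0 m0 K0 x4 X1 Z
  have i0 := int_badR_K a0 b0 m0 K0 h0
  have i1 := int_badR_win a0 b0 m0 K0 h1
  have i2 := int_badR_win a0 b0 m0 K0 h2
  have i3 := int_badR_win a0 b0 m0 K0 h3
  have i4 := int_badR_win a0 b0 m0 K0 h4
  have i5 := int_badR_K a0 b0 m0 K0 h5
  have i6 := int_badR_plain a0 b0 m0 K0 h6
  have i7 := int_badR_plain a0 b0 m0 K0 h7
  have i8 := int_badR_plain a0 b0 m0 K0 h8
  rw [h9] at i7
  rw [h9, h10] at i8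
  linarith

end Vale.Agent.P021.Det
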