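import Vale.Agent.P021.Det.Val25
import Vale.Agent.P021.Det.Defs
import Vale.Agent.P021.Det.Nonvan

/-!
# Integrality of the entries
-/

open Polynomial

namespace Vale.Agent.P021.Det

theorem Entry_int_of_norm (x : ℚ) (h : ∀ l : ℕ, l.Prime → padicNorm l x ≤ 1) :
    ∃ z : ℤ, x = z := by
  refine ⟨x.num, ?_⟩
  have hden : x.den = 1 := by
    by_contra hne
    obtain ⟨l, hl, hd⟩ := Nat.exists_prime_and_dvd hne
    have : Fact l.Prime := ⟨hl⟩
    have h1 := h l hl
    have h2 : padicNorm l (x.den : ℚ) < 1 := by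
      rw [padicNorm.nat_lt_one_iff]
      exact hd
    have h3 : padicNorm l (x.num : ℚ) = 1 := by
      rw [padicNorm.int_eq_one_iff]
      intro hdn
      have h4 : l ∣ x.num.natAbs := Int.natCast_dvd.1 hdn
      have h5 := Nat.dvd_gcd h4 hd
      rw [x.reduced] at h5
      exact hl.one_lt.ne' (Nat.dvd_one.1 h5)
    have h6 : (x.num : ℚ) = x * x.den := (Rat.mul_den_eq_num x).symm
    rw [h6, padicNorm.mul] at h3
    have h7 : padicNorm l x * padicNorm l (x.den : ℚ) < 1 := by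
      calc padicNorm l x * padicNorm l (x.den : ℚ) ≤ 1 * padicNorm l (x.den : ℚ) :=
            mul_le_mul_of_nonneg_right h1 (padicNorm.nonneg _)
        _ < 1 := by rw [one_mul]; exact h2
    linarith
  have h8 := Rat.mul_den_eq_num x
  rw [hden] at h8
  simpa using h8

theorem Entry_good_aco2 {D : ℕ} {lo hi : ℤ} : Good D lo hi (fun k => aco k / 2) := by
  intro k _ _
  rcases le_or_gt 0 k with hk | hk
  · obtain ⟨n, rfl⟩ := Int.eq_ofNat_of_zero_le hk
    have h0 : aco (n : ℤ) = 0 := by rw [aco, if_pos (by omega)]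
    exact v25_pos n ⟨0, by simp [h0], by simp⟩
  · obtain ⟨m, rfl⟩ : ∃ m : ℕ, k = -((m + 1 : ℕ) : ℤ) := ⟨k.natAbs - 1, by omega⟩
    have h := v25_neg (x := (D : ℚ) * (aco (-((m + 1 : ℕ) : ℤ)) / 2)) (m + 1) (by
      refine ⟨D * ((-1) ^ (m + 1) * ((2 * m).choose m : ℤ) * 5 * 2 ^ ((m + 1) / 2)), ?_⟩
      rw [aco, if_neg (by omega)]
      have h6 : (-((m + 1 : ℕ) : ℤ)).natAbs = m + 1 := by omega
      rw [h6, show 2 * (m + 1) - 2 = 2 * m by omega, show m + 1 - 1 = m by omega,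
        show 2 * (m + 1) - 1 = 2 * m + 1 by omega, show 2 * (m + 1) = (2 * m + 1) + 1 by omega,
        pow_succ (10 : ℚ) (2 * m + 1)]
      push_cast
      have h10 : (10 : ℚ) ^ (2 * m + 1) ≠ 0 := by positivity
      field_simp
      ring)
    simpa only [neg_neg] using h

/-- `q Λ_{p/q}(X^s W τ^{-m})` is the rational number `ent` -/
theorem Entry_Lam (a b m s : ℕ) (p q : ℤ) (hq : 0 < q) :
    (q : ℝ) * Lam ((p : ℝ) / q) m (X ^ s * Wp a b) =
      ((ent a b (fun k => (p : ℚ) * (aco k / 2) + (q : ℚ) * bco k) ((s : ℤ) - m) : ℚ) : ℝ) := by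
  have hq' : (q : ℝ) ≠ 0 := by exact_mod_cast hq.ne'
  have hW : Wp a b = NV.Wp a b := rfl
  have h0 : Lam ((p : ℝ) / q) m (X ^ s * Wp a b) = ∑ j ∈ Finset.range (a + 2 * b + 1),
      ((wp a b).coeff j : ℝ) * lam ((p : ℝ) / q) ((s : ℤ) - m + j) := by
    conv_lhs => rw [hW, (NV.Wp a b).as_sum_range' _ (NV.Wp_natDegree a b), Finset.mul_sum, map_sum]
    apply Finset.sum_congr rfl
    intro j _
    rw [← NV.wp_map, coeff_map, X_pow_mul_monomial, ← C_mul_X_pow_eq_monomial, ← smul_eq_C_mul,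
      map_smul, Lam_X_pow, smul_eq_mul]
    congr 2
    push_cast
    ring
  rw [h0, ent, Finset.mul_sum, Rat.cast_sum]
  apply Finset.sum_congr rfl
  intro j _
  rw [lam]
  push_cast
  field_simp

/-- integrality of the entries -/
theorem entry_int (a b m s Y : ℕ) (p q : ℤ) (hq : 0 < q) (h1 : m ≤ s + Y)
    (h2 : 2 * (s + a + 2 * b) + 1 ≤ Y + 2 * m) :
    ∃ z : ℤ, (Nat.lcmUpto Y : ℝ) * 5 ^ (2 * (m - (a + b) - s)) * 2 ^ ((5 * m + 1) / 2) * q *
      Lam ((p : ℝ) / q) m (X ^ s * Wp a b) = 2 ^ (5 * (2 * b + s) / 2) * (z : ℝ) := by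
  set D := Nat.lcmUpto Y with hD
  set c : ℤ → ℚ := fun k => (p : ℚ) * (aco k / 2) + (q : ℚ) * bco k with hc
  have hgood : Good D ((s : ℤ) - m) ((s : ℤ) - m + a + 2 * b) c :=
    (Entry_good_aco2).comb (good_bco (L := Y)
      (fun j hj1 hj2 => Finset.dvd_lcm (f := id) (Finset.mem_Icc.2 ⟨hj1, hj2⟩))
      (by omega) (by omega)) p q
  obtain ⟨g1, g2, g3⟩ := hgood.ent a b ((s : ℤ) - m) le_rfl le_rfl
  set E : ℚ := D * ent a b c ((s : ℤ) - m) with hE
  obtain ⟨z, hz⟩ := Entry_int_of_norm (E * 5 ^ (2 * (m - (a + b) - s)) * 2 ^ ((5 * m + 1) / 2) /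
    2 ^ (5 * (2 * b + s) / 2)) (by
    intro l hl
    have : Fact l.Prime := ⟨hl⟩
    rw [padicNorm.div, padicNorm.mul, padicNorm.mul, val_norm_pow, val_norm_pow, val_norm_pow]
    by_cases hl2 : l = 2
    · subst hl2
      rw [val_two_five, val_two_two, one_pow, mul_one]
      have hx0 := padicNorm.nonneg (p := 2) E
      rw [div_le_one (by positivity)]
      have hx2 : (padicNorm 2 E * (1 / 2) ^ ((5 * m + 1) / 2)) ^ 2 ≤
          ((1 / 2) ^ (5 * (2 * b + s) / 2)) ^ 2 := by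
        rw [mul_pow]
        calc padicNorm 2 E ^ 2 * ((1 / 2 : ℚ) ^ ((5 * m + 1) / 2)) ^ 2
            ≤ (32 : ℚ) ^ (-(2 * b : ℤ) - ((s : ℤ) - m)) * ((1 / 2 : ℚ) ^ ((5 * m + 1) / 2)) ^ 2 :=
              mul_le_mul_of_nonneg_right g2 (by positivity)
          _ = (2 : ℚ) ^ (5 * (-(2 * b : ℤ) - ((s : ℤ) - m)) - 2 * (((5 * m + 1) / 2 : ℕ) : ℤ)) := by
              rw [one_div, inv_pow, inv_pow, ← pow_mul, ← zpow_natCast, ← zpow_neg,
                show (32 : ℚ) = 2 ^ (5 : ℤ) by norm_num, ← zpow_mul, ← zpow_add₀ (by norm_num)]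
              congr 1
              push_cast
              ring
          _ ≤ (2 : ℚ) ^ (-(2 * ((5 * (2 * b + s) / 2 : ℕ) : ℤ))) :=
              zpow_le_zpow_right₀ (by norm_num) (by omega)
          _ = _ := by
              rw [one_div, inv_pow, inv_pow, ← pow_mul, ← zpow_natCast, ← zpow_neg]
              congr 1
              push_cast
              ring
      exact (pow_le_pow_iff_left₀ (by positivity) (by positivity) two_ne_zero).1 hx2
    · by_cases hl5 : l = 5
      · subst hl5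
        rw [val_five_two, val_five_five, one_pow, one_pow, div_one, mul_one]
        calc padicNorm 5 E * (1 / 5) ^ (2 * (m - (a + b) - s))
            ≤ (5 : ℚ) ^ (2 * (m - (a + b) - s)) * (1 / 5) ^ (2 * (m - (a + b) - s)) := by
              apply mul_le_mul_of_nonneg_right _ (by positivity)
              refine g3.trans (max_le (one_le_pow₀ (by norm_num)) ?_)
              rw [show (25 : ℚ) = 5 ^ (2 : ℤ) by norm_num, ← zpow_mul, ← zpow_natCast]
              exact zpow_le_zpow_right₀ (by norm_num) (by omega)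
          _ = 1 := by rw [← mul_pow]; norm_num
      · have hn2 : padicNorm l (2 : ℚ) = 1 := by
          exact_mod_cast val_norm_nat_eq_one (p := l) (m := 2)
            (fun h => hl2 ((Nat.prime_dvd_prime_iff_eq hl Nat.prime_two).1 h))
        have hn5 : padicNorm l (5 : ℚ) = 1 := by
          exact_mod_cast val_norm_nat_eq_one (p := l) (m := 5)
            (fun h => hl5 ((Nat.prime_dvd_prime_iff_eq hl Nat.prime_five).1 h))
        rw [hn2, hn5, one_pow, one_pow, one_pow, mul_one, mul_one, div_one]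
        exact g1 l hl hl2 hl5)
  refine ⟨z, ?_⟩
  have h3 := Entry_Lam a b m s p q hq
  have h4 : ((E : ℚ) : ℝ) = (D : ℝ) * ((q : ℝ) * Lam ((p : ℝ) / q) m (X ^ s * Wp a b)) := by
    rw [h3, hE]
    push_cast
    rfl
  have h5 : ((E : ℚ) : ℝ) * 5 ^ (2 * (m - (a + b) - s)) * 2 ^ ((5 * m + 1) / 2) /
    2 ^ (5 * (2 * b + s) / 2) = (z : ℝ) := by exact_mod_cast congrArg (Rat.cast : ℚ → ℝ) hz
  rw [← h5, mul_div_cancel₀ _ (by positivity), h4]
  ring

end Vale.Agent.P021.Det
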