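import Vale.Agent.P021.Det.DetLowerOf
import Vale.Agent.P021.Det.Entry

open Polynomial

namespace Vale.Agent.P021.Det

theorem det_lower (a b m K : ℕ) (p q : ℤ) (hq : 0 < q) (Y : ℕ → ℕ)
    (h1 : ∀ i < K, m ≤ i + Y i) (h2 : ∀ i < K, 2 * (i + K + a + 2 * b) ≤ Y i + 2 * m + 1)
    (hne : (HM ((p : ℝ) / q) a b m K).det ≠ 0) :
    (2 : ℝ) ^ (5 * b * K + 2 * ∑ i ∈ Finset.range K, 5 * i / 2) ≤
      |(HM ((p : ℝ) / q) a b m K).det| * (q : ℝ) ^ K *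
        (∏ i ∈ Finset.range K, (Nat.lcmUpto (Y i) : ℝ)) *
        5 ^ (2 * ∑ i ∈ Finset.range K, (m - (a + b) - 2 * i)) * 2 ^ (K * ((5 * m + 1) / 2)) := by
  refine DetLower_of a b m K p q hq Y (fun i j hi hj => ?_) hne
  have e1 := h1 i hi
  have e2 := h2 i hi
  exact entry_int a b m (i + j) (Y i) p q hq (by omega) (by omega)

end Vale.Agent.P021.Det
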