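import Vale.Agent.P021.Det.Defs

open Polynomial

namespace Vale.Agent.P021.Det

theorem DetLower_of (a b m K : ℕ) (p q : ℤ) (hq : 0 < q) (Y : ℕ → ℕ)
    (hE : ∀ i j : ℕ, i < K → j < K →
      ∃ z : ℤ, (Nat.lcmUpto (Y i) : ℝ) * 5 ^ (2 * (m - (a + b) - (i + j))) *
        2 ^ ((5 * m + 1) / 2) * q * Lam ((p : ℝ) / q) m (X ^ (i + j) * Wp a b) =
          2 ^ (5 * (2 * b + (i + j)) / 2) * (z : ℝ))
    (hne : (HM ((p : ℝ) / q) a b m K).det ≠ 0) :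
    (2 : ℝ) ^ (5 * b * K + 2 * ∑ i ∈ Finset.range K, 5 * i / 2) ≤
      |(HM ((p : ℝ) / q) a b m K).det| * (q : ℝ) ^ K *
        (∏ i ∈ Finset.range K, (Nat.lcmUpto (Y i) : ℝ)) *
        5 ^ (2 * ∑ i ∈ Finset.range K, (m - (a + b) - 2 * i)) * 2 ^ (K * ((5 * m + 1) / 2)) := by
  have hq' : (0 : ℝ) < q := by exact_mod_cast hq
  set M : ℕ := m - (a + b) with hM
  set H := HM ((p : ℝ) / q) a b m K with hH
  have hent : ∀ i j : Fin K, H i j = Lam ((p : ℝ) / q) m (X ^ ((i : ℕ) + (j : ℕ)) * Wp a b) :=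
    fun i j => rfl
  have hz : ∀ i j : Fin K, ∃ z : ℤ,
      ((Nat.lcmUpto (Y i) : ℝ) * 5 ^ (M - 2 * (i : ℕ)) * 2 ^ ((5 * m + 1) / 2) * q) *
        (5 ^ (M - 2 * (j : ℕ)) * H i j) =
      (2 ^ (5 * b) * 2 ^ (5 * (i : ℕ) / 2)) * (2 ^ (5 * (j : ℕ) / 2) * (z : ℝ)) := by
    intro i j
    obtain ⟨z, hz⟩ := hE i j i.2 j.2
    have e1 : (M - 2 * (i : ℕ)) + (M - 2 * (j : ℕ)) = 2 * (M - ((i : ℕ) + (j : ℕ))) +
        ((M - 2 * (i : ℕ)) + (M - 2 * (j : ℕ)) - 2 * (M - ((i : ℕ) + (j : ℕ)))) := by omega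
    have e2 : 5 * (2 * b + ((i : ℕ) + (j : ℕ))) / 2 = 5 * b + 5 * (i : ℕ) / 2 + 5 * (j : ℕ) / 2 +
        (5 * (2 * b + ((i : ℕ) + (j : ℕ))) / 2 - (5 * b + 5 * (i : ℕ) / 2 + 5 * (j : ℕ) / 2)) := by
      omega
    set u := (M - 2 * (i : ℕ)) + (M - 2 * (j : ℕ)) - 2 * (M - ((i : ℕ) + (j : ℕ)))
    set w := 5 * (2 * b + ((i : ℕ) + (j : ℕ))) / 2 - (5 * b + 5 * (i : ℕ) / 2 + 5 * (j : ℕ) / 2)
    refine ⟨5 ^ u * 2 ^ w * z, ?_⟩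
    have e3 : (5 : ℝ) ^ (M - 2 * (i : ℕ)) * 5 ^ (M - 2 * (j : ℕ)) =
        5 ^ (2 * (M - ((i : ℕ) + (j : ℕ)))) * 5 ^ u := by
      rw [← pow_add, ← pow_add, e1]
    rw [← hent, e2, pow_add, pow_add, pow_add] at hz
    push_cast
    calc ((Nat.lcmUpto (Y i) : ℝ) * 5 ^ (M - 2 * (i : ℕ)) * 2 ^ ((5 * m + 1) / 2) * q) *
        (5 ^ (M - 2 * (j : ℕ)) * H i j) = (5 : ℝ) ^ (M - 2 * (i : ℕ)) * 5 ^ (M - 2 * (j : ℕ)) *
          ((Nat.lcmUpto (Y i) : ℝ) * 2 ^ ((5 * m + 1) / 2) * q * H i j) := by ring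
      _ = 5 ^ u * ((Nat.lcmUpto (Y i) : ℝ) * 5 ^ (2 * (M - ((i : ℕ) + (j : ℕ)))) *
          2 ^ ((5 * m + 1) / 2) * q * H i j) := by rw [e3]; ring
      _ = _ := by rw [hz]; ring
  choose Z hZ using hz
  have d1 : (Matrix.of fun i j : Fin K =>
      ((Nat.lcmUpto (Y i) : ℝ) * 5 ^ (M - 2 * (i : ℕ)) * 2 ^ ((5 * m + 1) / 2) * q) *
        (Matrix.of fun i j : Fin K => (5 : ℝ) ^ (M - 2 * (j : ℕ)) * H i j) i j).det =
      (∏ i : Fin K, ((Nat.lcmUpto (Y i) : ℝ) * 5 ^ (M - 2 * (i : ℕ)) * 2 ^ ((5 * m + 1) / 2) * q)) *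
        ((∏ j : Fin K, (5 : ℝ) ^ (M - 2 * (j : ℕ))) * H.det) := by
    rw [Matrix.det_mul_column, Matrix.det_mul_row]
  have d2 : (Matrix.of fun i j : Fin K =>
      ((2 : ℝ) ^ (5 * b) * 2 ^ (5 * (i : ℕ) / 2)) *
        (Matrix.of fun i j : Fin K => (2 : ℝ) ^ (5 * (j : ℕ) / 2) *
          ((Int.castRingHom ℝ).mapMatrix (Matrix.of Z)) i j) i j).det =
      (∏ i : Fin K, ((2 : ℝ) ^ (5 * b) * 2 ^ (5 * (i : ℕ) / 2))) *
        ((∏ j : Fin K, (2 : ℝ) ^ (5 * (j : ℕ) / 2)) * (((Matrix.of Z).det : ℤ) : ℝ)) := by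
    rw [Matrix.det_mul_column, Matrix.det_mul_row, ← RingHom.map_det]
    rfl
  have d3 : (Matrix.of fun i j : Fin K =>
      ((Nat.lcmUpto (Y i) : ℝ) * 5 ^ (M - 2 * (i : ℕ)) * 2 ^ ((5 * m + 1) / 2) * q) *
        (Matrix.of fun i j : Fin K => (5 : ℝ) ^ (M - 2 * (j : ℕ)) * H i j) i j) =
      (Matrix.of fun i j : Fin K =>
      ((2 : ℝ) ^ (5 * b) * 2 ^ (5 * (i : ℕ) / 2)) *
        (Matrix.of fun i j : Fin K => (2 : ℝ) ^ (5 * (j : ℕ) / 2) *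
          ((Int.castRingHom ℝ).mapMatrix (Matrix.of Z)) i j) i j) := by
    ext i j
    simp only [Matrix.of_apply]
    rw [hZ i j]
    rfl
  rw [d3, d2] at d1
  simp only [Finset.prod_mul_distrib, Finset.prod_const, Finset.card_univ, Fintype.card_fin] at d1
  rw [Finset.prod_pow_eq_pow_sum, Finset.prod_pow_eq_pow_sum, ← pow_mul, ← pow_mul,
    Fin.sum_univ_eq_sum_range (fun i => 5 * i / 2) K,
    Fin.sum_univ_eq_sum_range (fun i => M - 2 * i) K,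
    Fin.prod_univ_eq_prod_range (fun i => (Nat.lcmUpto (Y i) : ℝ)) K] at d1
  have h3 : 0 < ∏ i ∈ Finset.range K, (Nat.lcmUpto (Y i) : ℝ) := by
    apply Finset.prod_pos
    intro i _
    exact_mod_cast Nat.lcmUpto_pos _
  set L := ∏ i ∈ Finset.range K, (Nat.lcmUpto (Y i) : ℝ)
  set S := ∑ i ∈ Finset.range K, 5 * i / 2
  set T := ∑ i ∈ Finset.range K, (M - 2 * i)
  have d4 : (2 : ℝ) ^ (5 * b * K + 2 * S) * (((Matrix.of Z).det : ℤ) : ℝ) =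
      (q : ℝ) ^ K * L * 5 ^ (2 * T) * 2 ^ (K * ((5 * m + 1) / 2)) * H.det := by
    rw [pow_add, two_mul S, pow_add, two_mul T, pow_add, mul_comm K ((5 * m + 1) / 2)]
    linear_combination d1
  have hP : 0 < (q : ℝ) ^ K * L * 5 ^ (2 * T) * 2 ^ (K * ((5 * m + 1) / 2)) := by positivity
  have hZne : (Matrix.of Z).det ≠ 0 := by
    intro h0
    rw [h0, Int.cast_zero, mul_zero] at d4
    exact (mul_ne_zero hP.ne' hne) d4.symm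
  have hZ1 : (1 : ℝ) ≤ |(((Matrix.of Z).det : ℤ) : ℝ)| := by
    rw [← Int.cast_abs]
    exact_mod_cast Int.one_le_abs hZne
  have d5 := congrArg abs d4
  rw [abs_mul, abs_mul, abs_of_pos hP, abs_of_pos (by positivity : (0 : ℝ) < 2 ^ (5 * b * K + 2 * S))]
    at d5
  calc (2 : ℝ) ^ (5 * b * K + 2 * S) ≤ 2 ^ (5 * b * K + 2 * S) * |(((Matrix.of Z).det : ℤ) : ℝ)| :=
        le_mul_of_one_le_right (by positivity) hZ1
    _ = _ := by rw [d5]; ring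

end Vale.Agent.P021.Det
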