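import Vale.Agent.P021.Det.Main
import Vale.Agent.P021.Det.CwinFive

/-!
# The bound for `μ(π)` from a certificate of shape `(5 s, 6 s, 13 s, 26 s)`
-/

namespace Vale.Agent.P021.Det

lemma cwin_five_num (s : ℕ) (hs : 1 ≤ s) : cwin (5 * s) (6 * s) (13 * s) (26 * s) ≤
    (s : ℝ) ^ 2 * (1237382 / 10000) := by
  have h5 := Real.log_five_lt_d9
  have h2 := Real.log_two_gt_d9
  exact (cwin_five s hs).trans (mul_le_mul_of_nonneg_left (by linarith) (by positivity))

/-- From a certificate with total exponent at most `-Tt` to the bound for `μ(π)`. -/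
theorem final_bound (s : ℕ) (hs : 1 ≤ s) {N : ℕ} {w : ℝ} {S T : Set ℂ}
    (C : Cert (5 * s) (6 * s) (13 * s) (26 * s) N w S T) (Tt μ0 : ℝ) (hTt : C.total ≤ -Tt)
    (hw : 0 < w) (hT : BetBound T) (hTb : Bornology.IsBounded T)
    (l : List ℂ) (x0 : ℝ) (hh : l.head? = some (x0 : ℂ))
    (hl : l.getLast? = some (-1 + 2 * Complex.I)) (hre : ∀ v ∈ l, |v.re| < 5)
    (hS : PathIn S l) (hSb : Bornology.IsBounded S) (hμ0 : 0 ≤ μ0)
    (hδ : 0 < Tt - (s : ℝ) ^ 2 * (1237382 / 10000))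
    (hμ : w * (5 * s) ≤ μ0 * (Tt - (s : ℝ) ^ 2 * (1237382 / 10000))) :
    irrationalityExponent Real.pi ≤ (μ0 : EReal) := by
  have h1 := cwin_five_num s hs
  have h2 : Tt - (s : ℝ) ^ 2 * (1237382 / 10000) ≤
      -C.total - cwin (5 * s) (6 * s) (13 * s) (26 * s) := by linarith
  refine main_bound_gen (cwin (5 * s) (6 * s) (13 * s) (26 * s)) μ0 C hw (by omega) hT hTb l x0 hh
    hl hre hS hSb (fun ε hε => arith_lower_win _ _ _ _ hε) (by linarith) ?_
  refine le_trans (le_of_eq ?_) (hμ.trans (mul_le_mul_of_nonneg_left h2 hμ0))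
  push_cast
  ring

end Vale.Agent.P021.Det
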