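import Vale.Agent.P021.Det.WinDefs

/-!
# The crude local bounds
-/

open Polynomial

namespace Vale.Agent.P021.Det

/-- the coefficient sequence of the rational determinant -/
noncomputable def cpq (p q : ℤ) : ℤ → ℚ := fun k => (p : ℚ) * aco k + ((2 * q : ℤ) : ℚ) * bco k

theorem loc_good (p q : ℤ) (L : ℕ) {lo hi : ℤ} (hlo : -lo ≤ L) (hhi : 2 * hi + 1 ≤ L) :
    Good (Nat.lcmUpto L) lo hi (cpq p q) := by
  have h := (good_aco (D := Nat.lcmUpto L) (lo := lo) (hi := hi)).comb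
    (good_bco (D := Nat.lcmUpto L) (L := L) (fun j hj1 hj2 => ?_) hlo hhi) p (2 * q)
  · exact h
  · exact Finset.dvd_lcm (f := id) (Finset.mem_Icc.2 ⟨hj1, hj2⟩)

theorem loc_norm_lcm (L l : ℕ) (hl : l.Prime) :
    padicNorm l (Nat.lcmUpto L : ℚ) = ((l : ℚ) ^ (Nat.log l L))⁻¹ := by
  have : Fact l.Prime := ⟨hl⟩
  have h0 : (Nat.lcmUpto L : ℚ) ≠ 0 := by exact_mod_cast Nat.lcmUpto_ne_zero L
  rw [padicNorm.eq_zpow_of_nonzero h0, padicValRat.of_nat, zpow_neg, zpow_natCast,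
    ← Nat.factorization_def _ hl, Nat.factorization_lcmUpto _ hl]

theorem loc_norm_lcm_inv_le (L l : ℕ) (hl : l.Prime) (hL : 1 ≤ L) :
    (padicNorm l (Nat.lcmUpto L : ℚ))⁻¹ ≤ L := by
  rw [loc_norm_lcm L l hl, inv_inv]
  exact_mod_cast Nat.pow_log_le_self l (by omega)

theorem loc_norm_lcm_lt (L l : ℕ) (hl : l.Prime) (hL : L < l) :
    padicNorm l (Nat.lcmUpto L : ℚ) = 1 := by
  rw [loc_norm_lcm L l hl, Nat.log_of_lt hL]
  simp

theorem loc_mat (a b m K D : ℕ) (c : ℤ → ℚ) :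
    (mat K a b m D c).det = (D : ℚ) ^ K * (mat K a b m 1 c).det := by
  have h : mat K a b m D c = (D : ℚ) • mat K a b m 1 c := by
    ext i j
    rw [Matrix.smul_apply, mat, mat, smul_eq_mul]
    push_cast
    ring
  rw [h, Matrix.det_smul, Fintype.card_fin]

theorem loc_NN (a b m K : ℕ) (p q : ℤ) :
    NN a b m K p q = (mat K a b m 1 (cpq p q)).det := rfl

/-- norm of `NN` from the norm of the determinant multiplied by `D` -/
theorem loc_norm_eq (a b m K D l : ℕ) (hl : l.Prime) (hD : D ≠ 0) (p q : ℤ) :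
    padicNorm l (NN a b m K p q) =
      ((padicNorm l (D : ℚ))⁻¹) ^ K * padicNorm l (mat K a b m D (cpq p q)).det := by
  have : Fact l.Prime := ⟨hl⟩
  have h0 : padicNorm l (D : ℚ) ≠ 0 := padicNorm.nonzero (by exact_mod_cast hD)
  rw [loc_mat, padicNorm.mul, val_norm_pow, inv_pow, ← mul_assoc,
    inv_mul_cancel₀ (pow_ne_zero _ h0), one_mul, loc_NN]

theorem loc_rng_good (a b m K : ℕ) (p q : ℤ) :
    Good (Nat.lcmUpto (rng a b m K)) (-(m : ℤ)) (2 * K + a + 2 * b) (cpq p q) := by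
  apply loc_good
  · unfold rng; omega
  · unfold rng; omega

/-- primes larger than `rng` -/
theorem local_big (a b m K : ℕ) (p q : ℤ) (l : ℕ) (hl : l.Prime) (h7 : 7 ≤ l)
    (hr : rng a b m K < l) : padicNorm l (NN a b m K p q) ≤ 1 := by
  rw [loc_norm_eq a b m K (Nat.lcmUpto (rng a b m K)) l hl (Nat.lcmUpto_ne_zero _) p q,
    loc_norm_lcm_lt _ l hl hr, inv_one, one_pow, one_mul]
  exact other_det (K := K) (a := a) (b := b) (m := m) (loc_rng_good a b m K p q) le_rfl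
    (by omega) l hl (by omega) (by omega)

/-- crude bound -/
theorem local_crude (a b m K : ℕ) (p q : ℤ) (l : ℕ) (hl : l.Prime) (h2 : l ≠ 2) (h5 : l ≠ 5) :
    padicNorm l (NN a b m K p q) ≤ (rng a b m K : ℚ) ^ K := by
  have : Fact l.Prime := ⟨hl⟩
  rw [loc_norm_eq a b m K (Nat.lcmUpto (rng a b m K)) l hl (Nat.lcmUpto_ne_zero _) p q]
  have h1 := other_det (K := K) (a := a) (b := b) (m := m) (loc_rng_good a b m K p q) le_rfl
    (by omega) l hl h2 h5
  have h3 := loc_norm_lcm_inv_le (rng a b m K) l hl (by unfold rng; omega)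
  calc ((padicNorm l (Nat.lcmUpto (rng a b m K) : ℚ))⁻¹) ^ K *
        padicNorm l (mat K a b m (Nat.lcmUpto (rng a b m K)) (cpq p q)).det
      ≤ (rng a b m K : ℚ) ^ K * 1 := by
        apply mul_le_mul _ h1 (padicNorm.nonneg _) (by positivity)
        exact pow_le_pow_left₀ (inv_nonneg.2 (padicNorm.nonneg _)) h3 K
    _ = _ := mul_one _

/-- the prime 2 -/
theorem local_two (a b m K : ℕ) (p q : ℤ) :
    (padicNorm 2 (NN a b m K p q)) ^ 2 ≤
      (rng a b m K : ℚ) ^ (2 * K) * (32 : ℚ) ^ ((K : ℤ) * (m - 2 * b) - K * (K - 1)) := by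
  rw [loc_norm_eq a b m K (Nat.lcmUpto (rng a b m K)) 2 Nat.prime_two (Nat.lcmUpto_ne_zero _) p q]
  have h1 := two_det (K := K) (a := a) (b := b) (m := m) (loc_rng_good a b m K p q) le_rfl
    (by omega)
  have h3 := loc_norm_lcm_inv_le (rng a b m K) 2 Nat.prime_two (by unfold rng; omega)
  rw [mul_pow, ← pow_mul, mul_comm K 2]
  apply mul_le_mul _ h1 (by positivity) (by positivity)
  exact pow_le_pow_left₀ (inv_nonneg.2 (padicNorm.nonneg _)) h3 _

/-- the prime 5 -/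
theorem local_five (a b m K : ℕ) (p q : ℤ) :
    padicNorm 5 (NN a b m K p q) ≤
      (rng a b m K : ℚ) ^ K * (5 : ℚ) ^ (2 * ∑ i ∈ Finset.range K, (m - (a + b + 2 * i))) := by
  rw [loc_norm_eq a b m K (Nat.lcmUpto (rng a b m K)) 5 Nat.prime_five (Nat.lcmUpto_ne_zero _) p q]
  have h1 := five_det (K := K) (a := a) (b := b) (m := m) (loc_rng_good a b m K p q) le_rfl
    (by omega)
  have h3 := loc_norm_lcm_inv_le (rng a b m K) 5 Nat.prime_five (by unfold rng; omega)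
  apply mul_le_mul _ h1 (padicNorm.nonneg _) (by positivity)
  exact pow_le_pow_left₀ (inv_nonneg.2 (padicNorm.nonneg _)) h3 _

end Vale.Agent.P021.Det
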