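import Vale.Agent.P021.Det.Window

/-!
# The local bound at the odd primes
-/

open Polynomial

namespace Vale.Agent.P021.Det

/-- all entries have norm at most `l` -/
theorem lo_all (a b m K : ℕ) (p q : ℤ) (l : ℕ) (hl : l.Prime) (h7 : 7 ≤ l)
    (hr : rng a b m K < l ^ 2) (F : ℤ[X]) {i j : ℕ} (hF : F.natDegree = i) (hi : i < K)
    (hj : j < K) : padicNorm l (LZ (cpq p q) m (F * X ^ j * wp a b)) ≤ l := by
  have : Fact l.Prime := ⟨hl⟩
  have hdeg : (F * X ^ j * wp a b).natDegree ≤ i + j + (a + 2 * b) := by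
    apply natDegree_mul_le_of_le
    · exact natDegree_mul_le_of_le hF.le (natDegree_X_pow_le j)
    · exact wp_natDegree_le _ _
  have hrz : ((rng a b m K : ℕ) : ℤ) < (l : ℤ) ^ 2 := by exact_mod_cast hr
  unfold rng at hrz
  push_cast at hrz
  refine LZ_norm_le l (cpq p q) m _ _ (by positivity) (-(m : ℤ)) (2 * K + a + 2 * b)
    (fun k hk1 hk2 => ?_) le_rfl (by omega)
  apply win_c_l p q l hl h7 k
  · omega
  · omega

/-- the trivial bound -/
theorem lo_K (a b m K : ℕ) (p q : ℤ) (l : ℕ) (hl : l.Prime) (h7 : 7 ≤ l)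
    (hr : rng a b m K < l ^ 2) : padicNorm l (NN a b m K p q) ≤ (l : ℚ) ^ K := by
  refine win_det_bound a b m K p q l hl (fun i => X ^ i) (fun i _ => monic_X_pow i)
    (fun i _ => natDegree_X_pow i) (fun _ => False) K ?_ (fun _ _ h => h.elim)
    (fun i hi j hj => lo_all a b m K p q l hl h7 hr _ (natDegree_X_pow i) hi hj)
  exact (Finset.card_filter_le _ _).trans (by rw [Finset.card_range])

theorem lo_count (K s x : ℕ) (P : ℕ → Prop) [DecidablePred P]
    (h : ∀ i < K, ¬ P i → i < s ∨ K ≤ i + x) :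
    ((Finset.range K).filter fun i => ¬ P i).card ≤ s + x := by
  have h1 : ((Finset.range K).filter fun i => ¬ P i) ⊆ Finset.range s ∪ Finset.Ico (K - x) K := by
    intro i hi
    rw [Finset.mem_filter, Finset.mem_range] at hi
    rw [Finset.mem_union, Finset.mem_range, Finset.mem_Ico]
    rcases h i hi.1 hi.2 with h2 | h2
    · exact Or.inl h2
    · exact Or.inr ⟨by omega, hi.1⟩
  refine (Finset.card_le_card h1).trans ((Finset.card_union_le _ _).trans ?_)
  rw [Finset.card_range, Nat.card_Ico]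
  omega

/-- the bound in the monomial basis -/
theorem lo_plain (a b m K : ℕ) (p q : ℤ) (l : ℕ) (hl : l.Prime) (h7 : 7 ≤ l)
    (hr : rng a b m K < l ^ 2) : padicNorm l (NN a b m K p q) ≤
      (l : ℚ) ^ ((m + 1 - l) + (((4 * K + 2 * a + 4 * b) - (l + 2 * m)) / 2 + 1)) := by
  have : Fact l.Prime := ⟨hl⟩
  refine win_det_bound a b m K p q l hl (fun i => X ^ i) (fun i _ => monic_X_pow i)
    (fun i _ => natDegree_X_pow i)
    (fun i => m < i + l ∧ 2 * (i + K + a + 2 * b) ≤ l + 2 * m) _ ?_ ?_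
    (fun i hi j hj => lo_all a b m K p q l hl h7 hr _ (natDegree_X_pow i) hi hj)
  · apply lo_count
    intro i hi hni
    by_contra hcon
    rw [not_or] at hcon
    apply hni
    omega
  · intro i hi hg j hj
    have hdeg : (X ^ i * X ^ j * wp a b).natDegree ≤ i + j + (a + 2 * b) := by
      apply natDegree_mul_le_of_le
      · exact natDegree_mul_le_of_le (natDegree_X_pow_le i) (natDegree_X_pow_le j)
      · exact wp_natDegree_le _ _
    have hsh : LZ (cpq p q) m (X ^ i * X ^ j * wp a b) =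
        ∑ k ∈ Finset.range (a + 2 * b + 1), ((wp a b).coeff k : ℚ) *
          cpq p q (((i + j : ℕ) : ℤ) - m + k) := by
      rw [← pow_add, ← ent_eq_LZ, ent]
    rw [hsh]
    have h0 := val_sum_le l 1 (Finset.range (a + 2 * b + 1))
      (fun k => ((wp a b).coeff k : ℚ) *
          cpq p q (((i + j : ℕ) : ℤ) - m + k)) zero_le_one one_ne_zero ?_
    · rw [pow_one] at h0
      exact h0
    · intro k hk
      rw [Finset.mem_range] at hk
      rw [pow_one, padicNorm.mul]
      refine mul_le_one₀ (padicNorm.of_int _) (padicNorm.nonneg _) ?_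
      apply win_c_one p q l hl h7
      · omega
      · omega

/-- the window rows -/
noncomputable def wrow (b m h v l : ℕ) (i : ℕ) : ℤ[X] :=
  if 2 * (l - b) + v + (m - 2 * l) ≤ i then
    QZ ^ (l - b) * (X + C 25) ^ v * X ^ (m - 2 * l) * X ^ (i - (2 * (l - b) + v + (m - 2 * l)))
  else X ^ i

theorem QZ_monic : QZ.Monic := by
  rw [QZ]
  monicity!

theorem QZ_natDegree : QZ.natDegree = 2 := by
  rw [QZ]
  compute_degree!

theorem wrow_monic (b m h v l i : ℕ) : (wrow b m h v l i).Monic := by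
  unfold wrow
  split_ifs
  · exact (((QZ_monic.pow _).mul ((monic_X_add_C 25).pow _)).mul (monic_X_pow _)).mul
      (monic_X_pow _)
  · exact monic_X_pow _

theorem wrow_natDegree (b m h v l i : ℕ) : (wrow b m h v l i).natDegree = i := by
  unfold wrow
  split_ifs with h1
  · have m1 := (QZ_monic.pow (l - b))
    have m2 := ((monic_X_add_C (25 : ℤ)).pow v)
    rw [Monic.natDegree_mul ((m1.mul m2).mul (monic_X_pow _)) (monic_X_pow _),
      Monic.natDegree_mul (m1.mul m2) (monic_X_pow _), Monic.natDegree_mul m1 m2,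
      Monic.natDegree_pow QZ_monic, Monic.natDegree_pow (monic_X_add_C 25), natDegree_X_pow,
      natDegree_X_pow, QZ_natDegree, natDegree_X_add_C]
    omega
  · exact natDegree_X_pow _

theorem wp_mul (A B A' B' : ℕ) : wp A B * wp A' B' = wp (A + A') (B + B') := by
  unfold wp
  rw [pow_add, pow_add]
  ring

/-- good window rows -/
theorem wrow_good (a b m K : ℕ) (p q : ℤ) (h : ℕ) (hl : (2 * h + 1).Prime) (h7 : 7 ≤ 2 * h + 1)
    (i j : ℕ) (hj : j < K)
    (h1 : 2 * (2 * h + 1 - b) + (h + 1 - a) + (m - 2 * (2 * h + 1)) ≤ i)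
    (h2 : i + K + a + 2 * b ≤ 3 * h + 1 + m) :
    padicNorm (2 * h + 1) (LZ (cpq p q) m
      (wrow b m h (h + 1 - a) (2 * h + 1) i * X ^ j * wp a b)) ≤ 1 := by
  have : Fact (2 * h + 1).Prime := ⟨hl⟩
  set l := 2 * h + 1 with hldef
  set v := h + 1 - a with hv
  set s := 2 * (l - b) + v + (m - 2 * l) with hs
  set A := a + v with hA
  set B := b + (l - b) with hB
  have hA1 : h + 1 ≤ A := by omega
  have hB1 : l ≤ B := by omega
  set n : ℤ[X] := X ^ (2 * l - m) * X ^ (i - s + j) * wp (A - (h + 1)) (B - l) with hn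
  have hdeg : n.natDegree + 1 ≤ 2 * h := by
    have hd : n.natDegree ≤ (2 * l - m) + (i - s + j) + ((A - (h + 1)) + 2 * (B - l)) := by
      apply natDegree_mul_le_of_le
      · exact natDegree_mul_le_of_le (natDegree_X_pow_le _) (natDegree_X_pow_le _)
      · exact wp_natDegree_le _ _
    omega
  have hkey := win_poly p q h hl h7 n hdeg
  have hF : X ^ (2 * l - m) * (wrow b m h v l i * X ^ j * wp a b) =
      X ^ (m - 2 * l) * (n * wp (h + 1) l) := by
    unfold wrow
    rw [if_pos h1, hn]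
    have e1 : wp (A - (h + 1)) (B - l) * wp (h + 1) l = wp A B := by
      rw [wp_mul]; congr 1 <;> omega
    have e2 : QZ ^ (l - b) * (X + C 25) ^ v * wp a b = wp A B := by
      have : QZ ^ (l - b) * (X + C 25) ^ v = wp v (l - b) := by
        unfold wp QZ; ring
      rw [this, wp_mul]; congr 1 <;> omega
    calc X ^ (2 * l - m) * (QZ ^ (l - b) * (X + C 25) ^ v * X ^ (m - 2 * l) * X ^ (i - s) * X ^ j *
          wp a b)
        = X ^ (2 * l - m) * X ^ (m - 2 * l) * X ^ (i - s + j) *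
          (QZ ^ (l - b) * (X + C 25) ^ v * wp a b) := by rw [pow_add]; ring
      _ = X ^ (2 * l - m) * X ^ (m - 2 * l) * X ^ (i - s + j) *
          (wp (A - (h + 1)) (B - l) * wp (h + 1) l) := by rw [e1, e2]
      _ = _ := by ring
  have hval : LZ (cpq p q) m (wrow b m h v l i * X ^ j * wp a b) =
      LZ (cpq p q) (2 * l) (n * wp (h + 1) l) := by
    have s1 := LZ_shift (cpq p q) m (2 * l - m) (wrow b m h v l i * X ^ j * wp a b)
    have s2 := LZ_shift (cpq p q) (2 * l) (m - 2 * l) (n * wp (h + 1) l)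
    have hidx : m + (2 * l - m) = 2 * l + (m - 2 * l) := by omega
    rw [← s1, ← s2, hF, hidx]
  rw [hval]
  exact hkey

/-- the bound in the window basis -/
theorem lo_window (a b m K : ℕ) (p q : ℤ) (h : ℕ) (hl : (2 * h + 1).Prime) (h7 : 7 ≤ 2 * h + 1)
    (hr : rng a b m K < (2 * h + 1) ^ 2) : padicNorm (2 * h + 1) (NN a b m K p q) ≤
      ((2 * h + 1 : ℕ) : ℚ) ^ ((2 * (2 * h + 1 - b) + (h + 1 - a) + (m - 2 * (2 * h + 1))) +
        (((4 * K + 2 * a + 4 * b) - (3 * (2 * h + 1) + 2 * m)) / 2 + 1)) := by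
  have : Fact (2 * h + 1).Prime := ⟨hl⟩
  refine win_det_bound a b m K p q (2 * h + 1) hl (wrow b m h (h + 1 - a) (2 * h + 1))
    (fun i _ => wrow_monic _ _ _ _ _ _) (fun i _ => wrow_natDegree _ _ _ _ _ _)
    (fun i => 2 * (2 * h + 1 - b) + (h + 1 - a) + (m - 2 * (2 * h + 1)) ≤ i ∧
      i + K + a + 2 * b ≤ 3 * h + 1 + m) _ ?_
    (fun i _ hg j hj => wrow_good a b m K p q h hl h7 i j hj hg.1 hg.2)
    (fun i hi j hj => lo_all a b m K p q _ hl h7 hr _ (wrow_natDegree _ _ _ _ _ _) hi hj)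
  apply lo_count
  intro i hi hni
  by_contra hcon
  rw [not_or] at hcon
  apply hni
  omega

theorem lo_sub (x y : ℕ) : ((x - y : ℕ) : ℝ) ≤ max ((x : ℝ) - y) 0 := by
  rcases le_total y x with h | h
  · rw [Nat.cast_sub h]
    exact le_max_left _ _
  · rw [Nat.sub_eq_zero_of_le h]
    simp

theorem lo_sub_div (x y : ℕ) : (((x - y) / 2 : ℕ) : ℝ) ≤ max ((x : ℝ) - y) 0 / 2 := by
  have h1 := lo_sub x y
  have h2 : (((x - y) / 2 : ℕ) : ℝ) ≤ ((x - y : ℕ) : ℝ) / 2 := by
    exact_mod_cast Nat.cast_div_le (α := ℝ) (m := x - y) (n := 2)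
  linarith

/-- all primes with `l^2 > rng` -/
theorem local_odd (a b m K : ℕ) (p q : ℤ) (l : ℕ) (hl : l.Prime) (h7 : 7 ≤ l)
    (hr : rng a b m K < l ^ 2) :
    ∃ e : ℕ, padicNorm l (NN a b m K p q) ≤ (l : ℚ) ^ e ∧ (e : ℝ) ≤ badR a b m K l + 8 := by
  obtain ⟨h, rfl⟩ : ∃ h, l = 2 * h + 1 := by
    rcases hl.eq_two_or_odd' with h2 | h2
    · omega
    · exact h2
  set eP := (m + 1 - (2 * h + 1)) +
    (((4 * K + 2 * a + 4 * b) - ((2 * h + 1) + 2 * m)) / 2 + 1) with heP
  set eW := (2 * (2 * h + 1 - b) + (h + 1 - a) + (m - 2 * (2 * h + 1))) +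
        (((4 * K + 2 * a + 4 * b) - (3 * (2 * h + 1) + 2 * m)) / 2 + 1) with heW
  have hK := lo_K a b m K p q (2 * h + 1) hl h7 hr
  have hP := lo_plain a b m K p q (2 * h + 1) hl h7 hr
  have hW := lo_window a b m K p q h hl h7 hr
  rw [← heP] at hP
  rw [← heW] at hW
  refine ⟨min K (min eP eW), ?_, ?_⟩
  · rcases min_choice K (min eP eW) with h1 | h1
    · rw [h1]; exact hK
    · rw [h1]
      rcases min_choice eP eW with h2 | h2
      · rw [h2]; exact hP
      · rw [h2]; exact hW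
  · have c1 : (K : ℝ) ≤ K + 8 := by linarith
    have c2 : (eP : ℝ) ≤ plainR a b m K ((2 * h + 1 : ℕ) : ℝ) + 8 := by
      have d1 := lo_sub (m + 1) (2 * h + 1)
      have d2 := lo_sub_div (4 * K + 2 * a + 4 * b) ((2 * h + 1) + 2 * m)
      have d3 : max (((m + 1 : ℕ) : ℝ) - ((2 * h + 1 : ℕ) : ℝ)) 0 ≤
          max ((m : ℝ) - ((2 * h + 1 : ℕ) : ℝ)) 0 + 1 := by
        apply max_le
        · have := le_max_left ((m : ℝ) - ((2 * h + 1 : ℕ) : ℝ)) 0
          push_cast at this ⊢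
          linarith
        · have := le_max_right ((m : ℝ) - ((2 * h + 1 : ℕ) : ℝ)) 0
          linarith
      have d4 : max (((4 * K + 2 * a + 4 * b : ℕ) : ℝ) - (((2 * h + 1) + 2 * m : ℕ) : ℝ)) 0 =
          max (2 * (a : ℝ) + 4 * b - 2 * m + 4 * K - ((2 * h + 1 : ℕ) : ℝ)) 0 := by
        congr 1
        push_cast
        ring
      rw [d4] at d2
      rw [heP, Nat.cast_add, Nat.cast_add, Nat.cast_one, plainR]
      linarith
    have c3 : (eW : ℝ) ≤ winR a b m K ((2 * h + 1 : ℕ) : ℝ) + 8 := by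
      have d1 := lo_sub (2 * h + 1) b
      have d2 := lo_sub (h + 1) a
      have d3 := lo_sub m (2 * (2 * h + 1))
      have d4 := lo_sub_div (4 * K + 2 * a + 4 * b) (3 * (2 * h + 1) + 2 * m)
      have d5 : max (((h + 1 : ℕ) : ℝ) - (a : ℝ)) 0 ≤
          max (((2 * h + 1 : ℕ) : ℝ) - 2 * a) 0 / 2 + 1 := by
        apply max_le
        · have := le_max_left (((2 * h + 1 : ℕ) : ℝ) - 2 * a) 0
          push_cast at this ⊢
          linarith
        · have := le_max_right (((2 * h + 1 : ℕ) : ℝ) - 2 * a) 0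
          linarith
      have d6 : max (((4 * K + 2 * a + 4 * b : ℕ) : ℝ) -
          ((3 * (2 * h + 1) + 2 * m : ℕ) : ℝ)) 0 =
          max (2 * (a : ℝ) + 4 * b - 2 * m + 4 * K - 3 * ((2 * h + 1 : ℕ) : ℝ)) 0 := by
        congr 1
        push_cast
        ring
      have d7 : max ((m : ℝ) - ((2 * (2 * h + 1) : ℕ) : ℝ)) 0 =
          max ((m : ℝ) - 2 * ((2 * h + 1 : ℕ) : ℝ)) 0 := by
        congr 1
        push_cast
        ring
      rw [d6] at d4
      rw [d7] at d3
      rw [heW, Nat.cast_add, Nat.cast_add, Nat.cast_add, Nat.cast_add, Nat.cast_mul,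
        Nat.cast_one, Nat.cast_ofNat, winR]
      linarith
    rw [badR, Nat.cast_min, Nat.cast_min]
    have e1 : min (K : ℝ) (min (plainR a b m K ((2 * h + 1 : ℕ) : ℝ))
        (winR a b m K ((2 * h + 1 : ℕ) : ℝ))) + 8 =
        min ((K : ℝ) + 8) (min (plainR a b m K ((2 * h + 1 : ℕ) : ℝ) + 8)
        (winR a b m K ((2 * h + 1 : ℕ) : ℝ) + 8)) := by
      rw [min_add_add_right, min_add_add_right]
    rw [e1]
    exact min_le_min c1 (min_le_min c2 c3)

end Vale.Agent.P021.Det
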