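import Vale.Agent.P021.Det.Core
import Vale.Agent.P021.Det.ArchUpper
import Vale.Agent.P021.Det.Nonvan

open Filter Topology

namespace Vale.Agent.P021.Det

/-- the upper bound for `μ(π)` from an arithmetic lower bound with constant `cc` and a
certificate. -/
theorem main_bound_gen {K0 a0 b0 m0 N : ℕ} {w : ℝ} {S T : Set ℂ} (cc μ0 : ℝ)
    (C : Cert K0 a0 b0 m0 N w S T) (hw : 0 < w) (hK0 : 0 < K0) (hT : BetBound T)
    (hTb : Bornology.IsBounded T)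
    (l : List ℂ) (x0 : ℝ) (hh : l.head? = some (x0 : ℂ))
    (hl : l.getLast? = some (-1 + 2 * Complex.I)) (hs : ∀ v ∈ l, |v.re| < 5)
    (hS : PathIn S l) (hSb : Bornology.IsBounded S)
    (har : ∀ ε : ℝ, 0 < ε → ∀ᶠ n : ℕ in atTop, ∀ κ ≤ 2, ∀ p q : ℤ, 0 < q →
      (HM ((p : ℝ) / q) (a0 * n) (b0 * n) (m0 * n) (K0 * n + κ)).det ≠ 0 →
      Real.exp (-(cc + ε) * (n : ℝ) ^ 2) ≤
        (q : ℝ) ^ (K0 * n + κ) *
          |(HM ((p : ℝ) / q) (a0 * n) (b0 * n) (m0 * n) (K0 * n + κ)).det|)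
    (hδ : 0 < -C.total - cc) (hμ : w * K0 ≤ μ0 * (-C.total - cc)) :
    irrationalityExponent Real.pi ≤ (μ0 : EReal) :=
  core_bound (fun n κ x => (HM x (a0 * n) (b0 * n) (m0 * n) (K0 * n + κ)).det) K0 hK0 w cc
    C.total μ0 hw har
    (fun _ hε => arch_upper C hw.le hT hTb l x0 hh hl hs hS hSb hε)
    (fun n x => exists_det_ne_zero x (a0 * n) (b0 * n) (m0 * n) (K0 * n)) hδ hμ

end Vale.Agent.P021.Det
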