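import Vale.Agent.P021.Det.WindowG
import Vale.Agent.P021.Det.ArithGen
import Vale.Agent.P021.Det.Main
import Vale.Agent.P021.Det.CwinFive

/-!
# The local bound with the second window `(3, 2, 4)`, and the constant for the shape
`(5 s, 6 s, 13 s, 26 s)`
-/

open Polynomial

namespace Vale.Agent.P021.Det

open Filter Topology Finset

/-- number of bad rows in the basis of the window `(3, 2, 4)` (real form) -/
noncomputable def win2R (a b m K l : ℝ) : ℝ :=
  2 * max (2 * l - b) 0 + max (3 * l - 2 * a) 0 / 2 + max (m - 4 * l) 0 +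
    max (2 * a + 4 * b - 2 * m + 4 * K - 5 * l) 0 / 2

/-- the bound for the rank with two windows -/
noncomputable def bad3R (a b m K l : ℝ) : ℝ := min (badR a b m K l) (win2R a b m K l)

/-- all primes with `l^2 > rng` -/
theorem local_odd3 (a b m K : ℕ) (p q : ℤ) (l : ℕ) (hl : l.Prime) (h7 : 7 ≤ l)
    (hr : rng a b m K < l ^ 2) :
    ∃ e : ℕ, padicNorm l (NN a b m K p q) ≤ (l : ℚ) ^ e ∧ (e : ℝ) ≤ bad3R a b m K l + 8 := by
  obtain ⟨e1, h1, h2⟩ := local_odd a b m K p q l hl h7 hr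
  obtain ⟨h, rfl⟩ : ∃ h, l = 2 * h + 1 := by
    rcases hl.eq_two_or_odd' with h2 | h2
    · omega
    · exact h2
  have hok : gok h 1 1 4 := by
    refine ⟨by omega, ?_⟩
    unfold gA gB
    nlinarith
  have hG := g_window a b m K p q h 1 1 4 hl h7 hok hr
  have eA : gA h 1 + 1 = 3 * h + 2 := by unfold gA; omega
  have eB : gB h 1 + 1 = 2 * (2 * h + 1) := by unfold gB; omega
  have eS : 2 * h + gA h 1 + 1 + 2 * (gB h 1 + 1) + m =
      2 * h + (3 * h + 2) + 2 * (2 * (2 * h + 1)) + m := by omega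
  rw [eS, eA, eB] at hG
  set eW := (2 * (2 * (2 * h + 1) - b) + (3 * h + 2 - a) + (m - (2 * h + 1) * 4)) +
    ((2 * K + a + 2 * b + (2 * h + 1) * 4) - (2 * h + (3 * h + 2) + 2 * (2 * (2 * h + 1)) + m) +
      1) with heW
  refine ⟨min e1 eW, ?_, ?_⟩
  · rcases min_choice e1 eW with h3 | h3
    · rw [h3]; exact h1
    · rw [h3]; exact hG
  · have c3 : (eW : ℝ) ≤ win2R a b m K ((2 * h + 1 : ℕ) : ℝ) + 8 := by
      have d1 := lo_sub (2 * (2 * h + 1)) b
      have d2 := lo_sub (3 * h + 2) a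
      have d3 := lo_sub m ((2 * h + 1) * 4)
      have d4 := lo_sub (2 * K + a + 2 * b + (2 * h + 1) * 4)
        (2 * h + (3 * h + 2) + 2 * (2 * (2 * h + 1)) + m)
      have d5 : max (((3 * h + 2 : ℕ) : ℝ) - (a : ℝ)) 0 ≤
          max (3 * ((2 * h + 1 : ℕ) : ℝ) - 2 * a) 0 / 2 + 1 := by
        apply max_le
        · have := le_max_left (3 * ((2 * h + 1 : ℕ) : ℝ) - 2 * a) 0
          push_cast at this ⊢
          linarith
        · have := le_max_right (3 * ((2 * h + 1 : ℕ) : ℝ) - 2 * a) 0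
          linarith
      have d6 : max (((2 * K + a + 2 * b + (2 * h + 1) * 4 : ℕ) : ℝ) -
          ((2 * h + (3 * h + 2) + 2 * (2 * (2 * h + 1)) + m : ℕ) : ℝ)) 0 ≤
          max (2 * (a : ℝ) + 4 * b - 2 * m + 4 * K - 5 * ((2 * h + 1 : ℕ) : ℝ)) 0 / 2 + 1 := by
        apply max_le
        · have := le_max_left
            (2 * (a : ℝ) + 4 * b - 2 * m + 4 * K - 5 * ((2 * h + 1 : ℕ) : ℝ)) 0
          push_cast at this ⊢
          linarith
        · have := le_max_right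
            (2 * (a : ℝ) + 4 * b - 2 * m + 4 * K - 5 * ((2 * h + 1 : ℕ) : ℝ)) 0
          linarith
      have d7 : max ((m : ℝ) - (((2 * h + 1) * 4 : ℕ) : ℝ)) 0 =
          max ((m : ℝ) - 4 * ((2 * h + 1 : ℕ) : ℝ)) 0 := by
        congr 1
        push_cast
        ring
      have d8 : max (((2 * (2 * h + 1) : ℕ) : ℝ) - (b : ℝ)) 0 =
          max (2 * ((2 * h + 1 : ℕ) : ℝ) - b) 0 := by
        congr 1
        push_cast
        ring
      rw [d7] at d3
      rw [d8] at d1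
      rw [heW, Nat.cast_add, Nat.cast_add, Nat.cast_add, Nat.cast_add, Nat.cast_mul,
        Nat.cast_one, Nat.cast_ofNat, win2R]
      linarith
    rw [bad3R, Nat.cast_min, ← min_add_add_right]
    exact min_le_min h2 c3

/-! ### the function -/

lemma win2R_nonneg (a b m K l : ℝ) : 0 ≤ win2R a b m K l := by
  unfold win2R; positivity

lemma bad3R_nonneg {a b m K l : ℝ} (hK : 0 ≤ K) : 0 ≤ bad3R a b m K l :=
  le_min (badR_nonneg hK) (win2R_nonneg _ _ _ _ _)

lemma win2R_lip (a b m K x y : ℝ) : |win2R a b m K x - win2R a b m K y| ≤ 12 * |x - y| := by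
  have h1 := max_sub_le (2 * x - b) (2 * y - b)
  have h2 := max_sub_le (3 * x - 2 * a) (3 * y - 2 * a)
  have h3 := max_sub_le (m - 4 * x) (m - 4 * y)
  have h4 := max_sub_le (2 * a + 4 * b - 2 * m + 4 * K - 5 * x)
    (2 * a + 4 * b - 2 * m + 4 * K - 5 * y)
  have e1 : 2 * x - b - (2 * y - b) = 2 * (x - y) := by ring
  have e2 : 3 * x - 2 * a - (3 * y - 2 * a) = 3 * (x - y) := by ring
  have e3 : m - 4 * x - (m - 4 * y) = -(4 * (x - y)) := by ring
  have e4 : 2 * a + 4 * b - 2 * m + 4 * K - 5 * x - (2 * a + 4 * b - 2 * m + 4 * K - 5 * y) =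
    -(5 * (x - y)) := by ring
  rw [e1, abs_mul, abs_of_pos (by norm_num : (0 : ℝ) < 2)] at h1
  rw [e2, abs_mul, abs_of_pos (by norm_num : (0 : ℝ) < 3)] at h2
  rw [e3, abs_neg, abs_mul, abs_of_pos (by norm_num : (0 : ℝ) < 4)] at h3
  rw [e4, abs_neg, abs_mul, abs_of_pos (by norm_num : (0 : ℝ) < 5)] at h4
  rw [abs_le] at h1 h2 h3 h4 ⊢
  unfold win2R
  constructor <;> linarith [abs_nonneg (x - y)]

lemma bad3R_lip (a b m K x y : ℝ) : |bad3R a b m K x - bad3R a b m K y| ≤ 12 * |x - y| := by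
  unfold bad3R
  refine (abs_min_sub_min_le_max _ _ _ _).trans (max_le ?_ ?_)
  · refine (badR_lip a b m K x y).trans ?_
    linarith [abs_nonneg (x - y)]
  · exact win2R_lip a b m K x y

lemma win2R_scale_add (a b m K l : ℝ) {n : ℝ} (hn : 0 < n) (κ : ℝ) (hκ : 0 ≤ κ) :
    win2R (a * n) (b * n) (m * n) (K * n + κ) l ≤ n * win2R a b m K (l / n) + 2 * κ := by
  have hl : l = n * (l / n) := by field_simp
  set y := l / n with hy
  have hadd : ∀ u v : ℝ, 0 ≤ v → max (u + v) 0 ≤ max u 0 + v := by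
    intro u v hv
    exact max_le (by linarith [le_max_left u 0]) (by linarith [le_max_right u 0])
  unfold win2R
  have e1 : 2 * l - b * n = n * (2 * y - b) := by rw [hl]; ring
  have e2 : 3 * l - 2 * (a * n) = n * (3 * y - 2 * a) := by rw [hl]; ring
  have e3 : m * n - 4 * l = n * (m - 4 * y) := by rw [hl]; ring
  have e4 : 2 * (a * n) + 4 * (b * n) - 2 * (m * n) + 4 * (K * n + κ) - 5 * l =
      n * (2 * a + 4 * b - 2 * m + 4 * K - 5 * y) + 4 * κ := by rw [hl]; ring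
  rw [e1, e2, e3, e4, mul_max_zero hn.le, mul_max_zero hn.le, mul_max_zero hn.le]
  have := hadd (n * (2 * a + 4 * b - 2 * m + 4 * K - 5 * y)) (4 * κ) (by linarith)
  rw [mul_max_zero hn.le] at this
  linarith

lemma bad3R_scale (a b m K l : ℝ) {n : ℝ} (hn : 0 < n) (κ : ℝ) (hκ : 0 ≤ κ) :
    bad3R (a * n) (b * n) (m * n) (K * n + κ) l ≤ n * bad3R a b m K (l / n) + 2 * κ := by
  unfold bad3R
  rw [mul_min_of_nonneg _ _ hn.le, ← min_add_add_right]
  exact min_le_min (badR_scale a b m K l hn κ hκ) (win2R_scale_add a b m K l hn κ hκ)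

/-- **The arithmetic lower bound with the second window.** -/
theorem arith_lower_3 (K0 a0 b0 m0 : ℕ) {ε : ℝ} (hε : 0 < ε) :
    ∀ᶠ n : ℕ in atTop, ∀ κ ≤ 2, ∀ p q : ℤ, 0 < q →
      (HM ((p : ℝ) / q) (a0 * n) (b0 * n) (m0 * n) (K0 * n + κ)).det ≠ 0 →
      Real.exp (-(cphi (bad3R a0 b0 m0 K0) K0 a0 b0 m0 + ε) * (n : ℝ) ^ 2) ≤
        (q : ℝ) ^ (K0 * n + κ) *
          |(HM ((p : ℝ) / q) (a0 * n) (b0 * n) (m0 * n) (K0 * n + κ)).det| := by
  refine arith_lower_phi K0 a0 b0 m0 (Λ := 12) (C0 := 12)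
    (fun y => bad3R_nonneg (Nat.cast_nonneg K0)) (by norm_num) (fun x y => bad3R_lip _ _ _ _ x y)
    (by norm_num) ?_ hε
  intro n κ hn hκ p q l hl h7 hr
  obtain ⟨e, he1, he2⟩ := local_odd3 _ _ _ _ p q l hl h7 hr
  refine ⟨e, he1, he2.trans ?_⟩
  have hnR : (0 : ℝ) < n := by exact_mod_cast hn
  have h1 := bad3R_scale a0 b0 m0 K0 l hnR κ (Nat.cast_nonneg _)
  have hκ' : (κ : ℝ) ≤ 2 := by exact_mod_cast hκ
  push_cast
  linarith

/-! ### the constant -/

lemma continuous_bad3R (a b m K : ℝ) : Continuous (bad3R a b m K) := by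
  unfold bad3R badR plainR winR win2R
  fun_prop

lemma win2R_chord (a b m K : ℝ) {u v y : ℝ} (huv : u ≤ v) (hy : y ∈ Set.Icc u v) :
    win2R a b m K y * (v - u) ≤ win2R a b m K u * (v - y) + win2R a b m K v * (y - u) := by
  have h1 := max_chord (c := -b) (d := 2) huv hy
  have h2 := max_chord (c := -(2 * a)) (d := 3) huv hy
  have h3 := max_chord (c := m) (d := -4) huv hy
  have h4 := max_chord (c := 2 * a + 4 * b - 2 * m + 4 * K) (d := -5) huv hy
  simp only [neg_mul, ← sub_eq_add_neg, neg_add_eq_sub] at h1 h2 h3 h4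
  unfold win2R
  nlinarith

lemma int_bad3R_win2 (a b m K : ℝ) {u v : ℝ} (huv : u < v) :
    ∫ y in u..v, bad3R a b m K y ≤ (v - u) * (win2R a b m K u + win2R a b m K v) / 2 :=
  int_le_trap (continuous_bad3R a b m K) huv fun y hy =>
    (mul_le_mul_of_nonneg_right (min_le_right _ _)
      (by linarith [hy.1, hy.2])).trans (win2R_chord a b m K huv.le hy)

lemma int_bad3R_K (a b m K : ℝ) {u v : ℝ} (huv : u < v) :
    ∫ y in u..v, bad3R a b m K y ≤ (v - u) * K := by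
  have h := int_le_trap (continuous_bad3R a b m K) huv (A := K) (B := K) fun y hy => by
    have h1 : bad3R a b m K y ≤ K := (min_le_left _ _).trans (min_le_left _ _)
    have h2 := mul_le_mul_of_nonneg_right h1 (by linarith [hy.1, hy.2] : 0 ≤ v - u)
    linarith
  linarith

lemma int_bad3R_le (a b m K : ℝ) {u v : ℝ} (huv : u ≤ v) :
    ∫ y in u..v, bad3R a b m K y ≤ ∫ y in u..v, badR a b m K y :=
  intervalIntegral.integral_mono_on huv ((continuous_bad3R a b m K).intervalIntegrable _ _)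
    ((continuous_badR a b m K).intervalIntegrable _ _) fun _ _ => min_le_left _ _

lemma win2R_scale (a b m K y s : ℝ) (hs : 0 ≤ s) :
    win2R (a * s) (b * s) (m * s) (K * s) (y * s) = s * win2R a b m K y := by
  unfold win2R
  have e1 : 2 * (y * s) - b * s = s * (2 * y - b) := by ring
  have e2 : 3 * (y * s) - 2 * (a * s) = s * (3 * y - 2 * a) := by ring
  have e3 : m * s - 4 * (y * s) = s * (m - 4 * y) := by ring
  have e4 : 2 * (a * s) + 4 * (b * s) - 2 * (m * s) + 4 * (K * s) - 5 * (y * s) =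
    s * (2 * a + 4 * b - 2 * m + 4 * K - 5 * y) := by ring
  rw [e1, e2, e3, e4, mul_max_zero hs, mul_max_zero hs, mul_max_zero hs, mul_max_zero hs]
  ring

lemma win25_val : win2R 6 13 26 5 (31 / 5) = 5 ∧ win2R 6 13 26 5 (32 / 5) = 4 ∧
    win2R 6 13 26 5 (13 / 2) = 15 / 4 ∧ win2R 6 13 26 5 (74 / 11) = 5 := by
  unfold win2R
  refine ⟨?_, ?_, ?_, ?_⟩ <;> norm_num [max_def]

theorem cphi_five (s : ℕ) (hs : 1 ≤ s) :
    cphi (bad3R ((6 * s : ℕ) : ℝ) ((13 * s : ℕ) : ℝ) ((26 * s : ℕ) : ℝ) ((5 * s : ℕ) : ℝ))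
      (5 * s) (6 * s) (13 * s) (26 * s) ≤
    (s : ℝ) ^ 2 * (98001 / 770 + 49 / 2 * Real.log 5 - 125 / 2 * Real.log 2) := by
  have hs0 : (1 : ℝ) ≤ s := by exact_mod_cast hs
  have hs' : (0 : ℝ) ≤ s := by linarith
  obtain ⟨w1, w2, w3, w4, w5⟩ := win5_val
  obtain ⟨p1, p2, p3⟩ := plain5_val
  obtain ⟨u1, u2, u3, u4⟩ := win25_val
  set A : ℝ := ((6 * s : ℕ) : ℝ) with hA
  set B : ℝ := ((13 * s : ℕ) : ℝ) with hB
  set M : ℝ := ((26 * s : ℕ) : ℝ) with hM
  set K : ℝ := ((5 * s : ℕ) : ℝ) with hK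
  have hA' : A = 6 * s := by rw [hA]; push_cast; ring
  have hB' : B = 13 * s := by rw [hB]; push_cast; ring
  have hM' : M = 26 * s := by rw [hM]; push_cast; ring
  have hK' : K = 5 * s := by rw [hK]; push_cast; ring
  have hw : ∀ y : ℝ, winR A B M K (y * s) = s * winR 6 13 26 5 y := by
    intro y
    rw [hA', hB', hM', hK']
    exact winR_scale 6 13 26 5 y s hs'
  have hp : ∀ y : ℝ, plainR A B M K (y * s) = s * plainR 6 13 26 5 y := by
    intro y
    rw [hA', hB', hM', hK']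
    exact plainR_scale 6 13 26 5 y s hs'
  have hw2 : ∀ y : ℝ, win2R A B M K (y * s) = s * win2R 6 13 26 5 y := by
    intro y
    rw [hA', hB', hM', hK']
    exact win2R_scale 6 13 26 5 y s hs'
  set Z : ℝ := 2 * (M + 2 * K + A + 2 * B) + 1 with hZ
  have hZ' : Z = 136 * s + 1 := by rw [hZ, hA', hB', hM', hK']; ring
  have hX : plainR A B M K Z = 0 := by
    unfold plainR
    rw [hZ', hA', hB', hM', hK', max_eq_right (by linarith), max_eq_right (by linarith)]
    norm_num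
  have g1 := int_bad3R_K A B M K (u := 0) (v := 31 / 5 * s) (by linarith)
  have g2 := int_bad3R_win2 A B M K (u := 31 / 5 * s) (v := 32 / 5 * s) (by linarith)
  have g3 := int_bad3R_win2 A B M K (u := 32 / 5 * s) (v := 13 / 2 * s) (by linarith)
  have g4 := int_bad3R_win2 A B M K (u := 13 / 2 * s) (v := 74 / 11 * s) (by linarith)
  have g5 := int_bad3R_le A B M K (u := 74 / 11 * s) (v := Z) (by linarith)
  have k5 := int_badR_K A B M K (u := 74 / 11 * s) (v := 74 / 7 * s) (by linarith)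
  have k6 := int_badR_win A B M K (u := 74 / 7 * s) (v := 32 / 3 * s) (by linarith)
  have k7 := int_badR_win A B M K (u := 32 / 3 * s) (v := 12 * s) (by linarith)
  have k8 := int_badR_win A B M K (u := 12 * s) (v := 13 * s) (by linarith)
  have k9 := int_badR_win A B M K (u := 13 * s) (v := 74 / 5 * s) (by linarith)
  have k10 := int_badR_K A B M K (u := 74 / 5 * s) (v := 74 / 3 * s) (by linarith)
  have k11 := int_badR_plain A B M K (u := 74 / 3 * s) (v := 26 * s) (by linarith)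
  have k12 := int_badR_plain A B M K (u := 26 * s) (v := 32 * s) (by linarith)
  have k13 := int_badR_plain A B M K (u := 32 * s) (v := Z) (by linarith)
  have hadd3 : ∀ u v w : ℝ, ∫ y in u..w, bad3R A B M K y =
      (∫ y in u..v, bad3R A B M K y) + ∫ y in v..w, bad3R A B M K y := fun u v w =>
    (intervalIntegral.integral_add_adjacent_intervals
      ((continuous_bad3R A B M K).intervalIntegrable _ _)
      ((continuous_bad3R A B M K).intervalIntegrable _ _)).symm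
  have a1 := hadd3 0 (31 / 5 * s) Z
  have a2 := hadd3 (31 / 5 * s) (32 / 5 * s) Z
  have a3 := hadd3 (32 / 5 * s) (13 / 2 * s) Z
  have a4 := hadd3 (13 / 2 * s) (74 / 11 * s) Z
  have b5 := int_badR_add A B M K (74 / 11 * s) (74 / 7 * s) Z
  have b6 := int_badR_add A B M K (74 / 7 * s) (32 / 3 * s) Z
  have b7 := int_badR_add A B M K (32 / 3 * s) (12 * s) Z
  have b8 := int_badR_add A B M K (12 * s) (13 * s) Z
  have b9 := int_badR_add A B M K (13 * s) (74 / 5 * s) Z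
  have b10 := int_badR_add A B M K (74 / 5 * s) (74 / 3 * s) Z
  have b11 := int_badR_add A B M K (74 / 3 * s) (26 * s) Z
  have b12 := int_badR_add A B M K (26 * s) (32 * s) Z
  rw [hw2, hw2, u1, u2] at g2
  rw [hw2, hw2, u2, u3] at g3
  rw [hw2, hw2, u3, u4] at g4
  rw [hw, hw, w1, w2] at k6
  rw [hw, hw, w2, w3] at k7
  rw [hw, hw, w3, w4] at k8
  rw [hw, hw, w4, w5] at k9
  rw [hp, hp, p1, p2] at k11
  rw [hp, hp, p2, p3] at k12
  rw [hp, p3, hX, mul_zero, add_zero, mul_zero, zero_div] at k13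
  have hint : ∫ y in (0 : ℝ)..Z, bad3R A B M K y ≤ (s : ℝ) ^ 2 * (98001 / 770) := by
    rw [a1, a2, a3, a4]
    have g1' := g1.trans_eq (show (31 / 5 * (s : ℝ) - 0) * K = 31 * (s : ℝ) ^ 2 by
      rw [hK']; ring)
    have g2' := g2.trans_eq (show (32 / 5 * (s : ℝ) - 31 / 5 * s) * (s * 5 + s * 4) / 2 =
      9 / 10 * (s : ℝ) ^ 2 by ring)
    have g3' := g3.trans_eq (show (13 / 2 * (s : ℝ) - 32 / 5 * s) * (s * 4 + s * (15 / 4)) / 2 =
      31 / 80 * (s : ℝ) ^ 2 by ring)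
    have g4' := g4.trans_eq (show (74 / 11 * (s : ℝ) - 13 / 2 * s) * (s * (15 / 4) + s * 5) / 2 =
      175 / 176 * (s : ℝ) ^ 2 by ring)
    have k5' := k5.trans_eq (show (74 / 7 * (s : ℝ) - 74 / 11 * s) * K =
      1480 / 77 * (s : ℝ) ^ 2 by rw [hK']; ring)
    have k6' := k6.trans_eq (show (32 / 3 * (s : ℝ) - 74 / 7 * s) * (s * 5 + s * (14 / 3)) / 2 =
      29 / 63 * (s : ℝ) ^ 2 by ring)
    have k7' := k7.trans_eq (show (12 * (s : ℝ) - 32 / 3 * s) * (s * (14 / 3) + s * 2) / 2 =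
      40 / 9 * (s : ℝ) ^ 2 by ring)
    have k8' := k8.trans_eq (show (13 * (s : ℝ) - 12 * s) * (s * 2 + s * (1 / 2)) / 2 =
      5 / 4 * (s : ℝ) ^ 2 by ring)
    have k9' := k9.trans_eq (show (74 / 5 * (s : ℝ) - 13 * s) * (s * (1 / 2) + s * 5) / 2 =
      99 / 20 * (s : ℝ) ^ 2 by ring)
    have k10' := k10.trans_eq (show (74 / 3 * (s : ℝ) - 74 / 5 * s) * K =
      148 / 3 * (s : ℝ) ^ 2 by rw [hK']; ring)
    have k11' := k11.trans_eq (show (26 * (s : ℝ) - 74 / 3 * s) * (s * 5 + s * 3) / 2 =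
      16 / 3 * (s : ℝ) ^ 2 by ring)
    have k12' := k12.trans_eq (show (32 * (s : ℝ) - 26 * s) * (s * 3 + s * 0) / 2 =
      9 * (s : ℝ) ^ 2 by ring)
    linarith only [g1', g2', g3', g4', g5, k5', k6', k7', k8', k9', k10', k11', k12', k13,
      b5, b6, b7, b8, b9, b10, b11, b12]
  have e1 : 26 * s - (6 * s + 13 * s) = 7 * s := by omega
  rw [cphi, e1]
  have e2 : (2 * (((26 * s : ℕ) : ℝ) + 2 * ((5 * s : ℕ) : ℝ) + ((6 * s : ℕ) : ℝ) +
    2 * ((13 * s : ℕ) : ℝ)) + 1) = Z := rfl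
  rw [e2]
  have e3 : (((7 * s : ℕ) : ℝ)) ^ 2 / 2 * Real.log 5 - 5 / 2 * ((5 * s : ℕ) : ℝ) *
      (2 * ((13 * s : ℕ) : ℝ) + ((5 * s : ℕ) : ℝ) - ((26 * s : ℕ) : ℝ)) * Real.log 2 =
      (s : ℝ) ^ 2 * (49 / 2 * Real.log 5 - 125 / 2 * Real.log 2) := by
    push_cast; ring
  linarith only [hint, e3]

lemma cphi_five_num (s : ℕ) (hs : 1 ≤ s) :
    cphi (bad3R ((6 * s : ℕ) : ℝ) ((13 * s : ℕ) : ℝ) ((26 * s : ℕ) : ℝ) ((5 * s : ℕ) : ℝ))
      (5 * s) (6 * s) (13 * s) (26 * s) ≤ (s : ℝ) ^ 2 * (1233836 / 10000) := by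
  have h5 := Real.log_five_lt_d9
  have h2 := Real.log_two_gt_d9
  exact (cphi_five s hs).trans (mul_le_mul_of_nonneg_left (by linarith) (by positivity))

/-- From a certificate with total exponent at most `-Tt` to the bound for `μ(π)`. -/
theorem final_bound3 (s : ℕ) (hs : 1 ≤ s) {N : ℕ} {w : ℝ} {S T : Set ℂ}
    (C : Cert (5 * s) (6 * s) (13 * s) (26 * s) N w S T) (Tt μ0 : ℝ) (hTt : C.total ≤ -Tt)
    (hw : 0 < w) (hT : BetBound T) (hTb : Bornology.IsBounded T)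
    (l : List ℂ) (x0 : ℝ) (hh : l.head? = some (x0 : ℂ))
    (hl : l.getLast? = some (-1 + 2 * Complex.I)) (hre : ∀ v ∈ l, |v.re| < 5)
    (hS : PathIn S l) (hSb : Bornology.IsBounded S) (hμ0 : 0 ≤ μ0)
    (hδ : 0 < Tt - (s : ℝ) ^ 2 * (1233836 / 10000))
    (hμ : w * (5 * s) ≤ μ0 * (Tt - (s : ℝ) ^ 2 * (1233836 / 10000))) :
    irrationalityExponent Real.pi ≤ (μ0 : EReal) := by
  set c : ℝ := cphi (bad3R ((6 * s : ℕ) : ℝ) ((13 * s : ℕ) : ℝ) ((26 * s : ℕ) : ℝ)
    ((5 * s : ℕ) : ℝ)) (5 * s) (6 * s) (13 * s) (26 * s) with hc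
  have h1 : c ≤ (s : ℝ) ^ 2 * (1233836 / 10000) := cphi_five_num s hs
  have h2 : Tt - (s : ℝ) ^ 2 * (1233836 / 10000) ≤ -C.total - c := by linarith
  refine main_bound_gen c μ0 C hw (by omega) hT hTb l x0 hh
    hl hre hS hSb (fun ε hε => arith_lower_3 _ _ _ _ hε) (by linarith) ?_
  refine le_trans (le_of_eq ?_) (hμ.trans (mul_le_mul_of_nonneg_left h2 hμ0))
  push_cast
  ring

end Vale.Agent.P021.Det
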