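import Vale.Agent.P021.Det.Circ
import Vale.Agent.P021.Det.Path

open Polynomial Filter Topology

namespace Vale.Agent.P021.Det

theorem Rec_aco (k : ℤ) :
    (2 * (k : ℝ) + 1) * (aco k : ℝ) + 50 * (k : ℝ) * (aco (k - 1) : ℝ) = 0 := by
  have h1 : |5 - (5 : ℝ)| < 1 := by norm_num
  have h2 : (1 : ℝ) < 5 + 5 := by norm_num
  have h := CI_rec h1 h2 k
  rw [aco_circle 5 1 h1 h2 k, aco_circle 5 1 h1 h2 (k - 1)] at h
  have h3 : (-(2 * (Real.pi : ℂ) * Complex.I)) ≠ 0 := by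
    apply neg_ne_zero.2
    apply mul_ne_zero (mul_ne_zero two_ne_zero ?_) Complex.I_ne_zero
    exact_mod_cast Real.pi_ne_zero
  have h4 : (-(2 * (Real.pi : ℂ) * Complex.I)) *
      ((2 * (k : ℂ) + 1) * (aco k : ℂ) + 50 * (k : ℂ) * (aco (k - 1) : ℂ)) = 0 := by
    linear_combination h
  have h5 := (mul_eq_zero.1 h4).resolve_left h3
  exact_mod_cast h5

theorem lam_rec (x : ℝ) (k : ℤ) :
    (2 * (k : ℝ) + 1) * lam x k + 50 * (k : ℝ) * lam x (k - 1) = bd k := by
  have h1 := Path_rec_pi k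
  have h2 := Rec_aco k
  rw [← h1]
  unfold lam
  linear_combination (x - Real.pi) / 2 * h2

theorem Rec_neg_one (x : ℝ) : lam x (-1) = -x / 20 := by
  have h1 := Path_neg_one_pi
  have h2 : (aco (-1) : ℝ) = -(1 / 10) := by
    have : aco (-1) = -(1 / 10) := by
      rw [aco]; norm_num
    rw [this]; push_cast; ring
  unfold lam at h1 ⊢
  rw [h2] at h1 ⊢
  linear_combination h1

/-- uniqueness: the recursion and the value at `-1` determine `lam x`. -/
theorem lam_unique (x : ℝ) (f : ℤ → ℝ)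
    (h : ∀ k : ℤ, (2 * (k : ℝ) + 1) * f k + 50 * (k : ℝ) * f (k - 1) = bd k)
    (h1 : f (-1) = -x / 20) (k : ℤ) : f k = lam x k :=
  Path_unique f (lam x) h (lam_rec x) (by rw [h1, Rec_neg_one]) k

end Vale.Agent.P021.Det
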