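import Vale.Agent.P021.Det.Cert1
import Vale.Agent.P021.Det.Final

namespace Vale.Agent.P021.Det

theorem pnt10_zero : pnt10 (0, 0) = ((0 : ℝ) : ℂ) := by simp [pnt10]

theorem pnt10_e : pnt10 (-1024, 2048) = -1 + 2 * Complex.I := by
  unfold pnt10
  norm_num

theorem result1 (hT : BetBound T1) :
    irrationalityExponent Real.pi ≤ ((6.0781 : ℝ) : EReal) := by
  have hl2 := Real.log_two_gt_d9
  have hl2' := Real.log_two_lt_d9
  refine final_bound 200 (by norm_num) cert1 (12587990 * Real.log 2) 6.0781
    (by rw [cert1_total]; linarith) (by positivity) hT T1_bounded l1 0 ?_ ?_ ?_ l1_path S1_bounded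
    (by norm_num) ?_ ?_
  · simp [l1, pnt10_zero]
  · simp [l1, pnt10_e]
  · intro v hv
    simp only [l1, List.mem_cons, List.not_mem_nil, or_false] at hv
    rcases hv with rfl | rfl | rfl <;> simp [pnt10] <;> norm_num
  · norm_num
    linarith
  · norm_num
    nlinarith

end Vale.Agent.P021.Det
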