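import Vale.Agent.P021.Det.Cert2
import Vale.Agent.P021.Det.Result1
import Vale.Agent.P021.Det.LocalOdd3

namespace Vale.Agent.P021.Det

theorem result3 (hT : BetBound T1) :
    irrationalityExponent Real.pi ≤ ((6.027 : ℝ) : EReal) := by
  have hl2 := Real.log_two_gt_d9
  have hl2' := Real.log_two_lt_d9
  refine final_bound3 400 (by norm_num) cert2 (50311780 * Real.log 2) 6.027
    (by rw [cert2_total]; linarith) (by positivity) hT T1_bounded l1 0 ?_ ?_ ?_ l1_path S1_bounded
    (by norm_num) ?_ ?_
  · simp [l1, pnt10_zero]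
  · simp [l1, pnt10_e]
  · intro v hv
    simp only [l1, List.mem_cons, List.not_mem_nil, or_false] at hv
    rcases hv with rfl | rfl | rfl <;> simp [pnt10] <;> norm_num
  · norm_num
    linarith
  · norm_num
    nlinarith

end Vale.Agent.P021.Det
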