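import Vale.Agent.P021.Det.Defs

open Polynomial Filter Topology

namespace Vale.Agent.P021.Det

/-! ### R: recursion -/

theorem lam_rec (x : ℝ) (k : ℤ) :
    (2 * (k : ℝ) + 1) * lam x k + 50 * (k : ℝ) * lam x (k - 1) = bd k := by
  sorry

/-- uniqueness: the recursion and the value at `-1` determine `lam x`. -/
theorem lam_unique (x : ℝ) (f : ℤ → ℝ)
    (h : ∀ k : ℤ, (2 * (k : ℝ) + 1) * f k + 50 * (k : ℝ) * f (k - 1) = bd k)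
    (h1 : f (-1) = -x / 20) (k : ℤ) : f k = lam x k := by
  sorry

/-! ### NV: non-vanishing -/

theorem exists_det_ne_zero (x : ℝ) (a b m K : ℕ) :
    ∃ κ ≤ 2, (HM x a b m (K + κ)).det ≠ 0 := by
  sorry

/-! ### AR: arithmetic -/

/-- integrality of the entries -/
theorem entry_int (a b m s Y : ℕ) (p q : ℤ) (hq : 0 < q) (h1 : m ≤ s + Y)
    (h2 : 2 * (s + a + 2 * b) + 1 ≤ Y + 2 * m) :
    ∃ z : ℤ, (Nat.lcmUpto Y : ℝ) * 5 ^ (2 * (m - (a + b) - s)) * 2 ^ ((5 * m + 1) / 2) * q *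
      Lam ((p : ℝ) / q) m (X ^ s * Wp a b) = 2 ^ (5 * (2 * b + s) / 2) * (z : ℝ) := by
  sorry

theorem det_lower (a b m K : ℕ) (p q : ℤ) (hq : 0 < q) (Y : ℕ → ℕ)
    (h1 : ∀ i < K, m ≤ i + Y i) (h2 : ∀ i < K, 2 * (i + K + a + 2 * b) ≤ Y i + 2 * m + 1)
    (hne : (HM ((p : ℝ) / q) a b m K).det ≠ 0) :
    (2 : ℝ) ^ (5 * b * K + 2 * ∑ i ∈ Finset.range K, 5 * i / 2) ≤
      |(HM ((p : ℝ) / q) a b m K).det| * (q : ℝ) ^ K *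
        (∏ i ∈ Finset.range K, (Nat.lcmUpto (Y i) : ℝ)) *
        5 ^ (2 * ∑ i ∈ Finset.range K, (m - (a + b) - 2 * i)) * 2 ^ (K * ((5 * m + 1) / 2)) := by
  sorry

theorem arith_lower (K0 a0 b0 m0 t0 E0 M0 : ℕ) (h1 : K0 + a0 + 2 * b0 = m0 + E0)
    (h2 : m0 = 3 * t0 + 2 * E0) (ht : t0 ≤ K0) (h3 : m0 = a0 + b0 + M0) (hM : M0 ≤ 2 * K0)
    {ε : ℝ} (hε : 0 < ε) :
    ∀ᶠ n : ℕ in atTop, ∀ κ ≤ 2, ∀ p q : ℤ, 0 < q →
      (HM ((p : ℝ) / q) (a0 * n) (b0 * n) (m0 * n) (K0 * n + κ)).det ≠ 0 →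
      Real.exp (-(cst K0 a0 b0 m0 t0 E0 M0 + ε) * (n : ℝ) ^ 2) ≤
        (q : ℝ) ^ (K0 * n + κ) *
          |(HM ((p : ℝ) / q) (a0 * n) (b0 * n) (m0 * n) (K0 * n + κ)).det| := by
  sorry

/-! ### AI: integral representations -/

theorem lam_pi_path (l : List ℂ) (x0 : ℝ) (hh : l.head? = some (x0 : ℂ))
    (hl : l.getLast? = some (-1 + 2 * Complex.I)) (hs : ∀ v ∈ l, |v.re| < 5) (k : ℤ) :
    lam Real.pi k = 2 * (pathI (fun s => (tau s) ^ k) l).im := by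
  sorry

theorem abs_Lam_pi_le (l : List ℂ) (x0 : ℝ) (hh : l.head? = some (x0 : ℂ))
    (hl : l.getLast? = some (-1 + 2 * Complex.I)) (hs : ∀ v ∈ l, |v.re| < 5)
    (S : Set ℂ) (hS : PathIn S l) :
    ∃ C : ℝ, 0 < C ∧ ∀ (m : ℕ) (F : ℝ[X]) (M : ℝ),
      (∀ s ∈ S, ‖ev F s‖ ≤ M * ‖tau s‖ ^ m) → |Lam Real.pi m F| ≤ C * M := by
  sorry

theorem aco_circle (c r : ℝ) (h1 : |5 - c| < r) (h2 : r < 5 + c) (k : ℤ) :
    (∮ s in C((c : ℂ), r), (tau s) ^ k) = -(2 * Real.pi * Complex.I) * (aco k : ℂ) := by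
  sorry

theorem abs_Bet_le (c r : ℝ) (h1 : |5 - c| < r) (h2 : r < 5 + c) :
    ∃ C : ℝ, 0 < C ∧ ∀ (m : ℕ) (F : ℝ[X]) (M : ℝ),
      (∀ s ∈ Metric.sphere (c : ℂ) r, ‖ev F s‖ ≤ M * ‖tau s‖ ^ m) → |Bet m F| ≤ C * M := by
  sorry

/-! ### AD: determinants -/

theorem det_HM_monic (x : ℝ) (a b m K : ℕ) (P : ℕ → ℝ[X]) (hP : ∀ i < K, (P i).Monic)
    (hd : ∀ i < K, (P i).natDegree = i) :
    (HM x a b m K).det =
      (Matrix.of fun i j : Fin K => Lam x m (P i * P j * Wp a b)).det := by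
  sorry

theorem abs_det_le_of_entries {K : ℕ} (A : Matrix (Fin K) (Fin K) ℝ) (u : ℕ → ℝ)
    (hu : ∀ i < K, 0 ≤ u i) (h : ∀ i j, |A i j| ≤ u i * u j) :
    |A.det| ≤ (K.factorial : ℝ) * ∏ i ∈ Finset.range K, u i ^ 2 := by
  sorry

/-! ### AU: Archimedean upper bound -/

theorem arch_upper {K0 a0 b0 m0 N : ℕ} {w : ℝ} {S T : Set ℂ}
    (C : Cert K0 a0 b0 m0 N w S T) (hw : 0 ≤ w) (hT : BetBound T)
    (hTb : Bornology.IsBounded T)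
    (l : List ℂ) (x0 : ℝ) (hh : l.head? = some (x0 : ℂ))
    (hl : l.getLast? = some (-1 + 2 * Complex.I)) (hs : ∀ v ∈ l, |v.re| < 5)
    (hS : PathIn S l) (hSb : Bornology.IsBounded S) {ε : ℝ} (hε : 0 < ε) :
    ∀ᶠ n : ℕ in atTop, ∀ κ ≤ 2, ∀ x : ℝ, |x - Real.pi| ≤ Real.exp (-w * n) →
      |(HM x (a0 * n) (b0 * n) (m0 * n) (K0 * n + κ)).det| ≤
        Real.exp ((C.total + ε) * (n : ℝ) ^ 2) := by
  sorry

end Vale.Agent.P021.Det
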