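import Vale.Agent.P021.Form
import Vale.Agent.P021.Val

/-!
# Valuations at `2` and `5` (and trivially at all other primes) of the entries and determinants

`wp a b = (τ+25)^a (τ²+56τ+800)^b`.  The sequence `c` is `q * aco' + p * bco`, i.e. the values of the
rational functional at `τ ^ k`, `k ∈ ℤ`.
-/

open Polynomial

namespace Vale.Agent.P021.Det

/-- the polynomial part of the weight -/
noncomputable def wp (a b : ℕ) : ℤ[X] := (X + C 25) ^ a * (X ^ 2 + C 56 * X + C 800) ^ b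

/-- the entry with exponent `n`: value of the functional `c` at `τ ^ n * wp a b` -/
noncomputable def ent (a b : ℕ) (c : ℤ → ℚ) (n : ℤ) : ℚ :=
  ∑ j ∈ Finset.range (a + 2 * b + 1), ((wp a b).coeff j : ℚ) * c (n + j)

/-- the bounds satisfied by `D * c k` for `lo ≤ k ≤ hi` -/
def Good (D : ℕ) (lo hi : ℤ) (c : ℤ → ℚ) : Prop :=
  ∀ k : ℤ, lo ≤ k → k ≤ hi →
    (∀ p : ℕ, p.Prime → p ≠ 2 → p ≠ 5 → padicNorm p (D * c k) ≤ 1) ∧
    (padicNorm 2 (D * c k)) ^ 2 ≤ (32 : ℚ) ^ (-k) ∧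
    padicNorm 5 (D * c k) ≤ max 1 ((25 : ℚ) ^ (-k))

theorem v25_norm_two_pow (k : ℕ) : padicNorm 2 ((2 : ℚ) ^ k) = (1 / 2) ^ k := by
  rw [val_norm_pow, val_two_two]

/-- positive exponents -/
theorem v25_pos {D : ℕ} {x : ℚ} (k : ℕ) (h : ∃ z : ℤ, (D : ℚ) * x = z ∧ (32 : ℤ) ^ k ∣ z ^ 2) :
    (∀ p : ℕ, p.Prime → p ≠ 2 → p ≠ 5 → padicNorm p (D * x) ≤ 1) ∧
    (padicNorm 2 (D * x)) ^ 2 ≤ (32 : ℚ) ^ (-(k : ℤ)) ∧
    padicNorm 5 (D * x) ≤ max 1 ((25 : ℚ) ^ (-(k : ℤ))) := by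
  obtain ⟨z, hz, w, hw⟩ := h
  rw [hz]
  refine ⟨fun p hp _ _ => ?_, ?_, ?_⟩
  · have : Fact p.Prime := ⟨hp⟩
    exact padicNorm.of_int _
  · have : Fact (Nat.Prime 2) := ⟨Nat.prime_two⟩
    rw [← val_norm_pow]
    have h1 : ((z : ℚ)) ^ 2 = 32 ^ k * (w : ℚ) := by exact_mod_cast hw
    rw [h1, padicNorm.mul, val_norm_pow, show (32 : ℚ) = 2 ^ 5 by norm_num, val_norm_pow,
      val_two_two]
    have h3 : padicNorm 2 (w : ℚ) ≤ 1 := padicNorm.of_int _
    calc (((1 : ℚ) / 2) ^ 5) ^ k * padicNorm 2 (w : ℚ) ≤ (((1 : ℚ) / 2) ^ 5) ^ k * 1 :=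
          mul_le_mul_of_nonneg_left h3 (by positivity)
      _ = (2 ^ 5) ^ (-(k : ℤ)) := by
          rw [zpow_neg, zpow_natCast, mul_one, ← inv_pow]
          norm_num
  · have : Fact (Nat.Prime 5) := ⟨Nat.prime_five⟩
    exact le_max_of_le_left (padicNorm.of_int _)

/-- negative exponents -/
theorem v25_neg {x : ℚ} (m : ℕ)
    (h : ∃ z : ℤ, (10 : ℚ) ^ (2 * m) * 2 ^ (m / 2) * x = z) :
    (∀ p : ℕ, p.Prime → p ≠ 2 → p ≠ 5 → padicNorm p x ≤ 1) ∧
    (padicNorm 2 x) ^ 2 ≤ (32 : ℚ) ^ (m : ℤ) ∧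
    padicNorm 5 x ≤ max 1 ((25 : ℚ) ^ (m : ℤ)) := by
  obtain ⟨z, hz⟩ := h
  refine ⟨fun p hp hp2 hp5 => ?_, ?_, ?_⟩
  · have : Fact p.Prime := ⟨hp⟩
    have hn2 : padicNorm p (2 : ℚ) = 1 := by
      exact_mod_cast val_norm_nat_eq_one (p := p) (m := 2)
        (fun h => hp2 ((Nat.prime_dvd_prime_iff_eq hp Nat.prime_two).1 h))
    have hn5 : padicNorm p (5 : ℚ) = 1 := by
      exact_mod_cast val_norm_nat_eq_one (p := p) (m := 5)
        (fun h => hp5 ((Nat.prime_dvd_prime_iff_eq hp Nat.prime_five).1 h))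
    have hn10 : padicNorm p (10 : ℚ) = 1 := by
      rw [show (10 : ℚ) = 2 * 5 by norm_num, padicNorm.mul, hn2, hn5, one_mul]
    have h3 : padicNorm p ((10 : ℚ) ^ (2 * m) * 2 ^ (m / 2) * x) = padicNorm p x := by
      rw [padicNorm.mul, padicNorm.mul, val_norm_pow, val_norm_pow, hn10, hn2, one_pow,
        one_pow, one_mul, one_mul]
    rw [← h3, hz]
    exact padicNorm.of_int _
  · have : Fact (Nat.Prime 2) := ⟨Nat.prime_two⟩
    have hnz : padicNorm 2 (z : ℚ) ≤ 1 := padicNorm.of_int _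
    rw [← hz, padicNorm.mul, padicNorm.mul, val_norm_pow, val_norm_pow, val_ten_two,
      val_two_two] at hnz
    have hx0 : 0 ≤ padicNorm 2 x := padicNorm.nonneg _
    have hx1 : padicNorm 2 x ≤ 2 ^ (2 * m + m / 2) := by
      rw [← pow_add, one_div, inv_pow] at hnz
      have h4 : (0 : ℚ) < 2 ^ (2 * m + m / 2) := by positivity
      rwa [inv_mul_le_iff₀ h4, mul_one] at hnz
    calc (padicNorm 2 x) ^ 2 ≤ (2 ^ (2 * m + m / 2)) ^ 2 := pow_le_pow_left₀ hx0 hx1 2
      _ = 2 ^ ((2 * m + m / 2) * 2) := by rw [← pow_mul]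
      _ ≤ 2 ^ (5 * m) := pow_le_pow_right₀ (by norm_num) (by omega)
      _ = 32 ^ (m : ℤ) := by rw [pow_mul, zpow_natCast]; norm_num
  · have : Fact (Nat.Prime 5) := ⟨Nat.prime_five⟩
    have hnz : padicNorm 5 (z : ℚ) ≤ 1 := padicNorm.of_int _
    rw [← hz, padicNorm.mul, padicNorm.mul, val_norm_pow, val_norm_pow, val_ten_five,
      val_five_two, one_pow, mul_one, pow_mul] at hnz
    have h4 : (0 : ℚ) < 25 ^ m := by positivity
    have h5 : (((1 : ℚ) / 5) ^ 2) ^ m = (25 ^ m)⁻¹ := by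
      rw [← inv_pow]; norm_num
    rw [h5, inv_mul_le_iff₀ h4, mul_one] at hnz
    refine le_max_of_le_right ?_
    rw [zpow_natCast]
    exact hnz

theorem good_bco {D L : ℕ} {lo hi : ℤ} (hD : ∀ j, 1 ≤ j → j ≤ L → j ∣ D)
    (hlo : -lo ≤ L) (hhi : 2 * hi + 1 ≤ L) : Good D lo hi bco := by
  intro k hk1 hk2
  rcases le_or_gt 0 k with hk | hk
  · obtain ⟨n, rfl⟩ := Int.eq_ofNat_of_zero_le hk
    exact v25_pos n (bco_nonneg n D (fun j hj1 hj2 => hD j hj1 (by omega)))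
  · obtain ⟨m, rfl⟩ : ∃ m : ℕ, k = -(m : ℤ) := ⟨k.natAbs, by omega⟩
    have h := v25_neg (x := (D : ℚ) * bco (-(m : ℤ))) m (by
      obtain ⟨z, hz⟩ := bco_neg m D (by omega) (fun j hj1 hj2 => hD j hj1 (by omega))
      exact ⟨z, by rw [← hz]; ring⟩)
    simpa only [neg_neg] using h

theorem good_aco {D : ℕ} {lo hi : ℤ} : Good D lo hi aco := by
  intro k _ _
  rcases le_or_gt 0 k with hk | hk
  · obtain ⟨n, rfl⟩ := Int.eq_ofNat_of_zero_le hk
    refine v25_pos n ⟨0, ?_, by simp⟩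
    rw [aco, if_pos (by omega)]
    simp
  · obtain ⟨m, rfl⟩ : ∃ m : ℕ, k = -((m + 1 : ℕ) : ℤ) := ⟨k.natAbs - 1, by omega⟩
    have h := v25_neg (x := (D : ℚ) * aco (-((m + 1 : ℕ) : ℤ))) (m + 1) (by
      refine ⟨D * ((-1) ^ (m + 1) * ((2 * m).choose m : ℤ) * 10 * 2 ^ ((m + 1) / 2)), ?_⟩
      rw [aco, if_neg (by omega)]
      have h6 : (-((m + 1 : ℕ) : ℤ)).natAbs = m + 1 := by omega
      rw [h6, show 2 * (m + 1) - 2 = 2 * m by omega, show m + 1 - 1 = m by omega,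
        show 2 * (m + 1) - 1 = 2 * m + 1 by omega, show 2 * (m + 1) = (2 * m + 1) + 1 by omega,
        pow_succ (10 : ℚ) (2 * m + 1)]
      push_cast
      have h10 : (10 : ℚ) ^ (2 * m + 1) ≠ 0 := by positivity
      field_simp)
    simpa only [neg_neg] using h

/-- `Good` sequences are closed under integral combinations -/
theorem Good.comb {D : ℕ} {lo hi : ℤ} {c c' : ℤ → ℚ} (h : Good D lo hi c) (h' : Good D lo hi c')
    (u v : ℤ) : Good D lo hi (fun k => u * c k + v * c' k) := by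
  intro k hk1 hk2
  obtain ⟨h1, h2, h3⟩ := h k hk1 hk2
  obtain ⟨h1', h2', h3'⟩ := h' k hk1 hk2
  have key : ∀ (p e : ℕ) (_ : p.Prime) (he : e ≠ 0) (B : ℚ), 0 ≤ B →
      (padicNorm p (D * c k)) ^ e ≤ B → (padicNorm p (D * c' k)) ^ e ≤ B →
      (padicNorm p (D * (u * c k + v * c' k))) ^ e ≤ B := by
    intro p e hp he B _ hB hB'
    have : Fact p.Prime := ⟨hp⟩
    have e1 : (D : ℚ) * (u * c k + v * c' k) = u * (D * c k) + v * (D * c' k) := by ring
    rw [e1]
    have hA : ∀ (w : ℤ) (x : ℚ), (padicNorm p x) ^ e ≤ B → (padicNorm p (w * x)) ^ e ≤ B := by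
      intro w x hx
      rw [padicNorm.mul, mul_pow]
      calc padicNorm p (w : ℚ) ^ e * padicNorm p x ^ e ≤ 1 * padicNorm p x ^ e :=
            mul_le_mul_of_nonneg_right (pow_le_one₀ (padicNorm.nonneg _) (padicNorm.of_int _))
              (pow_nonneg (padicNorm.nonneg _) _)
        _ ≤ B := by rw [one_mul]; exact hx
    have hna := padicNorm.nonarchimedean (p := p) (q := (u : ℚ) * (D * c k))
      (r := (v : ℚ) * (D * c' k))
    rcases le_total (padicNorm p ((u : ℚ) * (D * c k))) (padicNorm p ((v : ℚ) * (D * c' k)))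
      with hle | hle
    · rw [max_eq_right hle] at hna
      exact (pow_le_pow_left₀ (padicNorm.nonneg _) hna e).trans (hA v _ hB')
    · rw [max_eq_left hle] at hna
      exact (pow_le_pow_left₀ (padicNorm.nonneg _) hna e).trans (hA u _ hB)
  refine ⟨fun p hp hp2 hp5 => ?_, ?_, ?_⟩
  · have := key p 1 hp one_ne_zero 1 zero_le_one (by rw [pow_one]; exact h1 p hp hp2 hp5)
      (by rw [pow_one]; exact h1' p hp hp2 hp5)
    rwa [pow_one] at this
  · exact key 2 2 Nat.prime_two two_ne_zero ((32 : ℚ) ^ (-k)) (by positivity) h2 h2'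
  · have := key 5 1 Nat.prime_five one_ne_zero (max 1 ((25 : ℚ) ^ (-k))) (by positivity)
      (by rw [pow_one]; exact h3) (by rw [pow_one]; exact h3')
    rwa [pow_one] at this

theorem wp_two (a b j : ℕ) :
    (padicNorm 2 ((wp a b).coeff j : ℚ)) ^ 2 ≤ (32 : ℚ) ^ (-(2 * b : ℤ) + j) := by
  have : Fact (Nat.Prime 2) := ⟨Nat.prime_two⟩
  have h1 := valB_pow (two_ne_zero) zero_le_one (by norm_num) valB_two_lin a
  have h2 := valB_pow (two_ne_zero) (by norm_num) (by norm_num) valB_two_quad b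
  have h3 := valB_mul (two_ne_zero) (by positivity) (by positivity) (by norm_num) h1 h2 j
  unfold wp
  refine h3.trans (le_of_eq ?_)
  rw [one_pow, one_mul, zpow_add₀ (by norm_num), zpow_natCast, zpow_neg, ← pow_mul,
    show (2 * b : ℤ) = ((2 * b : ℕ) : ℤ) by push_cast; ring, zpow_natCast, one_div, inv_pow]

theorem wp_five (a b j : ℕ) :
    padicNorm 5 ((wp a b).coeff j : ℚ) ≤ (25 : ℚ) ^ (-((a : ℤ) + b) + j) := by
  have : Fact (Nat.Prime 5) := ⟨Nat.prime_five⟩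
  have h1 := valB_pow (one_ne_zero) (by norm_num) (by norm_num) valB_five_lin a
  have h2 := valB_pow (one_ne_zero) (by norm_num) (by norm_num) valB_five_quad b
  have h3 := valB_mul (one_ne_zero) (by positivity) (by positivity) (by norm_num) h1 h2 j
  rw [pow_one] at h3
  unfold wp
  refine h3.trans (le_of_eq ?_)
  rw [← pow_add, zpow_add₀ (by norm_num), zpow_natCast, zpow_neg,
    show ((a : ℤ) + b) = ((a + b : ℕ) : ℤ) by push_cast; ring, zpow_natCast, one_div, inv_pow]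

/-- the bounds for one entry -/
theorem Good.ent {D : ℕ} {lo hi : ℤ} {c : ℤ → ℚ} (h : Good D lo hi c) (a b : ℕ) (n : ℤ)
    (hn : lo ≤ n) (hn' : n + a + 2 * b ≤ hi) :
    (∀ p : ℕ, p.Prime → p ≠ 2 → p ≠ 5 → padicNorm p (D * ent a b c n) ≤ 1) ∧
    (padicNorm 2 (D * ent a b c n)) ^ 2 ≤ (32 : ℚ) ^ (-(2 * b : ℤ) - n) ∧
    padicNorm 5 (D * ent a b c n) ≤ max 1 ((25 : ℚ) ^ (-(n + a + b))) := by
  have hS : (D : ℚ) * Det.ent a b c n = ∑ j ∈ Finset.range (a + 2 * b + 1),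
      ((wp a b).coeff j : ℚ) * (D * c (n + j)) := by
    rw [Det.ent, Finset.mul_sum]
    apply Finset.sum_congr rfl
    intro j _
    ring
  have hk : ∀ j ∈ Finset.range (a + 2 * b + 1),
      (∀ p : ℕ, p.Prime → p ≠ 2 → p ≠ 5 → padicNorm p (D * c (n + j)) ≤ 1) ∧
      (padicNorm 2 (D * c (n + j))) ^ 2 ≤ (32 : ℚ) ^ (-(n + j)) ∧
      padicNorm 5 (D * c (n + j)) ≤ max 1 ((25 : ℚ) ^ (-(n + j))) := by
    intro j hj
    rw [Finset.mem_range] at hj
    exact h (n + j) (by omega) (by omega)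
  rw [hS]
  refine ⟨fun p hp hp2 hp5 => ?_, ?_, ?_⟩
  · have : Fact p.Prime := ⟨hp⟩
    have h := val_sum_le p 1 (Finset.range (a + 2 * b + 1))
      (fun j => ((wp a b).coeff j : ℚ) * (D * c (n + j))) zero_le_one one_ne_zero ?_
    · simpa using h
    · intro j hj
      rw [pow_one, padicNorm.mul]
      exact mul_le_one₀ (padicNorm.of_int _) (padicNorm.nonneg _) ((hk j hj).1 p hp hp2 hp5)
  · have : Fact (Nat.Prime 2) := ⟨Nat.prime_two⟩
    apply val_sum_le 2 2 _ _ (by positivity) two_ne_zero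
    intro j hj
    rw [padicNorm.mul, mul_pow]
    calc padicNorm 2 ((wp a b).coeff j : ℚ) ^ 2 * padicNorm 2 (D * c (n + j)) ^ 2
        ≤ (32 : ℚ) ^ (-(2 * b : ℤ) + j) * (32 : ℚ) ^ (-(n + j)) :=
          mul_le_mul (wp_two a b j) (hk j hj).2.1 (by positivity) (by positivity)
      _ = (32 : ℚ) ^ (-(2 * b : ℤ) - n) := by
          rw [← zpow_add₀ (by norm_num)]
          congr 1
          ring
  · have : Fact (Nat.Prime 5) := ⟨Nat.prime_five⟩
    have h := val_sum_le 5 1 (Finset.range (a + 2 * b + 1))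
      (fun j => ((wp a b).coeff j : ℚ) * (D * c (n + j)))
      (b := max 1 ((25 : ℚ) ^ (-(n + a + b)))) (by positivity) one_ne_zero ?_
    · simpa using h
    · intro j hj
      rw [pow_one, padicNorm.mul]
      have h5 := (hk j hj).2.2
      rcases le_max_iff.1 h5 with h6 | h6
      · exact le_max_of_le_left
          (mul_le_one₀ (padicNorm.of_int _) (padicNorm.nonneg _) h6)
      · refine le_max_of_le_right ?_
        calc padicNorm 5 ((wp a b).coeff j : ℚ) * padicNorm 5 (D * c (n + j))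
            ≤ (25 : ℚ) ^ (-((a : ℤ) + b) + j) * (25 : ℚ) ^ (-(n + j)) :=
              mul_le_mul (wp_five a b j) h6 (padicNorm.nonneg _) (by positivity)
          _ = (25 : ℚ) ^ (-(n + a + b)) := by
              rw [← zpow_add₀ (by norm_num)]
              congr 1
              ring

/-- ultrametric Leibniz bound for determinants -/
theorem norm_det_le (p e : ℕ) [Fact p.Prime] (he : e ≠ 0) {K : ℕ}
    (M : Matrix (Fin K) (Fin K) ℚ) (r s : Fin K → ℚ) (hr : ∀ i, 0 ≤ r i) (hs : ∀ i, 0 ≤ s i)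
    (h : ∀ i j, (padicNorm p (M i j)) ^ e ≤ r i * s j) :
    (padicNorm p M.det) ^ e ≤ (∏ i, r i) * ∏ i, s i := by
  have hprod : ∀ (f : Fin K → ℚ), padicNorm p (∏ i, f i) = ∏ i, padicNorm p (f i) := by
    intro f
    induction (Finset.univ : Finset (Fin K)) using Finset.induction_on with
    | empty => simp
    | insert a s ha ih => rw [Finset.prod_insert ha, Finset.prod_insert ha, padicNorm.mul, ih]
  rw [Matrix.det_apply]
  apply val_sum_le p e _ _ (mul_nonneg (Finset.prod_nonneg fun i _ => hr i)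
    (Finset.prod_nonneg fun i _ => hs i)) he
  intro σ _
  have h1 : padicNorm p (Equiv.Perm.sign σ • ∏ i, M (σ i) i) = ∏ i, padicNorm p (M (σ i) i) := by
    rcases Int.units_eq_one_or (Equiv.Perm.sign σ) with h2 | h2
    · rw [h2, one_smul, hprod]
    · rw [h2, Units.neg_smul, one_smul, padicNorm.neg, hprod]
  rw [h1, ← Finset.prod_pow]
  calc ∏ i, padicNorm p (M (σ i) i) ^ e ≤ ∏ i, (r (σ i) * s i) :=
        Finset.prod_le_prod (fun i _ => pow_nonneg (padicNorm.nonneg _) _) (fun i _ => h _ _)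
    _ = (∏ i, r i) * ∏ i, s i := by
        rw [Finset.prod_mul_distrib, Equiv.prod_comp σ r]

/-- the matrix of the entries, multiplied by `D` -/
noncomputable def mat (K a b m D : ℕ) (c : ℤ → ℚ) : Matrix (Fin K) (Fin K) ℚ :=
  fun i j => D * ent a b c ((i : ℤ) + j - m)

theorem v25_sum_fin (K : ℕ) : ∑ i : Fin K, ((i : ℕ) : ℤ) = (K * (K - 1) / 2 : ℕ) := by
  rw [Fin.sum_univ_eq_sum_range (fun i => ((i : ℕ) : ℤ)) K, ← Nat.cast_sum, Finset.sum_range_id]

/-- **the prime 2** -/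
theorem two_det {K a b m D : ℕ} {lo hi : ℤ} {c : ℤ → ℚ} (h : Good D lo hi c)
    (hlo : lo ≤ -(m : ℤ)) (hhi : 2 * K + a + 2 * b ≤ hi + m + 2) :
    (padicNorm 2 (mat K a b m D c).det) ^ 2 ≤
      (32 : ℚ) ^ ((K : ℤ) * (m - 2 * b) - K * (K - 1)) := by
  have : Fact (Nat.Prime 2) := ⟨Nat.prime_two⟩
  refine (norm_det_le 2 2 two_ne_zero _ (fun i => (32 : ℚ) ^ ((m : ℤ) - 2 * b - (i : ℕ)))
    (fun j => (32 : ℚ) ^ (-((j : ℕ) : ℤ))) (fun i => by positivity) (fun i => by positivity)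
    ?_).trans (le_of_eq ?_)
  · intro i j
    have hi' := i.2
    have hj' := j.2
    have h1 := (h.ent a b ((i : ℤ) + j - m) (by omega) (by omega)).2.1
    rw [← zpow_add₀ (by norm_num)]
    refine h1.trans (le_of_eq ?_)
    congr 1
    ring
  · have hp : ∀ f : Fin K → ℤ, ∏ i, (32 : ℚ) ^ (f i) = (32 : ℚ) ^ (∑ i, f i) := by
      intro f
      induction (Finset.univ : Finset (Fin K)) using Finset.induction_on with
      | empty => simp
      | insert a s ha ih =>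
        rw [Finset.prod_insert ha, Finset.sum_insert ha, ih, zpow_add₀ (by norm_num)]
    rw [hp, hp, ← zpow_add₀ (by norm_num)]
    congr 1
    rw [Finset.sum_sub_distrib, Finset.sum_neg_distrib, Finset.sum_const, Finset.card_univ,
      Fintype.card_fin, v25_sum_fin]
    have h2 : 2 * (K * (K - 1) / 2) = K * (K - 1) :=
      Nat.mul_div_cancel' (Nat.even_mul_pred_self K).two_dvd
    have h3 : (2 : ℤ) * ((K * (K - 1) / 2 : ℕ) : ℤ) = K * (K - 1) := by
      generalize K * (K - 1) / 2 = t at h2 ⊢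
      rcases Nat.eq_zero_or_pos K with hK | hK
      · subst hK
        simp only [zero_mul, mul_eq_zero, OfNat.ofNat_ne_zero, false_or] at h2
        simp [h2]
      · have h4 : (((K * (K - 1) : ℕ)) : ℤ) = K * (K - 1) := by
          push_cast [Nat.cast_sub hK]
          ring
        rw [← h4, ← h2]
        push_cast
        ring
    rw [nsmul_eq_mul]
    linarith

/-- **the prime 5** -/
theorem five_det {K a b m D : ℕ} {lo hi : ℤ} {c : ℤ → ℚ} (h : Good D lo hi c)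
    (hlo : lo ≤ -(m : ℤ)) (hhi : 2 * K + a + 2 * b ≤ hi + m + 2) :
    padicNorm 5 (mat K a b m D c).det ≤
      (5 : ℚ) ^ (2 * ∑ i ∈ Finset.range K, (m - (a + b + 2 * i))) := by
  have : Fact (Nat.Prime 5) := ⟨Nat.prime_five⟩
  have h0 := norm_det_le 5 1 one_ne_zero (mat K a b m D c)
    (fun i => (5 : ℚ) ^ (m - (a + b + 2 * (i : ℕ))))
    (fun j => (5 : ℚ) ^ (m - (a + b + 2 * (j : ℕ)))) (fun i => by positivity)
    (fun i => by positivity) ?_
  · rw [pow_one] at h0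
    refine h0.trans (le_of_eq ?_)
    rw [Fin.prod_univ_eq_prod_range (fun i => (5 : ℚ) ^ (m - (a + b + 2 * i))) K,
      Finset.prod_pow_eq_pow_sum, ← pow_add, two_mul]
  · intro i j
    have hi' := i.2
    have hj' := j.2
    have h1 := (h.ent a b ((i : ℤ) + j - m) (by omega) (by omega)).2.2
    rw [pow_one, ← pow_add]
    refine h1.trans (max_le (one_le_pow₀ (by norm_num)) ?_)
    rw [show (25 : ℚ) = 5 ^ (2 : ℤ) by norm_num, ← zpow_mul, ← zpow_natCast]
    apply zpow_le_zpow_right₀ (by norm_num)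
    omega

/-- **the other primes** -/
theorem other_det {K a b m D : ℕ} {lo hi : ℤ} {c : ℤ → ℚ} (h : Good D lo hi c)
    (hlo : lo ≤ -(m : ℤ)) (hhi : 2 * K + a + 2 * b ≤ hi + m + 2) (p : ℕ) (hp : p.Prime)
    (hp2 : p ≠ 2) (hp5 : p ≠ 5) :
    padicNorm p (mat K a b m D c).det ≤ 1 := by
  have : Fact p.Prime := ⟨hp⟩
  have h0 := norm_det_le p 1 one_ne_zero (mat K a b m D c) (fun _ => 1) (fun _ => 1)
    (fun i => zero_le_one) (fun i => zero_le_one) ?_
  · rw [pow_one] at h0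
    simpa using h0
  · intro i j
    have hi' := i.2
    have hj' := j.2
    have h1 := (h.ent a b ((i : ℤ) + j - m) (by omega) (by omega)).1 p hp hp2 hp5
    rw [pow_one, mul_one]
    exact h1

end Vale.Agent.P021.Det
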