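import Vale.Agent.P021.Det.Val25
import Vale.Agent.P021.Det.Defs

/-!
# Interface between the local bounds (`Window.lean`) and the product formula (`ArithWin.lean`)
-/

namespace Vale.Agent.P021.Det

/-- the rational determinant, `= (2 q)^K det HM (p/q)` -/
noncomputable def NN (a b m K : ℕ) (p q : ℤ) : ℚ :=
  (mat K a b m 1 (fun k => (p : ℚ) * aco k + ((2 * q : ℤ) : ℚ) * bco k)).det

/-- range: no prime larger than this occurs in a denominator -/
def rng (a b m K : ℕ) : ℕ := 2 * (m + 2 * K + a + 2 * b) + 5

/-- number of bad rows in the monomial basis (real form) -/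
noncomputable def plainR (a b m K l : ℝ) : ℝ :=
  max (m - l) 0 + max (2 * a + 4 * b - 2 * m + 4 * K - l) 0 / 2

/-- number of bad rows in the window basis (real form) -/
noncomputable def winR (a b m K l : ℝ) : ℝ :=
  2 * max (l - b) 0 + max (l - 2 * a) 0 / 2 + max (m - 2 * l) 0 +
    max (2 * a + 4 * b - 2 * m + 4 * K - 3 * l) 0 / 2

/-- the bound for the rank -/
noncomputable def badR (a b m K l : ℝ) : ℝ := min K (min (plainR a b m K l) (winR a b m K l))

end Vale.Agent.P021.Det
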