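import Vale.Agent.P021.Det.WinDefs

namespace Vale.Agent.P021.Det

/-- all primes with `l^2 > rng` (helper65) -/
theorem local_odd (a b m K : ℕ) (p q : ℤ) (l : ℕ) (hl : l.Prime) (h7 : 7 ≤ l)
    (hr : rng a b m K < l ^ 2) :
    ∃ e : ℕ, padicNorm l (NN a b m K p q) ≤ (l : ℚ) ^ e ∧ (e : ℝ) ≤ badR a b m K l + 8 := by
  sorry

/-- primes larger than `rng` (helper65) -/
theorem local_big (a b m K : ℕ) (p q : ℤ) (l : ℕ) (hl : l.Prime) (h7 : 7 ≤ l)
    (hr : rng a b m K < l) : padicNorm l (NN a b m K p q) ≤ 1 := by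
  sorry

/-- crude bound (helper65) -/
theorem local_crude (a b m K : ℕ) (p q : ℤ) (l : ℕ) (hl : l.Prime) (h2 : l ≠ 2) (h5 : l ≠ 5) :
    padicNorm l (NN a b m K p q) ≤ (rng a b m K : ℚ) ^ K := by
  sorry

/-- the prime 2 (helper65) -/
theorem local_two (a b m K : ℕ) (p q : ℤ) :
    (padicNorm 2 (NN a b m K p q)) ^ 2 ≤
      (rng a b m K : ℚ) ^ (2 * K) * (32 : ℚ) ^ ((K : ℤ) * (m - 2 * b) - K * (K - 1)) := by
  sorry

/-- the prime 5 (helper65) -/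
theorem local_five (a b m K : ℕ) (p q : ℤ) :
    padicNorm 5 (NN a b m K p q) ≤
      (rng a b m K : ℚ) ^ K * (5 : ℚ) ^ (2 * ∑ i ∈ Finset.range K, (m - (a + b + 2 * i))) := by
  sorry

end Vale.Agent.P021.Det
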