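import Vale.Agent.P021.Det.Local
import Vale.Agent.P021.Det.Nonvan

/-!
# The window saving
-/

open Polynomial

namespace Vale.Agent.P021.Det

/-- `F ↦ ∑ F_k c (k - m)` on integer polynomials -/
noncomputable def LZ (c : ℤ → ℚ) (m : ℕ) : ℤ[X] →ₗ[ℤ] ℚ :=
  Polynomial.lsum fun k => LinearMap.toSpanSingleton ℤ ℚ (c ((k : ℤ) - m))

theorem LZ_eq_sum (c : ℤ → ℚ) (m : ℕ) (F : ℤ[X]) {N : ℕ} (hN : F.natDegree < N) :
    LZ c m F = ∑ j ∈ Finset.range N, (F.coeff j : ℚ) * c ((j : ℤ) - m) := by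
  unfold LZ
  rw [Polynomial.lsum_apply, Polynomial.sum_over_range' _ _ N hN]
  · apply Finset.sum_congr rfl
    intro j _
    simp
  · intro j
    simp

theorem LZ_X_pow (c : ℤ → ℚ) (m k : ℕ) : LZ c m (X ^ k) = c ((k : ℤ) - m) := by
  unfold LZ
  rw [Polynomial.lsum_apply, ← Polynomial.monomial_one_right_eq_X_pow,
    Polynomial.sum_monomial_index]
  · simp
  · simp

theorem LZ_monomial (c : ℤ → ℚ) (m k : ℕ) (w : ℤ) :
    LZ c m (monomial k w) = w * c ((k : ℤ) - m) := by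
  unfold LZ
  rw [Polynomial.lsum_apply, Polynomial.sum_monomial_index]
  · simp
  · simp

/-- shift -/
theorem LZ_shift (c : ℤ → ℚ) (m e : ℕ) (F : ℤ[X]) : LZ c (m + e) (X ^ e * F) = LZ c m F := by
  induction F using Polynomial.induction_on' with
  | add p q hp hq => rw [mul_add, map_add, map_add, hp, hq]
  | monomial k w =>
    rw [X_pow_mul_monomial, LZ_monomial, LZ_monomial]
    congr 2
    push_cast
    ring

/-- linear combinations of sequences -/
theorem LZ_comb (c c' : ℤ → ℚ) (u v : ℚ) (m : ℕ) (F : ℤ[X]) :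
    LZ (fun k => u * c k + v * c' k) m F = u * LZ c m F + v * LZ c' m F := by
  rw [LZ_eq_sum _ m F (Nat.lt_succ_self _), LZ_eq_sum _ m F (Nat.lt_succ_self _),
    LZ_eq_sum _ m F (Nat.lt_succ_self _), Finset.mul_sum, Finset.mul_sum,
    ← Finset.sum_add_distrib]
  apply Finset.sum_congr rfl
  intro j _
  ring

/-- norm bound -/
theorem LZ_norm_le (l : ℕ) [Fact l.Prime] (c : ℤ → ℚ) (m : ℕ) (F : ℤ[X]) (B : ℚ) (hB : 0 ≤ B)
    (lo hi : ℤ) (hc : ∀ k, lo ≤ k → k ≤ hi → padicNorm l (c k) ≤ B) (hlo : lo ≤ -(m : ℤ))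
    (hhi : (F.natDegree : ℤ) - m ≤ hi) : padicNorm l (LZ c m F) ≤ B := by
  rw [LZ_eq_sum c m F (Nat.lt_succ_self _)]
  have h := val_sum_le l 1 (Finset.range (F.natDegree + 1))
    (fun j => (F.coeff j : ℚ) * c ((j : ℤ) - m)) hB one_ne_zero ?_
  · rw [pow_one] at h
    exact h
  · intro j hj
    rw [Finset.mem_range] at hj
    rw [pow_one, padicNorm.mul]
    calc padicNorm l (F.coeff j : ℚ) * padicNorm l (c ((j : ℤ) - m))
        ≤ 1 * B := mul_le_mul (padicNorm.of_int _) (hc _ (by omega) (by omega))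
          (padicNorm.nonneg _) zero_le_one
      _ = B := one_mul _

/-- `ent` as a value of `LZ` -/
theorem ent_eq_LZ (a b : ℕ) (c : ℤ → ℚ) (m e : ℕ) :
    ent a b c ((e : ℤ) - m) = LZ c m (X ^ e * wp a b) := by
  have hdeg : (wp a b).natDegree < a + 2 * b + 1 := by
    rw [wp]
    have h1 : (X + C (25 : ℤ)).natDegree ≤ 1 := by compute_degree
    have h2 : (X ^ 2 + C (56 : ℤ) * X + C 800).natDegree ≤ 2 := by compute_degree
    have h3 := natDegree_pow_le_of_le a h1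
    have h4 := natDegree_pow_le_of_le b h2
    have h5 := natDegree_mul_le_of_le h3 h4
    omega
  have h0 : LZ c m (X ^ e * wp a b) = ∑ j ∈ Finset.range (a + 2 * b + 1),
      ((wp a b).coeff j : ℚ) * c ((e : ℤ) - m + j) := by
    conv_lhs => rw [(wp a b).as_sum_range' _ hdeg, Finset.mul_sum, map_sum]
    apply Finset.sum_congr rfl
    intro j _
    rw [X_pow_mul_monomial, LZ_monomial]
    congr 2
    push_cast
    ring
  rw [h0, ent]

theorem win_real (c : ℤ → ℚ) (m : ℕ) (F : ℤ[X]) :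
    ((LZ c m F : ℚ) : ℝ) = NV.Lam (fun k => (c k : ℝ)) m (F.map (Int.castRingHom ℝ)) := by
  induction F using Polynomial.induction_on' with
  | add p q hp hq => rw [map_add, Polynomial.map_add, map_add, Rat.cast_add, hp, hq]
  | monomial k w =>
    rw [LZ_monomial, Polynomial.map_monomial, NV.Lam_monomial]
    simp

/-- the polynomial `τ^2+56τ+800` over `ℤ` -/
noncomputable def QZ : ℤ[X] := X ^ 2 + C 56 * X + C 800

theorem QZ_map : QZ.map (Int.castRingHom ℝ) = NV.Qp := by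
  rw [QZ, NV.Qp]
  have e : ∀ n : ℤ, (C n : ℤ[X]).map (Int.castRingHom ℝ) = C (n : ℝ) := fun n => by
    rw [map_C]; rfl
  simp only [Polynomial.map_mul, Polynomial.map_pow, Polynomial.map_add, map_X, e]
  norm_num

/-- the auxiliary polynomial -/
noncomputable def GZ : ℤ[X] :=
  X * QZ + C 2 * (X + C 25) * X * derivative QZ - C 4 * (X + C 25) * QZ

/-- the Pearson identity for the window (one sequence) -/
theorem win_pearson (Y : ℤ → ℝ)
    (hY : ∀ k : ℤ, (2 * k + 1) * Y k + 50 * k * Y (k - 1) = NV.bd k) (h r : ℕ) :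
    (2 * (h : ℝ) + 1) * NV.Lam Y (2 * (2 * h + 1))
        ((X ^ r * GZ * wp h (2 * h)).map (Int.castRingHom ℝ)) +
      2 * ((r : ℝ) + 1) * NV.Lam Y (2 * (2 * h + 1))
        ((X ^ r * wp (h + 1) (2 * h + 1)).map (Int.castRingHom ℝ)) = 0 := by
  have h1 := NV.pearson Y hY h (2 * h) (2 * (2 * h + 1)) (X ^ r)
  rw [NV.LW_apply] at h1
  have e : ∀ n : ℤ, (C n : ℤ[X]).map (Int.castRingHom ℝ) = C (n : ℝ) := fun n => by
    rw [map_C]; rfl
  have hG : GZ.map (Int.castRingHom ℝ) =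
      X * NV.Qp + C 2 * (X + C 25) * X * derivative NV.Qp - C 4 * (X + C 25) * NV.Qp := by
    rw [GZ, ← QZ_map]
    simp only [Polynomial.map_mul, Polynomial.map_add, Polynomial.map_sub, map_X, e,
      derivative_map]
    norm_num
  have e1 : ((X ^ r * GZ * wp h (2 * h)).map (Int.castRingHom ℝ)) =
      X ^ r * (X * NV.Qp + C 2 * (X + C 25) * X * derivative NV.Qp -
        C 4 * (X + C 25) * NV.Qp) * NV.Wp h (2 * h) := by
    rw [Polynomial.map_mul, Polynomial.map_mul, Polynomial.map_pow, map_X, hG, NV.wp_map]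
  have e2 : ((X ^ r * wp (h + 1) (2 * h + 1)).map (Int.castRingHom ℝ)) =
      X ^ r * ((X + C 25) * NV.Qp) * NV.Wp h (2 * h) := by
    rw [Polynomial.map_mul, Polynomial.map_pow, map_X, NV.wp_map, NV.Wp, NV.Wp, pow_succ, pow_succ]
    ring
  have e3 : (NV.Sp h (2 * h) (2 * (2 * h + 1)) * X ^ r + NV.Tp * derivative (X ^ r)) *
      NV.Wp h (2 * h) =
      C (2 * (h : ℝ) + 1) * (X ^ r * (X * NV.Qp + C 2 * (X + C 25) * X * derivative NV.Qp -
        C 4 * (X + C 25) * NV.Qp) * NV.Wp h (2 * h)) +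
      C (2 * ((r : ℝ) + 1)) * (X ^ r * ((X + C 25) * NV.Qp) * NV.Wp h (2 * h)) := by
    rw [NV.Sp, NV.Tp]
    have h2 : (X : ℝ[X]) * derivative (X ^ r : ℝ[X]) = C (r : ℝ) * X ^ r := by
      rcases Nat.eq_zero_or_pos r with rfl | hr
      · simp
      · obtain ⟨k, rfl⟩ : ∃ k, r = k + 1 := ⟨r - 1, by omega⟩
        rw [derivative_X_pow, Nat.add_sub_cancel]
        ring
    have h3 : C 2 * (X + C 25) * X * NV.Qp * derivative (X ^ r : ℝ[X]) =
        C 2 * (X + C 25) * NV.Qp * (C (r : ℝ) * X ^ r) := by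
      rw [← h2]; ring
    rw [add_mul, h3]
    simp only [map_add, map_mul, C_1, Nat.cast_mul, Nat.cast_add, Nat.cast_one, Nat.cast_ofNat]
    have e2 : (C (2 : ℝ) : ℝ[X]) = 2 := rfl
    have e4 : (C (4 : ℝ) : ℝ[X]) = 4 := rfl
    rw [e2, e4]
    ring
  rw [e3, map_add] at h1
  rw [e1, e2]
  have h4 : ∀ (w : ℝ) (F : ℝ[X]), NV.Lam Y (2 * (2 * h + 1)) (C w * F) =
      w * NV.Lam Y (2 * (2 * h + 1)) F := by
    intro w F
    rw [← smul_eq_C_mul, map_smul, smul_eq_mul]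
  rw [h4, h4] at h1
  exact h1

/-- the identity over `ℚ` for `bco` -/
theorem win_id_bco (h r : ℕ) :
    (2 * (h : ℚ) + 1) * LZ bco (2 * (2 * h + 1)) (X ^ r * GZ * wp h (2 * h)) +
      2 * ((r : ℚ) + 1) * LZ bco (2 * (2 * h + 1)) (X ^ r * wp (h + 1) (2 * h + 1)) = 0 := by
  have h1 := win_pearson (fun k => (bco k : ℝ)) (fun k => NV.bco_rec k) h r
  rw [← win_real, ← win_real] at h1
  exact_mod_cast h1

/-- the identity over `ℚ` for `aco` -/
theorem win_id_aco (h r : ℕ) :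
    (2 * (h : ℚ) + 1) * LZ aco (2 * (2 * h + 1)) (X ^ r * GZ * wp h (2 * h)) +
      2 * ((r : ℚ) + 1) * LZ aco (2 * (2 * h + 1)) (X ^ r * wp (h + 1) (2 * h + 1)) = 0 := by
  have h1 := win_pearson (fun k => (1 : ℝ) * (aco k : ℝ) + (bco k : ℝ))
    (fun k => NV.comb_rec 1 k) h r
  have h3 : (fun k => (1 : ℝ) * (aco k : ℝ) + (bco k : ℝ)) =
      fun k => (((fun k => (1 : ℚ) * aco k + 1 * bco k) k : ℚ) : ℝ) := by
    funext k
    push_cast
    ring
  rw [h3, ← win_real, ← win_real] at h1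
  have h4 : (2 * (h : ℚ) + 1) * LZ (fun k => (1 : ℚ) * aco k + 1 * bco k) (2 * (2 * h + 1))
      (X ^ r * GZ * wp h (2 * h)) +
      2 * ((r : ℚ) + 1) * LZ (fun k => (1 : ℚ) * aco k + 1 * bco k) (2 * (2 * h + 1))
      (X ^ r * wp (h + 1) (2 * h + 1)) = 0 := by
    exact_mod_cast h1
  rw [LZ_comb, LZ_comb] at h4
  have h5 := win_id_bco h r
  linear_combination h4 - h5

/-- the identity for `cpq` -/
theorem win_id (p q : ℤ) (h r : ℕ) :
    (2 * (h : ℚ) + 1) * LZ (cpq p q) (2 * (2 * h + 1)) (X ^ r * GZ * wp h (2 * h)) +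
      2 * ((r : ℚ) + 1) * LZ (cpq p q) (2 * (2 * h + 1)) (X ^ r * wp (h + 1) (2 * h + 1)) = 0 := by
  unfold cpq
  rw [LZ_comb, LZ_comb]
  linear_combination (p : ℚ) * win_id_aco h r + ((2 * q : ℤ) : ℚ) * win_id_bco h r


/-! ### norms -/

theorem win_c_one (p q : ℤ) (l : ℕ) (hl : l.Prime) (h7 : 7 ≤ l) (k : ℤ) (h1 : -(l : ℤ) < k)
    (h2 : 2 * k + 1 < l) : padicNorm l (cpq p q k) ≤ 1 := by
  have : Fact l.Prime := ⟨hl⟩
  have h := (loc_good p q (l - 1) (lo := k) (hi := k) (by omega) (by omega) k le_rfl le_rfl).1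
    l hl (by omega) (by omega)
  rw [padicNorm.mul, loc_norm_lcm_lt (l - 1) l hl (by omega), one_mul] at h
  exact h

theorem win_c_l (p q : ℤ) (l : ℕ) (hl : l.Prime) (h7 : 7 ≤ l) (k : ℤ) (h1 : -((l : ℤ) ^ 2) < k)
    (h2 : 2 * k + 1 < (l : ℤ) ^ 2) : padicNorm l (cpq p q k) ≤ l := by
  have : Fact l.Prime := ⟨hl⟩
  have hl2 : 1 ≤ l ^ 2 := Nat.one_le_pow _ _ (by omega)
  have hc : ((l ^ 2 - 1 : ℕ) : ℤ) = (l : ℤ) ^ 2 - 1 := by
    rw [Nat.cast_sub hl2]; push_cast; ring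
  have h := (loc_good p q (l ^ 2 - 1) (lo := k) (hi := k) (by rw [hc]; omega)
    (by rw [hc]; omega) k le_rfl le_rfl).1 l hl (by omega) (by omega)
  have hlog : Nat.log l (l ^ 2 - 1) = 1 := by
    rw [Nat.log_eq_iff (Or.inr ⟨by omega, by
      have : 7 * 7 ≤ l ^ 2 := by rw [sq]; exact Nat.mul_le_mul h7 h7
      omega⟩)]
    constructor
    · rw [pow_one]
      have : l * 7 ≤ l ^ 2 := by rw [sq]; exact Nat.mul_le_mul le_rfl h7
      omega
    · have h11 : l ^ (1 + 1) = l ^ 2 := rfl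
      omega
  rw [padicNorm.mul, loc_norm_lcm (l ^ 2 - 1) l hl, hlog, pow_one] at h
  have hl0 : (0 : ℚ) < l := by exact_mod_cast hl.pos
  rwa [inv_mul_le_iff₀ hl0, mul_one] at h

theorem wp_natDegree_le (a b : ℕ) : (wp a b).natDegree ≤ a + 2 * b := by
  rw [wp]
  have h1 : (X + C (25 : ℤ)).natDegree ≤ 1 := by compute_degree
  have h2 : (X ^ 2 + C (56 : ℤ) * X + C 800).natDegree ≤ 2 := by compute_degree
  have h3 := natDegree_pow_le_of_le a h1
  have h4 := natDegree_pow_le_of_le b h2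
  have h5 := natDegree_mul_le_of_le h3 h4
  omega

theorem GZ_natDegree_le : GZ.natDegree ≤ 3 := by
  rw [GZ, QZ]
  simp only [derivative_add, derivative_X_pow, derivative_mul, derivative_C, derivative_X]
  compute_degree

/-- the window, monomials -/
theorem win_monomial (p q : ℤ) (h r : ℕ) (hl : (2 * h + 1).Prime) (h7 : 7 ≤ 2 * h + 1)
    (hr : r + 1 ≤ 2 * h) :
    padicNorm (2 * h + 1) (LZ (cpq p q) (2 * (2 * h + 1)) (X ^ r * wp (h + 1) (2 * h + 1))) ≤ 1 := by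
  have : Fact (2 * h + 1).Prime := ⟨hl⟩
  have hh : 3 ≤ h := by omega
  have hh2 : 3 * h ≤ h * h := Nat.mul_le_mul hh le_rfl
  have hh3 : (3 * h : ℤ) ≤ ((h * h : ℕ) : ℤ) := by exact_mod_cast hh2
  have hsqz : ((((2 * h + 1 : ℕ)) : ℤ)) ^ 2 = 4 * ((h * h : ℕ) : ℤ) + 4 * h + 1 := by
    push_cast; ring
  have hB : padicNorm (2 * h + 1) (LZ (cpq p q) (2 * (2 * h + 1)) (X ^ r * GZ * wp h (2 * h))) ≤
      ((2 * h + 1 : ℕ) : ℚ) := by
    have hdeg : (X ^ r * GZ * wp h (2 * h)).natDegree ≤ r + 3 + (h + 2 * (2 * h)) := by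
      apply natDegree_mul_le_of_le
      · apply natDegree_mul_le_of_le (natDegree_X_pow_le r) GZ_natDegree_le
      · exact wp_natDegree_le _ _
    refine LZ_norm_le (2 * h + 1) (cpq p q) _ _ _ (by positivity)
      (-((2 * (2 * h + 1) : ℕ) : ℤ)) (3 * h) (fun k hk1 hk2 => ?_) le_rfl ?_
    · apply win_c_l p q (2 * h + 1) hl h7
      · rw [hsqz]; omega
      · rw [hsqz]; omega
    · push_cast
      omega
  have hid := win_id p q h r
  set A := LZ (cpq p q) (2 * (2 * h + 1)) (X ^ r * wp (h + 1) (2 * h + 1)) with hA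
  set B := LZ (cpq p q) (2 * (2 * h + 1)) (X ^ r * GZ * wp h (2 * h)) with hB'
  have hid2 : ((2 * (r + 1) : ℕ) : ℚ) * A = -(((2 * h + 1 : ℕ) : ℚ) * B) := by
    push_cast
    linear_combination hid
  have hn := congrArg (padicNorm (2 * h + 1)) hid2
  rw [padicNorm.neg, padicNorm.mul, padicNorm.mul] at hn
  have h2 : padicNorm (2 * h + 1) ((2 * (r + 1) : ℕ) : ℚ) = 1 := by
    apply val_norm_nat_eq_one
    intro hd
    rcases (Nat.Prime.dvd_mul hl).1 hd with h3 | h3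
    · have := Nat.le_of_dvd (by omega) h3
      omega
    · have := Nat.le_of_dvd (by omega) h3
      omega
  rw [h2, one_mul, padicNorm.padicNorm_p_of_prime] at hn
  rw [hn]
  have hl0 : (0 : ℚ) < ((2 * h + 1 : ℕ) : ℚ) := by positivity
  rw [inv_mul_le_iff₀ hl0, mul_one]
  exact hB

/-- the window, polynomials -/
theorem win_poly (p q : ℤ) (h : ℕ) (hl : (2 * h + 1).Prime) (h7 : 7 ≤ 2 * h + 1) (n : ℤ[X])
    (hn : n.natDegree + 1 ≤ 2 * h) :
    padicNorm (2 * h + 1) (LZ (cpq p q) (2 * (2 * h + 1)) (n * wp (h + 1) (2 * h + 1))) ≤ 1 := by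
  have : Fact (2 * h + 1).Prime := ⟨hl⟩
  have e : LZ (cpq p q) (2 * (2 * h + 1)) (n * wp (h + 1) (2 * h + 1)) =
      ∑ r ∈ Finset.range (n.natDegree + 1), (n.coeff r : ℚ) *
        LZ (cpq p q) (2 * (2 * h + 1)) (X ^ r * wp (h + 1) (2 * h + 1)) := by
    conv_lhs => rw [n.as_sum_range, Finset.sum_mul, map_sum]
    apply Finset.sum_congr rfl
    intro r _
    rw [← smul_X_eq_monomial, smul_mul_assoc, map_smul, zsmul_eq_mul]
  rw [e]
  have h0 := val_sum_le (2 * h + 1) 1 (Finset.range (n.natDegree + 1))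
    (fun r => (n.coeff r : ℚ) *
        LZ (cpq p q) (2 * (2 * h + 1)) (X ^ r * wp (h + 1) (2 * h + 1))) zero_le_one one_ne_zero ?_
  · rw [pow_one] at h0
    exact h0
  · intro r hr
    rw [Finset.mem_range] at hr
    rw [pow_one, padicNorm.mul]
    exact mul_le_one₀ (padicNorm.of_int _) (padicNorm.nonneg _)
      (win_monomial p q h r hl h7 (by omega))

/-! ### change of rows -/

theorem win_expand (K : ℕ) {p : ℤ[X]} (hp : p.natDegree < K) :
    p = ∑ k : Fin K, p.coeff k • (X : ℤ[X]) ^ (k : ℕ) := by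
  conv_lhs => rw [p.as_sum_range' K hp]
  rw [Finset.sum_range]
  refine Finset.sum_congr rfl fun k _ => ?_
  rw [smul_X_eq_monomial]

theorem win_rows (a b m K : ℕ) (p q : ℤ) (f : ℕ → ℤ[X]) (hf : ∀ i < K, (f i).Monic)
    (hd : ∀ i < K, (f i).natDegree = i) :
    NN a b m K p q =
      (Matrix.of fun i j : Fin K =>
        LZ (cpq p q) m (f i * X ^ (j : ℕ) * wp a b)).det := by
  set U : Matrix (Fin K) (Fin K) ℚ := Matrix.of fun i k => ((f i).coeff k : ℚ) with hU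
  have hdet : U.det = 1 := by
    rw [Matrix.det_of_isLowerTriangular]
    · refine Finset.prod_eq_one fun i _ => ?_
      have h1 := hf i i.2
      rw [Monic, leadingCoeff, hd i i.2] at h1
      rw [hU, Matrix.of_apply, h1, Int.cast_one]
    · intro i j hij
      have hij' : (i : ℕ) < j := hij
      rw [hU, Matrix.of_apply, coeff_eq_zero_of_natDegree_lt (by rw [hd i i.2]; exact hij'),
        Int.cast_zero]
  have hmat : (Matrix.of fun i j : Fin K =>
        LZ (cpq p q) m (f i * X ^ (j : ℕ) * wp a b)) =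
      U * mat K a b m 1 (cpq p q) := by
    ext i j
    rw [Matrix.of_apply, Matrix.mul_apply]
    have hi := win_expand K (by rw [hd i i.2]; exact i.2 : (f i).natDegree < K)
    conv_lhs => rw [hi]
    rw [Finset.sum_mul, Finset.sum_mul, map_sum]
    refine Finset.sum_congr rfl fun k _ => ?_
    rw [smul_mul_assoc, smul_mul_assoc, map_smul, zsmul_eq_mul, ← pow_add, mat, hU,
      Matrix.of_apply, Nat.cast_one, one_mul]
    congr 1
    rw [← ent_eq_LZ]
    push_cast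
    rfl
  rw [hmat, Matrix.det_mul, hdet, one_mul, loc_NN]

theorem win_det_bound (a b m K : ℕ) (p q : ℤ) (l : ℕ) (hl : l.Prime) (f : ℕ → ℤ[X])
    (hf : ∀ i < K, (f i).Monic) (hd : ∀ i < K, (f i).natDegree = i)
    (good : ℕ → Prop) [DecidablePred good] (N : ℕ)
    (hN : ((Finset.range K).filter fun i => ¬ good i).card ≤ N)
    (hgood : ∀ i < K, good i → ∀ j < K,
      padicNorm l (LZ (cpq p q) m (f i * X ^ j * wp a b)) ≤ 1)
    (hall : ∀ i < K, ∀ j < K, padicNorm l (LZ (cpq p q) m (f i * X ^ j * wp a b)) ≤ l) :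
    padicNorm l (NN a b m K p q) ≤ (l : ℚ) ^ N := by
  have : Fact l.Prime := ⟨hl⟩
  rw [win_rows a b m K p q f hf hd]
  have hl1 : (1 : ℚ) ≤ l := by exact_mod_cast hl.one_lt.le
  have h0 := norm_det_le l 1 one_ne_zero
    (Matrix.of fun i j : Fin K => LZ (cpq p q) m (f i * X ^ (j : ℕ) * wp a b))
    (fun i => if good i then 1 else l) (fun _ => 1)
    (fun i => by split_ifs <;> linarith) (fun _ => zero_le_one) ?_
  · rw [pow_one, Finset.prod_const_one, mul_one] at h0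
    refine h0.trans ?_
    rw [Fin.prod_univ_eq_prod_range (fun i => if good i then (1 : ℚ) else l) K, Finset.prod_ite,
      Finset.prod_const_one, one_mul, Finset.prod_const]
    exact pow_le_pow_right₀ hl1 hN
  · intro i j
    rw [Matrix.of_apply, pow_one, mul_one]
    split_ifs with hg
    · exact hgood i i.2 hg j j.2
    · exact hall i i.2 j j.2

end Vale.Agent.P021.Det
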