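import Vale.Agent.P021.Det.LocalOdd

/-!
# General windows: the exponent `(2j+1)/2` at `u = 0`, `z+1` at the end points, pole order `c`
-/

open Polynomial

namespace Vale.Agent.P021.Det

/-- the auxiliary polynomial -/
noncomputable def GG (j z c : ℕ) : ℤ[X] :=
  C (2 * (j : ℤ) + 1) * X * QZ + C (2 * ((z : ℤ) + 1)) * (X + C 25) * X * derivative QZ -
    C (2 * (c : ℤ)) * (X + C 25) * QZ

/-- half integer exponent -/
def gA (h j : ℕ) : ℕ := 2 * h * j + h + j

/-- exponent at the end points -/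
def gB (h z : ℕ) : ℕ := (2 * h + 1) * z + 2 * h

theorem g_pearson (Y : ℤ → ℝ)
    (hY : ∀ k : ℤ, (2 * k + 1) * Y k + 50 * k * Y (k - 1) = NV.bd k) (h j z c r : ℕ) :
    (2 * (h : ℝ) + 1) * NV.Lam Y ((2 * h + 1) * c)
        ((X ^ r * GG j z c * wp (gA h j) (gB h z)).map (Int.castRingHom ℝ)) +
      2 * ((r : ℝ) + 1) * NV.Lam Y ((2 * h + 1) * c)
        ((X ^ r * wp (gA h j + 1) (gB h z + 1)).map (Int.castRingHom ℝ)) = 0 := by
  have h1 := NV.pearson Y hY (gA h j) (gB h z) ((2 * h + 1) * c) (X ^ r)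
  rw [NV.LW_apply] at h1
  have e : ∀ n : ℤ, (C n : ℤ[X]).map (Int.castRingHom ℝ) = C (n : ℝ) := fun n => by
    rw [map_C]; rfl
  have hG : (GG j z c).map (Int.castRingHom ℝ) =
      C (2 * (j : ℝ) + 1) * X * NV.Qp + C (2 * ((z : ℝ) + 1)) * (X + C 25) * X * derivative NV.Qp -
        C (2 * (c : ℝ)) * (X + C 25) * NV.Qp := by
    rw [GG, ← QZ_map]
    simp only [Polynomial.map_mul, Polynomial.map_add, Polynomial.map_sub, map_X, e,
      derivative_map]
    push_cast
    norm_num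
  have e1 : ((X ^ r * GG j z c * wp (gA h j) (gB h z)).map (Int.castRingHom ℝ)) =
      X ^ r * (C (2 * (j : ℝ) + 1) * X * NV.Qp +
        C (2 * ((z : ℝ) + 1)) * (X + C 25) * X * derivative NV.Qp -
        C (2 * (c : ℝ)) * (X + C 25) * NV.Qp) * NV.Wp (gA h j) (gB h z) := by
    rw [Polynomial.map_mul, Polynomial.map_mul, Polynomial.map_pow, map_X, hG, NV.wp_map]
  have e2 : ((X ^ r * wp (gA h j + 1) (gB h z + 1)).map (Int.castRingHom ℝ)) =
      X ^ r * ((X + C 25) * NV.Qp) * NV.Wp (gA h j) (gB h z) := by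
    rw [Polynomial.map_mul, Polynomial.map_pow, map_X, NV.wp_map, NV.Wp, NV.Wp, pow_succ, pow_succ]
    ring
  have e3 : (NV.Sp (gA h j) (gB h z) ((2 * h + 1) * c) * X ^ r + NV.Tp * derivative (X ^ r)) *
      NV.Wp (gA h j) (gB h z) =
      C (2 * (h : ℝ) + 1) * (X ^ r * (C (2 * (j : ℝ) + 1) * X * NV.Qp +
        C (2 * ((z : ℝ) + 1)) * (X + C 25) * X * derivative NV.Qp -
        C (2 * (c : ℝ)) * (X + C 25) * NV.Qp) * NV.Wp (gA h j) (gB h z)) +
      C (2 * ((r : ℝ) + 1)) * (X ^ r * ((X + C 25) * NV.Qp) * NV.Wp (gA h j) (gB h z)) := by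
    rw [NV.Sp, NV.Tp]
    have h2 : (X : ℝ[X]) * derivative (X ^ r : ℝ[X]) = C (r : ℝ) * X ^ r := by
      rcases Nat.eq_zero_or_pos r with rfl | hr
      · simp
      · obtain ⟨k, rfl⟩ : ∃ k, r = k + 1 := ⟨r - 1, by omega⟩
        rw [derivative_X_pow, Nat.add_sub_cancel]
        ring
    have h3 : C 2 * (X + C 25) * X * NV.Qp * derivative (X ^ r : ℝ[X]) =
        C 2 * (X + C 25) * NV.Qp * (C (r : ℝ) * X ^ r) := by
      rw [← h2]; ring
    rw [add_mul, h3]
    have hA : ((gA h j : ℕ) : ℝ) = 2 * (h : ℝ) * j + h + j := by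
      rw [gA]; push_cast; ring
    have hB : ((gB h z : ℕ) : ℝ) = (2 * (h : ℝ) + 1) * z + 2 * h := by
      rw [gB]; push_cast; ring
    rw [hA, hB]
    push_cast
    simp only [map_add, map_mul, C_1]
    have e2 : (C (2 : ℝ) : ℝ[X]) = 2 := rfl
    rw [e2]
    ring
  rw [e3, map_add] at h1
  rw [e1, e2]
  have h4 : ∀ (w : ℝ) (F : ℝ[X]), NV.Lam Y ((2 * h + 1) * c) (C w * F) =
      w * NV.Lam Y ((2 * h + 1) * c) F := by
    intro w F
    rw [← smul_eq_C_mul, map_smul, smul_eq_mul]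
  rw [h4, h4] at h1
  exact h1

theorem g_id_bco (h j z c r : ℕ) :
    (2 * (h : ℚ) + 1) * LZ bco ((2 * h + 1) * c) (X ^ r * GG j z c * wp (gA h j) (gB h z)) +
      2 * ((r : ℚ) + 1) * LZ bco ((2 * h + 1) * c) (X ^ r * wp (gA h j + 1) (gB h z + 1)) = 0 := by
  have h1 := g_pearson (fun k => (bco k : ℝ)) (fun k => NV.bco_rec k) h j z c r
  rw [← win_real, ← win_real] at h1
  exact_mod_cast h1

theorem g_id_aco (h j z c r : ℕ) :
    (2 * (h : ℚ) + 1) * LZ aco ((2 * h + 1) * c) (X ^ r * GG j z c * wp (gA h j) (gB h z)) +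
      2 * ((r : ℚ) + 1) * LZ aco ((2 * h + 1) * c) (X ^ r * wp (gA h j + 1) (gB h z + 1)) = 0 := by
  have h1 := g_pearson (fun k => (1 : ℝ) * (aco k : ℝ) + (bco k : ℝ))
    (fun k => NV.comb_rec 1 k) h j z c r
  have h3 : (fun k => (1 : ℝ) * (aco k : ℝ) + (bco k : ℝ)) =
      fun k => (((fun k => (1 : ℚ) * aco k + 1 * bco k) k : ℚ) : ℝ) := by
    funext k
    push_cast
    ring
  rw [h3, ← win_real, ← win_real] at h1
  have h4 : (2 * (h : ℚ) + 1) * LZ (fun k => (1 : ℚ) * aco k + 1 * bco k) ((2 * h + 1) * c)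
      (X ^ r * GG j z c * wp (gA h j) (gB h z)) +
      2 * ((r : ℚ) + 1) * LZ (fun k => (1 : ℚ) * aco k + 1 * bco k) ((2 * h + 1) * c)
      (X ^ r * wp (gA h j + 1) (gB h z + 1)) = 0 := by
    exact_mod_cast h1
  rw [LZ_comb, LZ_comb] at h4
  have h5 := g_id_bco h j z c r
  linear_combination h4 - h5

theorem g_id (p q : ℤ) (h j z c r : ℕ) :
    (2 * (h : ℚ) + 1) * LZ (cpq p q) ((2 * h + 1) * c)
      (X ^ r * GG j z c * wp (gA h j) (gB h z)) +
      2 * ((r : ℚ) + 1) * LZ (cpq p q) ((2 * h + 1) * c)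
        (X ^ r * wp (gA h j + 1) (gB h z + 1)) = 0 := by
  unfold cpq
  rw [LZ_comb, LZ_comb]
  linear_combination (p : ℚ) * g_id_aco h j z c r + ((2 * q : ℤ) : ℚ) * g_id_bco h j z c r

theorem GG_natDegree_le (j z c : ℕ) : (GG j z c).natDegree ≤ 3 := by
  rw [GG, QZ]
  simp only [derivative_add, derivative_X_pow, derivative_mul, derivative_C, derivative_X]
  compute_degree

/-- the condition on the prime: `c < l` and the range of the exponents is below `l^2/2` -/
def gok (h j z c : ℕ) : Prop :=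
  c < 2 * h + 1 ∧ 2 * (2 * h + gA h j + 2 * gB h z + 2) + 1 <
    (2 * h + 1) ^ 2 + 2 * ((2 * h + 1) * c)

theorem g_monomial (p q : ℤ) (h j z c r : ℕ) (hl : (2 * h + 1).Prime) (h7 : 7 ≤ 2 * h + 1)
    (hok : gok h j z c) (hr : r + 1 ≤ 2 * h) :
    padicNorm (2 * h + 1) (LZ (cpq p q) ((2 * h + 1) * c)
      (X ^ r * wp (gA h j + 1) (gB h z + 1))) ≤ 1 := by
  have : Fact (2 * h + 1).Prime := ⟨hl⟩
  obtain ⟨hc, hrange⟩ := hok
  set l := 2 * h + 1 with hldef
  have hlc : l * c < l ^ 2 := by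
    rw [sq]; exact Nat.mul_lt_mul_of_pos_left hc (by omega)
  have hlcz : ((l * c : ℕ) : ℤ) < (l : ℤ) ^ 2 := by exact_mod_cast hlc
  have hrz : ((2 * (2 * h + gA h j + 2 * gB h z + 2) + 1 : ℕ) : ℤ) <
      (l : ℤ) ^ 2 + 2 * ((l * c : ℕ) : ℤ) := by exact_mod_cast hrange
  have hB : padicNorm l (LZ (cpq p q) (l * c) (X ^ r * GG j z c * wp (gA h j) (gB h z))) ≤
      (l : ℚ) := by
    have hdeg : (X ^ r * GG j z c * wp (gA h j) (gB h z)).natDegree ≤
        r + 3 + (gA h j + 2 * gB h z) := by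
      apply natDegree_mul_le_of_le
      · apply natDegree_mul_le_of_le (natDegree_X_pow_le r) (GG_natDegree_le j z c)
      · exact wp_natDegree_le _ _
    refine LZ_norm_le l (cpq p q) _ _ _ (by positivity)
      (-((l * c : ℕ) : ℤ)) (((r + 3 + (gA h j + 2 * gB h z) : ℕ) : ℤ) - ((l * c : ℕ) : ℤ))
      (fun k hk1 hk2 => ?_) le_rfl ?_
    · apply win_c_l p q l hl h7
      · omega
      · push_cast at hk2 hrz ⊢
        omega
    · have := (Nat.cast_le (α := ℤ)).2 hdeg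
      omega
  have hid := g_id p q h j z c r
  rw [← hldef] at hid
  set A := LZ (cpq p q) (l * c) (X ^ r * wp (gA h j + 1) (gB h z + 1)) with hA
  set B := LZ (cpq p q) (l * c) (X ^ r * GG j z c * wp (gA h j) (gB h z)) with hB'
  have hid2 : ((2 * (r + 1) : ℕ) : ℚ) * A = -((l : ℚ) * B) := by
    have hl' : (l : ℚ) = 2 * (h : ℚ) + 1 := by rw [hldef]; push_cast; ring
    rw [hl']
    push_cast
    linear_combination hid
  have hn := congrArg (padicNorm l) hid2
  rw [padicNorm.neg, padicNorm.mul, padicNorm.mul] at hn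
  have h2 : padicNorm l ((2 * (r + 1) : ℕ) : ℚ) = 1 := by
    apply val_norm_nat_eq_one
    intro hd
    rcases (Nat.Prime.dvd_mul hl).1 hd with h3 | h3
    · have := Nat.le_of_dvd (by omega) h3
      omega
    · have := Nat.le_of_dvd (by omega) h3
      omega
  rw [h2, one_mul, padicNorm.padicNorm_p_of_prime] at hn
  rw [hn]
  have hl0 : (0 : ℚ) < (l : ℚ) := by exact_mod_cast hl.pos
  rw [inv_mul_le_iff₀ hl0, mul_one]
  exact hB

theorem g_poly (p q : ℤ) (h j z c : ℕ) (hl : (2 * h + 1).Prime) (h7 : 7 ≤ 2 * h + 1)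
    (hok : gok h j z c) (n : ℤ[X]) (hn : n.natDegree + 1 ≤ 2 * h) :
    padicNorm (2 * h + 1) (LZ (cpq p q) ((2 * h + 1) * c)
      (n * wp (gA h j + 1) (gB h z + 1))) ≤ 1 := by
  have : Fact (2 * h + 1).Prime := ⟨hl⟩
  have e : LZ (cpq p q) ((2 * h + 1) * c) (n * wp (gA h j + 1) (gB h z + 1)) =
      ∑ r ∈ Finset.range (n.natDegree + 1), (n.coeff r : ℚ) *
        LZ (cpq p q) ((2 * h + 1) * c) (X ^ r * wp (gA h j + 1) (gB h z + 1)) := by
    conv_lhs => rw [n.as_sum_range, Finset.sum_mul, map_sum]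
    apply Finset.sum_congr rfl
    intro r _
    rw [← smul_X_eq_monomial, smul_mul_assoc, map_smul, zsmul_eq_mul]
  rw [e]
  have h0 := val_sum_le (2 * h + 1) 1 (Finset.range (n.natDegree + 1))
    (fun r => (n.coeff r : ℚ) *
        LZ (cpq p q) ((2 * h + 1) * c) (X ^ r * wp (gA h j + 1) (gB h z + 1)))
    zero_le_one one_ne_zero ?_
  · rw [pow_one] at h0
    exact h0
  · intro r hr
    rw [Finset.mem_range] at hr
    rw [pow_one, padicNorm.mul]
    exact mul_le_one₀ (padicNorm.of_int _) (padicNorm.nonneg _)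
      (g_monomial p q h j z c r hl h7 hok (by omega))

/-- the window rows -/
noncomputable def grow (s1 v s2 : ℕ) (i : ℕ) : ℤ[X] :=
  if 2 * s1 + v + s2 ≤ i then
    QZ ^ s1 * (X + C 25) ^ v * X ^ s2 * X ^ (i - (2 * s1 + v + s2))
  else X ^ i

theorem grow_monic (s1 v s2 i : ℕ) : (grow s1 v s2 i).Monic := by
  unfold grow
  split_ifs
  · exact (((QZ_monic.pow _).mul ((monic_X_add_C 25).pow _)).mul (monic_X_pow _)).mul
      (monic_X_pow _)
  · exact monic_X_pow _

theorem grow_natDegree (s1 v s2 i : ℕ) : (grow s1 v s2 i).natDegree = i := by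
  unfold grow
  split_ifs with h1
  · have m1 := (QZ_monic.pow s1)
    have m2 := ((monic_X_add_C (25 : ℤ)).pow v)
    rw [Monic.natDegree_mul ((m1.mul m2).mul (monic_X_pow _)) (monic_X_pow _),
      Monic.natDegree_mul (m1.mul m2) (monic_X_pow _), Monic.natDegree_mul m1 m2,
      Monic.natDegree_pow QZ_monic, Monic.natDegree_pow (monic_X_add_C 25), natDegree_X_pow,
      natDegree_X_pow, QZ_natDegree, natDegree_X_add_C]
    omega
  · exact natDegree_X_pow _

/-- good window rows -/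
theorem grow_good (a b m K : ℕ) (p q : ℤ) (h j z c : ℕ) (hl : (2 * h + 1).Prime)
    (h7 : 7 ≤ 2 * h + 1) (hok : gok h j z c) (i k : ℕ) (hk : k < K)
    (h1 : 2 * (gB h z + 1 - b) + (gA h j + 1 - a) + (m - (2 * h + 1) * c) ≤ i)
    (h2 : i + K + a + 2 * b + (2 * h + 1) * c ≤ 2 * h + gA h j + 1 + 2 * (gB h z + 1) + m) :
    padicNorm (2 * h + 1) (LZ (cpq p q) m
      (grow (gB h z + 1 - b) (gA h j + 1 - a) (m - (2 * h + 1) * c) i * X ^ k * wp a b)) ≤ 1 := by
  have : Fact (2 * h + 1).Prime := ⟨hl⟩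
  set M := (2 * h + 1) * c with hM
  set A' := gA h j + 1 with hA'
  set B' := gB h z + 1 with hB'
  set v := A' - a with hv
  set s := 2 * (B' - b) + v + (m - M) with hs
  set A := a + v with hA
  set B := b + (B' - b) with hB
  have hA1 : A' ≤ A := by omega
  have hB1 : B' ≤ B := by omega
  set n : ℤ[X] := X ^ (M - m) * X ^ (i - s + k) * wp (A - A') (B - B') with hn
  have hdeg : n.natDegree + 1 ≤ 2 * h := by
    have hd : n.natDegree ≤ (M - m) + (i - s + k) + ((A - A') + 2 * (B - B')) := by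
      apply natDegree_mul_le_of_le
      · exact natDegree_mul_le_of_le (natDegree_X_pow_le _) (natDegree_X_pow_le _)
      · exact wp_natDegree_le _ _
    omega
  have hkey := g_poly p q h j z c hl h7 hok n hdeg
  have hF : X ^ (M - m) * (grow (B' - b) v (m - M) i * X ^ k * wp a b) =
      X ^ (m - M) * (n * wp A' B') := by
    unfold grow
    rw [if_pos h1, hn]
    have e1 : wp (A - A') (B - B') * wp A' B' = wp A B := by
      rw [wp_mul]; congr 1 <;> omega
    have e2 : QZ ^ (B' - b) * (X + C 25) ^ v * wp a b = wp A B := by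
      have : QZ ^ (B' - b) * (X + C 25) ^ v = wp v (B' - b) := by
        unfold wp QZ; ring
      rw [this, wp_mul]; congr 1 <;> omega
    calc X ^ (M - m) * (QZ ^ (B' - b) * (X + C 25) ^ v * X ^ (m - M) * X ^ (i - s) * X ^ k *
          wp a b)
        = X ^ (M - m) * X ^ (m - M) * X ^ (i - s + k) *
          (QZ ^ (B' - b) * (X + C 25) ^ v * wp a b) := by rw [pow_add]; ring
      _ = X ^ (M - m) * X ^ (m - M) * X ^ (i - s + k) *
          (wp (A - A') (B - B') * wp A' B') := by rw [e1, e2]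
      _ = _ := by ring
  have hval : LZ (cpq p q) m (grow (B' - b) v (m - M) i * X ^ k * wp a b) =
      LZ (cpq p q) M (n * wp A' B') := by
    have s1 := LZ_shift (cpq p q) m (M - m) (grow (B' - b) v (m - M) i * X ^ k * wp a b)
    have s2 := LZ_shift (cpq p q) M (m - M) (n * wp A' B')
    have hidx : m + (M - m) = M + (m - M) := by omega
    rw [← s1, ← s2, hF, hidx]
  rw [hval]
  exact hkey

/-- the bound in the window basis -/
theorem g_window (a b m K : ℕ) (p q : ℤ) (h j z c : ℕ) (hl : (2 * h + 1).Prime)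
    (h7 : 7 ≤ 2 * h + 1) (hok : gok h j z c)
    (hr : rng a b m K < (2 * h + 1) ^ 2) : padicNorm (2 * h + 1) (NN a b m K p q) ≤
      ((2 * h + 1 : ℕ) : ℚ) ^ ((2 * (gB h z + 1 - b) + (gA h j + 1 - a) +
        (m - (2 * h + 1) * c)) +
        ((2 * K + a + 2 * b + (2 * h + 1) * c) - (2 * h + gA h j + 1 + 2 * (gB h z + 1) + m) +
          1)) := by
  have : Fact (2 * h + 1).Prime := ⟨hl⟩
  refine win_det_bound a b m K p q (2 * h + 1) hl
    (grow (gB h z + 1 - b) (gA h j + 1 - a) (m - (2 * h + 1) * c))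
    (fun i _ => grow_monic _ _ _ _) (fun i _ => grow_natDegree _ _ _ _)
    (fun i => 2 * (gB h z + 1 - b) + (gA h j + 1 - a) + (m - (2 * h + 1) * c) ≤ i ∧
      i + K + a + 2 * b + (2 * h + 1) * c ≤ 2 * h + gA h j + 1 + 2 * (gB h z + 1) + m) _ ?_
    (fun i _ hg k hk => grow_good a b m K p q h j z c hl h7 hok i k hk hg.1 hg.2)
    (fun i hi k hk => lo_all a b m K p q _ hl h7 hr _ (grow_natDegree _ _ _ _) hi hk)
  apply lo_count
  intro i hi hni
  by_contra hcon
  rw [not_or] at hcon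
  apply hni
  omega

end Vale.Agent.P021.Det
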